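import Vale.Agent.P334.H100.Defs
import Mathlib.NumberTheory.Bertrand

/-!
Block A: some list of the family of positions hits all the sets, in some order.
-/

namespace Vale.Agent.P334.Det.A344

open Finset Vale.Agent.P334.Det

/-- Pairs of a rectangular index set, by the quotient and the remainder. -/
theorem sum_divMod (p : ℕ) (hp : 0 < p) (f : ℕ → ℕ → ℝ) :
    ∑ e ∈ range (p ^ 2), f (e % p) (e / p) = ∑ a ∈ range p, ∑ b ∈ range p, f a b := by
  rw [← Finset.sum_product']
  refine Finset.sum_bij' (fun e _ => (e % p, e / p)) (fun x _ => x.1 + p * x.2) ?_ ?_ ?_ ?_ ?_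
  · intro e he
    rw [mem_range] at he
    rw [mem_product, mem_range, mem_range]
    exact ⟨Nat.mod_lt _ hp, Nat.div_lt_of_lt_mul (by rw [← sq]; exact he)⟩
  · intro x hx
    rw [mem_product, mem_range, mem_range] at hx
    rw [mem_range]
    have h2 : x.2 + 1 ≤ p := hx.2
    calc x.1 + p * x.2 < p + p * x.2 := by omega
      _ = p * (x.2 + 1) := by ring
      _ ≤ p * p := Nat.mul_le_mul_left _ h2
      _ = p ^ 2 := (sq p).symm
  · intro e _
    exact Nat.mod_add_div e p
  · intro x hx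
    rw [mem_product, mem_range, mem_range] at hx
    refine Prod.ext ?_ ?_
    · simp only [Nat.add_mul_mod_self_left]
      exact Nat.mod_eq_of_lt hx.1
    · simp only [Nat.add_mul_div_left _ _ hp]
      rw [Nat.div_eq_of_lt hx.1, zero_add]
  · intro e _
    rfl

/-- The point with number `e` of the line with parameters `e / p`, `e % p` at `x`. -/
def pt (p e x : ℕ) : ℕ := x * p + (e / p * x + e % p) % p

/-- A set with more than `2 * p` elements is missed by less than one half of the lines. -/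
theorem missed_card (hP : PairSpec) (p : ℕ) (hp : p.Prime) (G : Finset ℕ) (hG : G ⊆ range (p ^ 2))
    (hc : 2 * p < G.card) :
    2 * ((range (p ^ 2)).filter (fun e => ∀ x < p, pt p e x ∉ G)).card ≤ p ^ 2 := by
  have hp0 : 0 < p := hp.pos
  let E : ℕ → Finset ℕ := fun x => (range p).filter (fun y => x * p + y ∈ G)
  have hS : ∑ x ∈ range p, (E x).card = G.card := by
    rw [← Finset.card_sigma]
    refine Finset.card_bij' (fun s _ => s.1 * p + s.2) (fun g _ => ⟨g / p, g % p⟩) ?_ ?_ ?_ ?_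
    · rintro ⟨x, y⟩ h
      rw [mem_sigma, mem_filter] at h
      exact h.2.2
    · intro g hg
      have hg2 := mem_range.1 (hG hg)
      rw [mem_sigma, mem_range, mem_filter, mem_range]
      refine ⟨Nat.div_lt_of_lt_mul (by rw [← sq]; exact hg2), Nat.mod_lt _ hp0, ?_⟩
      show g / p * p + g % p ∈ G
      rw [Nat.div_add_mod']
      exact hg
    · rintro ⟨x, y⟩ h
      rw [mem_sigma, mem_filter, mem_range, mem_range] at h
      have hy : y < p := h.2.1
      have h1 : (x * p + y) / p = x := by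
        rw [mul_comm, Nat.mul_add_div hp0, Nat.div_eq_of_lt hy, add_zero]
      have h2 : (x * p + y) % p = y := by
        rw [mul_comm, Nat.mul_add_mod, Nat.mod_eq_of_lt hy]
      simp only [h1, h2]
    · intro g _
      exact Nat.div_add_mod' g p
  have hSR : ∑ x ∈ range p, ((E x).card : ℝ) = (G.card : ℝ) := by exact_mod_cast hS
  have key := hP p p E hp le_rfl (fun i _ => filter_subset _ _)
  rw [hSR] at key
  rw [← sum_divMod p hp0 (fun A B =>
    ((((range p).filter (fun i => (A + i * B) % p ∈ E i)).card : ℝ) - (G.card : ℝ) / p) ^ 2)] at key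
  have hpR : (0 : ℝ) < p := by exact_mod_cast hp0
  have hcR : 2 * (p : ℝ) < (G.card : ℝ) := by exact_mod_cast hc
  have hlow : ∑ e ∈ (range (p ^ 2)).filter (fun e => ∀ x < p, pt p e x ∉ G),
      ((G.card : ℝ) / p) ^ 2 ≤ ∑ e ∈ range (p ^ 2),
        ((((range p).filter (fun i => (e % p + i * (e / p)) % p ∈ E i)).card : ℝ) -
          (G.card : ℝ) / p) ^ 2 := by
    have hsub : (range (p ^ 2)).filter (fun e => ∀ x < p, pt p e x ∉ G) ⊆ range (p ^ 2) :=
      filter_subset _ _
    refine le_trans (le_of_eq ?_) (Finset.sum_le_sum_of_subset_of_nonneg hsub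
      (fun _ _ _ => sq_nonneg _))
    refine Finset.sum_congr rfl fun e he => ?_
    rw [mem_filter] at he
    have : (range p).filter (fun i => (e % p + i * (e / p)) % p ∈ E i) = ∅ := by
      refine Finset.filter_eq_empty_iff.2 fun i hi hmem => ?_
      rw [mem_filter] at hmem
      refine he.2 i (mem_range.1 hi) ?_
      have h2 := hmem.2
      unfold pt
      rwa [show e / p * i + e % p = e % p + i * (e / p) by ring]
    rw [this, card_empty]
    push_cast
    ring
  rw [Finset.sum_const, nsmul_eq_mul] at hlow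
  set K := ((range (p ^ 2)).filter (fun e => ∀ x < p, pt p e x ∉ G)).card with hK
  have h1 : (K : ℝ) * ((G.card : ℝ) / p) ^ 2 ≤ p * (G.card : ℝ) := hlow.trans key
  have h2 : (K : ℝ) * (G.card : ℝ) ≤ (p : ℝ) ^ 3 := by
    have hgpos : (0 : ℝ) < (G.card : ℝ) := by linarith
    have e1 : (K : ℝ) * ((G.card : ℝ) / p) ^ 2 = (K : ℝ) * (G.card : ℝ) * ((G.card : ℝ) / p ^ 2) := by
      field_simp
    rw [e1] at h1
    have hp2 : (0 : ℝ) < (p : ℝ) ^ 2 := by positivity
    have h3 : (K : ℝ) * (G.card : ℝ) * ((G.card : ℝ) / p ^ 2) ≤ (p : ℝ) ^ 3 * ((G.card : ℝ) / p ^ 2) := by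
      refine h1.trans (le_of_eq ?_)
      field_simp
    exact le_of_mul_le_mul_right h3 (by positivity)
  have h3 : (2 : ℝ) * K ≤ (p : ℝ) ^ 2 := by
    have h4 : (K : ℝ) * (2 * p) ≤ (p : ℝ) ^ 3 := by
      refine le_trans (mul_le_mul_of_nonneg_left hcR.le (Nat.cast_nonneg _)) h2
    nlinarith
  exact_mod_cast h3

/-- Some line hits at least one half of the sets. -/
theorem exists_line (hP : PairSpec) {X : Type} (p : ℕ) (hp : p.Prime) (R : Finset X)
    (G : X → Finset ℕ) (hG : ∀ o ∈ R, G o ⊆ range (p ^ 2)) (hc : ∀ o ∈ R, 2 * p < (G o).card) :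
    ∃ e < p ^ 2, 2 * (R.filter (fun o => ∀ x < p, pt p e x ∉ G o)).card ≤ R.card := by
  by_contra hcon
  push Not at hcon
  have h1 : ∑ e ∈ range (p ^ 2), R.card <
      ∑ e ∈ range (p ^ 2), 2 * (R.filter (fun o => ∀ x < p, pt p e x ∉ G o)).card := by
    refine Finset.sum_lt_sum_of_nonempty ⟨0, mem_range.2 (pow_pos hp.pos 2)⟩ fun e he => ?_
    exact hcon e (mem_range.1 he)
  rw [← Finset.mul_sum, Finset.sum_const, card_range, smul_eq_mul] at h1
  have h2 : ∑ e ∈ range (p ^ 2), (R.filter (fun o => ∀ x < p, pt p e x ∉ G o)).card =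
      ∑ o ∈ R, ((range (p ^ 2)).filter (fun e => ∀ x < p, pt p e x ∉ G o)).card := by
    simp_rw [Finset.card_filter]
    exact Finset.sum_comm
  rw [h2, Finset.mul_sum] at h1
  have h3 : ∑ o ∈ R, 2 * ((range (p ^ 2)).filter (fun e => ∀ x < p, pt p e x ∉ G o)).card ≤
      ∑ o ∈ R, p ^ 2 :=
    Finset.sum_le_sum fun o ho => missed_card hP p hp (G o) (hG o ho) (hc o ho)
  rw [Finset.sum_const, smul_eq_mul] at h3
  have : R.card * p ^ 2 = p ^ 2 * R.card := mul_comm _ _
  omega

/-- A list of values is the image of a list. -/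
theorem exists_map {X : Type} (f : X → ℕ) (S : X → Prop) (L : List ℕ)
    (h : ∀ y ∈ L, ∃ o, S o ∧ f o = y) : ∃ os : List X, os.map f = L ∧ ∀ o ∈ os, S o := by
  induction L with
  | nil => exact ⟨[], rfl, by simp⟩
  | cons y L ih =>
    obtain ⟨os, h1, h2⟩ := ih fun y hy => h y (List.mem_cons_of_mem _ hy)
    obtain ⟨o, h3, h4⟩ := h y (List.mem_cons_self ..)
    refine ⟨o :: os, by rw [List.map_cons, h1, h4], ?_⟩
    intro o' ho'
    rcases List.mem_cons.1 ho' with rfl | h5
    · exact h3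
    · exact h2 _ h5

/-- The invariant of the levels. -/
theorem levels (hP : PairSpec) (hE : AdvMemSpec) {X : Type} [DecidableEq X] (p m : ℕ)
    (hp : p.Prime) (Q : Finset X) (hQ : Q.card ≤ m) (G : X → Finset ℕ)
    (hG : ∀ o ∈ Q, G o ⊆ range (p ^ 2)) (hc : ∀ o ∈ Q, 2 * p < (G o).card)
    (hd : ∀ o ∈ Q, ∀ o' ∈ Q, o ≠ o' → Disjoint (G o) (G o')) (j : ℕ) :
    ∃ l ∈ advs p (p ^ 2) m j, ∃ R ⊆ Q, R.card * 2 ^ j ≤ m ∧ ∃ os : List X, os.Nodup ∧
      os.toFinset = Q \ R ∧ List.Forall₂ (fun i o => i ∈ G o) (pts p l) os := by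
  induction j with
  | zero =>
    refine ⟨[], by simp [advs], Q, subset_rfl, by simpa using hQ, [], List.nodup_nil, by simp, ?_⟩
    simp [pts]
  | succ j ih =>
    obtain ⟨l, hl, R, hRQ, hRc, os, hos, hosR, hF⟩ := ih
    obtain ⟨e, he, hmiss⟩ := exists_line hP p hp R G (fun o ho => hG o (hRQ ho))
      (fun o ho => hc o (hRQ ho))
    set R' := R.filter (fun o => ∀ x < p, pt p e x ∉ G o) with hR'
    have hex : ∀ o, ∃ x, o ∈ R \ R' → x < p ∧ pt p e x ∈ G o := by
      intro o
      by_cases ho : o ∈ R \ R'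
      · rw [mem_sdiff, hR', mem_filter] at ho
        have h2 : ¬ ∀ x < p, pt p e x ∉ G o := fun h => ho.2 ⟨ho.1, h⟩
        push Not at h2
        obtain ⟨x, hx, hxo⟩ := h2
        exact ⟨x, fun _ => ⟨hx, hxo⟩⟩
      · exact ⟨0, fun h => absurd h ho⟩
    choose f hf using hex
    have hfinj : Set.InjOn f (R \ R' : Finset X) := by
      intro o ho o' ho' hoo
      by_contra hne
      have hoR := (mem_sdiff.1 (mem_coe.1 ho)).1
      have hoR' := (mem_sdiff.1 (mem_coe.1 ho')).1
      have hdis := hd o (hRQ hoR) o' (hRQ hoR') hne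
      refine Finset.disjoint_left.1 hdis (hf o ho).2 ?_
      rw [hoo]
      exact (hf o' ho').2
    set Y : Finset ℕ := (R \ R').image f with hY
    have hYp : Y ⊆ range p := by
      intro y hy
      rw [hY, mem_image] at hy
      obtain ⟨o, ho, rfl⟩ := hy
      exact mem_range.2 (hf o ho).1
    have hYc : Y.card ≤ m / 2 ^ j := by
      rw [Nat.le_div_iff_mul_le (by positivity)]
      refine le_trans (Nat.mul_le_mul_right _ ?_) hRc
      exact card_image_le.trans (card_le_card sdiff_subset)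
    set LY : List ℕ := (List.range p).filter fun i => decide (i ∈ Y) with hLY
    have hmemLY : ∀ y, y ∈ LY ↔ y ∈ Y := by
      intro y
      rw [hLY, List.mem_filter, List.mem_range, decide_eq_true_eq]
      exact ⟨fun h => h.2, fun h => ⟨mem_range.1 (hYp h), h⟩⟩
    have hndLY : LY.Nodup := List.nodup_range.filter _
    obtain ⟨ns, hnsmap, hnsmem⟩ := exists_map f (fun o => o ∈ R \ R') LY (by
      intro y hy
      obtain ⟨o, ho, hoy⟩ := mem_image.1 (hY ▸ (hmemLY y).1 hy)
      exact ⟨o, ho, hoy⟩)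
    have hmemns : ∀ o, o ∈ ns ↔ o ∈ R \ R' := by
      intro o
      refine ⟨hnsmem o, fun ho => ?_⟩
      have h1 : f o ∈ LY := (hmemLY _).2 (hY ▸ mem_image_of_mem f ho)
      rw [← hnsmap, List.mem_map] at h1
      obtain ⟨o', ho', hoo⟩ := h1
      rwa [hfinj (mem_coe.2 ho) (mem_coe.2 (hnsmem o' ho')) hoo.symm]
    refine ⟨(e, LY) :: l, hE p (p ^ 2) m j e l Y hl he hYp hYc, R', ?_, ?_, ns ++ os, ?_, ?_, ?_⟩
    · exact (filter_subset _ _).trans hRQ
    · calc R'.card * 2 ^ (j + 1) = 2 * R'.card * 2 ^ j := by ring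
        _ ≤ R.card * 2 ^ j := Nat.mul_le_mul_right _ hmiss
        _ ≤ m := hRc
    · refine List.nodup_append'.2 ⟨List.Nodup.of_map f (hnsmap ▸ hndLY), hos, ?_⟩
      intro o h1 h2
      have h3 : o ∈ Q \ R := by rw [← hosR]; exact List.mem_toFinset.2 h2
      exact (mem_sdiff.1 h3).2 (mem_sdiff.1 ((hmemns o).1 h1)).1
    · ext o
      rw [List.toFinset_append, mem_union, List.mem_toFinset, hmemns, hosR, mem_sdiff, mem_sdiff,
        mem_sdiff]
      constructor
      · rintro (h | h)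
        · exact ⟨hRQ h.1, h.2⟩
        · exact ⟨h.1, fun h' => h.2 ((filter_subset _ _) h')⟩
      · rintro ⟨h1, h2⟩
        by_cases h3 : o ∈ R
        · exact Or.inl ⟨h3, h2⟩
        · exact Or.inr ⟨h1, h3⟩
    · have hpts : pts p ((e, LY) :: l) = (ns.map fun o => pt p e (f o)) ++ pts p l := by
        rw [← hnsmap]
        simp [pts, pt, List.map_map, Function.comp_def]
      rw [hpts]
      refine List.rel_append (R := fun i o => i ∈ G o) ?_ hF
      rw [List.forall₂_map_left_iff, List.forall₂_same]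
      intro o ho
      exact (hf o ((hmemns o).1 ho)).2

/-- The number of elements of a long interval with residues in a given set. -/
theorem card_residues (n P : ℕ) (hn : 0 < n) (I : Finset ℕ) (hI : I ⊆ range n) :
    I.card * (P / n) ≤ ((range P).filter (fun y => y % n ∈ I)).card := by
  have h1 : (I ×ˢ range (P / n)).card = I.card * (P / n) := by
    rw [card_product, card_range]
  rw [← h1]
  refine Finset.card_le_card_of_injOn (fun x => x.1 + n * x.2) ?_ ?_
  · rintro ⟨i, k⟩ h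
    rw [mem_coe, mem_product, mem_range] at h
    have hi : i < n := mem_range.1 (hI h.1)
    have hk : k + 1 ≤ P / n := h.2
    rw [mem_coe, mem_filter, mem_range]
    refine ⟨?_, ?_⟩
    · show i + n * k < P
      calc i + n * k < n + n * k := by omega
        _ = n * (k + 1) := by ring
        _ ≤ n * (P / n) := Nat.mul_le_mul_left _ hk
        _ ≤ P := Nat.mul_div_le P n
    · show (i + n * k) % n ∈ I
      rw [Nat.add_mul_mod_self_left, Nat.mod_eq_of_lt hi]
      exact h.1
  · rintro ⟨i, k⟩ h ⟨i', k'⟩ h' heq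
    rw [mem_coe, mem_product, mem_range] at h h'
    have hi : i < n := mem_range.1 (hI h.1)
    have hi' : i' < n := mem_range.1 (hI h'.1)
    have heq' : i + n * k = i' + n * k' := heq
    have e1 : i = i' := by
      have := congrArg (· % n) heq'
      simp only [Nat.add_mul_mod_self_left, Nat.mod_eq_of_lt hi, Nat.mod_eq_of_lt hi'] at this
      exact this
    have e2 : k = k' := by
      have := congrArg (· / n) heq'
      simp only [Nat.add_mul_div_left _ _ hn, Nat.div_eq_of_lt hi, Nat.div_eq_of_lt hi',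
        zero_add] at this
      exact this
    rw [e1, e2]

/-- The same with real numbers. -/
theorem card_residues_real (n P : ℕ) (hn : 0 < n) (hP : n ≤ P) (I : Finset ℕ) (hI : I ⊆ range n) :
    (I.card : ℝ) * (P / (2 * n)) ≤ (((range P).filter (fun y => y % n ∈ I)).card : ℝ) := by
  have h1 : (I.card : ℝ) * ((P / n : ℕ) : ℝ) ≤
      (((range P).filter (fun y => y % n ∈ I)).card : ℝ) := by
    exact_mod_cast card_residues n P hn I hI
  refine le_trans (mul_le_mul_of_nonneg_left ?_ (Nat.cast_nonneg _)) h1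
  have h2 : P ≤ 2 * n * (P / n) := by
    have h3 : 1 ≤ P / n := (Nat.one_le_div_iff hn).2 hP
    have h4 := Nat.mod_lt P hn
    have h5 := Nat.mod_add_div P n
    have h6 : n * 1 ≤ n * (P / n) := Nat.mul_le_mul_left n h3
    have h7 : 2 * n * (P / n) = n * (P / n) + n * (P / n) := by ring
    omega
  have hnR : (0 : ℝ) < n := by exact_mod_cast hn
  rw [div_le_iff₀ (by positivity)]
  have h8 : (P : ℝ) ≤ 2 * n * ((P / n : ℕ) : ℝ) := by exact_mod_cast h2
  linarith

/-- Few pairs hit a set less than one half of the expected number of times. -/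
theorem bad_card (hP : PairSpec) (P s : ℕ) (hPp : P.Prime) (hs : s ≤ P) (E : Finset ℕ)
    (hE : E ⊆ range P) (mu : ℝ) (hmu : mu = s * (E.card : ℝ) / P) (hmu0 : 0 < mu) :
    (((range P ×ˢ range P).filter (fun x =>
      (((range s).filter (fun i => (x.1 + i * x.2) % P ∈ E)).card : ℝ) < mu / 2)).card : ℝ) ≤
        4 * (P : ℝ) ^ 2 / mu := by
  have hPR : (0 : ℝ) < P := by exact_mod_cast hPp.pos
  have key := hP P s (fun _ => E) hPp hs (fun _ _ => hE)
  have hsum : ∑ i ∈ range s, (E.card : ℝ) = s * (E.card : ℝ) := by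
    rw [Finset.sum_const, card_range, nsmul_eq_mul]
  simp only [hsum, ← hmu] at key
  rw [← Finset.sum_product' (range P) (range P) (fun A B =>
    ((((range s).filter (fun i => (A + i * B) % P ∈ E)).card : ℝ) - mu) ^ 2)] at key
  set Bad := (range P ×ˢ range P).filter (fun x =>
      (((range s).filter (fun i => (x.1 + i * x.2) % P ∈ E)).card : ℝ) < mu / 2) with hBad
  have hsub : Bad ⊆ range P ×ˢ range P := filter_subset _ _
  have hlow : ∑ x ∈ Bad, (mu / 2) ^ 2 ≤ ∑ x ∈ range P ×ˢ range P,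
      ((((range s).filter (fun i => (x.1 + i * x.2) % P ∈ E)).card : ℝ) - mu) ^ 2 := by
    refine le_trans (Finset.sum_le_sum fun x hx => ?_)
      (Finset.sum_le_sum_of_subset_of_nonneg hsub (fun _ _ _ => sq_nonneg _))
    have h1 := (mem_filter.1 hx).2
    nlinarith
  rw [Finset.sum_const, nsmul_eq_mul] at hlow
  have h2 : (Bad.card : ℝ) * (mu / 2) ^ 2 ≤ P * (s * (E.card : ℝ)) := hlow.trans key
  have h3 : (P : ℝ) * (s * (E.card : ℝ)) = (P : ℝ) ^ 2 * mu := by
    rw [hmu]; field_simp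
  rw [h3] at h2
  rw [le_div_iff₀ hmu0]
  have h4 : (Bad.card : ℝ) * mu * mu ≤ 4 * (P : ℝ) ^ 2 * mu := by nlinarith
  exact le_of_mul_le_mul_right h4 hmu0

/-- Some pair of parameters hits all the sets often. -/
theorem first_stage (hP : PairSpec) {X : Type} (n m p P : ℕ) (hn : 0 < n) (hm : 1 ≤ m)
    (hp : 4576000000 * m < p) (hPp : P.Prime) (hPl : 2 * p ^ 2 * n < P) (Q : Finset X)
    (hQ : Q.card ≤ m) (I : X → Finset ℕ) (hI : ∀ o ∈ Q, I o ⊆ range n)
    (hIc : ∀ o ∈ Q, (1 / 572000000 : ℝ) * n / m ≤ ((I o).card : ℝ)) :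
    ∃ A < P, ∃ B < P, ∀ o ∈ Q,
      2 * p < ((range (p ^ 2)).filter (fun i => (A + i * B) % P % n ∈ I o)).card := by
  have hnR : (0 : ℝ) < n := by exact_mod_cast hn
  have hmR : (1 : ℝ) ≤ m := by exact_mod_cast hm
  have hp0 : 0 < p := by omega
  have hpR : (0 : ℝ) < p := by exact_mod_cast hp0
  have hPR : (0 : ℝ) < P := by exact_mod_cast hPp.pos
  have hpm : (4576000000 : ℝ) * m < p := by exact_mod_cast hp
  have hp2n : p ^ 2 ≤ P := by
    have : p ^ 2 * 1 ≤ p ^ 2 * n := Nat.mul_le_mul_left _ hn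
    nlinarith
  have hnP : n ≤ P := by
    have : 1 * n ≤ p ^ 2 * n := Nat.mul_le_mul_right _ (Nat.pos_of_ne_zero (by positivity))
    nlinarith
  set E : X → Finset ℕ := fun o => (range P).filter (fun y => y % n ∈ I o) with hE
  have hEc : ∀ o ∈ Q, (P : ℝ) / (2 * 572000000 * m) ≤ ((E o).card : ℝ) := by
    intro o ho
    refine le_trans ?_ (card_residues_real n P hn hnP (I o) (hI o ho))
    refine le_trans (le_of_eq ?_) (mul_le_mul_of_nonneg_right (hIc o ho) (by positivity))
    field_simp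
  set mu : X → ℝ := fun o => ((p ^ 2 : ℕ) : ℝ) * ((E o).card : ℝ) / P with hmu
  have hmul : ∀ o ∈ Q, (p : ℝ) ^ 2 / (2 * 572000000 * m) ≤ mu o := by
    intro o ho
    have h1 := hEc o ho
    rw [hmu]
    simp only
    rw [le_div_iff₀ hPR]
    push_cast
    calc (p : ℝ) ^ 2 / (2 * 572000000 * m) * P = (p : ℝ) ^ 2 * (P / (2 * 572000000 * m)) := by
          ring
      _ ≤ (p : ℝ) ^ 2 * ((E o).card : ℝ) := mul_le_mul_of_nonneg_left h1 (by positivity)
  have hmuN : ∀ o ∈ Q, 4 * (p : ℝ) < mu o := by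
    intro o ho
    refine lt_of_lt_of_le ?_ (hmul o ho)
    rw [lt_div_iff₀ (by positivity)]
    nlinarith
  set Bad : X → Finset (ℕ × ℕ) := fun o => (range P ×ˢ range P).filter (fun x =>
      (((range (p ^ 2)).filter (fun i => (x.1 + i * x.2) % P ∈ E o)).card : ℝ) < mu o / 2) with hBad
  have hBc : ∀ o ∈ Q, ((Bad o).card : ℝ) < (P : ℝ) ^ 2 / m := by
    intro o ho
    have h0 : 0 < mu o := lt_trans (by positivity) (hmuN o ho)
    refine lt_of_le_of_lt (bad_card hP P (p ^ 2) hPp hp2n (E o) (filter_subset _ _) (mu o) rfl h0) ?_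
    rw [div_lt_div_iff₀ h0 (by positivity)]
    have h1 : 4 * (m : ℝ) < mu o := lt_trans (by nlinarith) (hmuN o ho)
    calc 4 * (P : ℝ) ^ 2 * m = (P : ℝ) ^ 2 * (4 * m) := by ring
      _ < (P : ℝ) ^ 2 * mu o := mul_lt_mul_of_pos_left h1 (by positivity)
  have hex : ∃ x ∈ range P ×ˢ range P, ∀ o ∈ Q, x ∉ Bad o := by
    by_contra hcon
    push Not at hcon
    have h1 : range P ×ˢ range P ⊆ Q.biUnion Bad := by
      intro x hx
      obtain ⟨o, ho, hxo⟩ := hcon x hx
      exact mem_biUnion.2 ⟨o, ho, hxo⟩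
    have h2 : P * P ≤ ∑ o ∈ Q, (Bad o).card := by
      have := (card_le_card h1).trans card_biUnion_le
      rwa [card_product, card_range] at this
    have h3 : (P : ℝ) * P ≤ ∑ o ∈ Q, ((Bad o).card : ℝ) := by exact_mod_cast h2
    have hQn : Q.Nonempty := by
      rw [Finset.nonempty_iff_ne_empty]
      rintro rfl
      rw [Finset.sum_empty] at h3
      nlinarith
    have h4 : ∑ o ∈ Q, ((Bad o).card : ℝ) < ∑ o ∈ Q, (P : ℝ) ^ 2 / m :=
      Finset.sum_lt_sum_of_nonempty hQn hBc
    rw [Finset.sum_const, nsmul_eq_mul] at h4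
    have h5 : (Q.card : ℝ) * ((P : ℝ) ^ 2 / m) ≤ m * ((P : ℝ) ^ 2 / m) :=
      mul_le_mul_of_nonneg_right (by exact_mod_cast hQ) (by positivity)
    have h6 : (m : ℝ) * ((P : ℝ) ^ 2 / m) = (P : ℝ) ^ 2 := by field_simp
    nlinarith
  obtain ⟨⟨A, B⟩, hx, hgood⟩ := hex
  rw [mem_product, mem_range, mem_range] at hx
  refine ⟨A, hx.1, B, hx.2, fun o ho => ?_⟩
  have h1 : ¬ ((((range (p ^ 2)).filter (fun i => (A + i * B) % P ∈ E o)).card : ℝ) < mu o / 2) := by
    intro h
    refine hgood o ho (mem_filter.2 ⟨mem_product.2 ⟨mem_range.2 hx.1, mem_range.2 hx.2⟩, h⟩)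
  have h2 : (range (p ^ 2)).filter (fun i => (A + i * B) % P ∈ E o) =
      (range (p ^ 2)).filter (fun i => (A + i * B) % P % n ∈ I o) := by
    refine Finset.filter_congr fun i _ => ?_
    rw [hE]
    simp only [mem_filter, mem_range]
    exact ⟨fun h => h.2, fun h => ⟨Nat.mod_lt _ hPp.pos, h⟩⟩
  rw [h2, not_lt] at h1
  have h3 := hmuN o ho
  have h4 : (2 : ℝ) * p < (((range (p ^ 2)).filter
      (fun i => (A + i * B) % P % n ∈ I o)).card : ℝ) := by linarith
  exact_mod_cast h4

/-- Block A. -/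
theorem anchorDet_of (hP : PairSpec) (hE : AdvMemSpec) : AnchorDetSpec := by
  intro X _ n m Q I hn hm hQ hI hdis hIc
  obtain ⟨p, hp, hpl, hpu⟩ := Nat.exists_prime_lt_and_le_two_mul (4576000000 * m) (by omega)
  obtain ⟨P, hPp, hPl, hPu⟩ := Nat.exists_prime_lt_and_le_two_mul (2 * p ^ 2 * n)
    (Nat.pos_iff_ne_zero.1 (Nat.mul_pos (Nat.mul_pos two_pos (pow_pos hp.pos 2)) hn))
  obtain ⟨A, hA, B, hB, hG⟩ := first_stage hP n m p P hn hm hpl hPp hPl Q hQ I hI hIc
  obtain ⟨l, hl, R, hRQ, hRc, os, hos, hosR, hF⟩ := levels hP hE p m hp Q hQ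
    (fun o => (range (p ^ 2)).filter (fun i => (A + i * B) % P % n ∈ I o))
    (fun o _ => filter_subset _ _) hG
    (fun o ho o' ho' hne => by
      refine Finset.disjoint_left.2 fun i h1 h2 => ?_
      exact Finset.disjoint_left.1 (hdis o ho o' ho' hne) (mem_filter.1 h1).2 (mem_filter.1 h2).2)
    (Nat.size m)
  have hR : R = ∅ := by
    rw [← Finset.card_eq_zero]
    by_contra h
    have h1 : 1 ≤ R.card := Nat.one_le_iff_ne_zero.2 h
    have h2 := Nat.lt_size_self m
    have h3 : 1 * 2 ^ Nat.size m ≤ R.card * 2 ^ Nat.size m := Nat.mul_le_mul_right _ h1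
    omega
  refine ⟨(pts p l).map fun i => (A + i * B) % P, ?_, os, hos, ?_, ?_⟩
  · unfold famA
    simp only [List.mem_flatMap, List.mem_range, List.mem_map]
    refine ⟨p, by omega, P, ?_, A, hA, B, hB, l, hl, rfl⟩
    have : 2 * (2 * p ^ 2 * n) = 4 * p ^ 2 * n := by ring
    omega
  · rw [hosR, hR, sdiff_empty]
  · rw [List.forall₂_map_left_iff]
    exact hF.imp fun i o h => (mem_filter.1 h).2

end Vale.Agent.P334.Det.A344
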