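import Vale.Agent.P334.H100.Defs
import Mathlib

/-!
Blocks E1 and E2: membership in the advice, and the number of pieces of advice.
-/

namespace Vale.Agent.P334.Det

open Finset

/-! ### Block E1 -/

theorem mem_subs (p : ℕ) (Y : Finset ℕ) (hY : Y ⊆ range p) :
    ((List.range p).filter fun i => decide (i ∈ Y)) ∈ subs p := by
  unfold subs
  rw [List.mem_map]
  refine ⟨∑ i ∈ Y, 2 ^ i, ?_, ?_⟩
  · rw [List.mem_range]
    exact Nat.geomSum_lt le_rfl fun k hk => Finset.mem_range.1 (hY hk)
  · refine List.filter_congr fun i _ => ?_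
    rw [← Nat.testBit_eq_decide_div_mod_eq]
    have h1 := Finset.toFinset_bitIndices_sum_two_pow Y
    have h2 : i ∈ Y ↔ i ∈ (∑ i ∈ Y, 2 ^ i).bitIndices := by
      rw [← List.mem_toFinset, h1]
    rw [Nat.mem_bitIndices] at h2
    rw [Bool.eq_iff_iff, decide_eq_true_iff]
    exact h2.symm

theorem length_filter_mem (p : ℕ) (Y : Finset ℕ) (hY : Y ⊆ range p) :
    ((List.range p).filter fun i => decide (i ∈ Y)).length = Y.card := by
  have h : ((List.range p).filter fun i => decide (i ∈ Y)).toFinset = Y := by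
    ext i
    simp only [List.mem_toFinset, List.mem_filter, List.mem_range, decide_eq_true_iff]
    exact ⟨fun h => h.2, fun h => ⟨Finset.mem_range.1 (hY h), h⟩⟩
  rw [← List.toFinset_card_of_nodup (List.nodup_range.filter _), h]

/-- Block E1. -/
theorem advMemSpec : AdvMemSpec := by
  intro p B r J b l Y hl hb hY hc
  rw [advs, List.mem_flatMap]
  refine ⟨l, hl, ?_⟩
  rw [List.mem_flatMap]
  refine ⟨b, List.mem_range.2 hb, ?_⟩
  rw [List.mem_map]
  refine ⟨_, ?_, rfl⟩
  rw [List.mem_filter]
  refine ⟨mem_subs p Y hY, ?_⟩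
  rw [decide_eq_true_iff, length_filter_mem p Y hY]
  exact hc

/-! ### Block E2 -/

theorem subs_succ (p : ℕ) : subs (p + 1) = subs p ++ (subs p).map fun Y => Y ++ [p] := by
  unfold subs
  have h0 : List.range (2 ^ (p + 1)) = List.range (2 ^ p) ++ (List.range (2 ^ p)).map (2 ^ p + ·) := by
    rw [pow_succ, mul_two, List.range_add]
  rw [h0, List.map_append, List.map_map, List.map_map]
  congr 1
  · refine List.map_congr_left fun m hm => ?_
    rw [List.mem_range] at hm
    rw [List.range_succ, List.filter_append]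
    have h : m / 2 ^ p % 2 = 0 := by rw [Nat.div_eq_of_lt hm]
    simp [h]
  · refine List.map_congr_left fun m hm => ?_
    rw [List.mem_range] at hm
    simp only [Function.comp_apply]
    rw [List.range_succ, List.filter_append]
    congr 1
    · refine List.filter_congr fun i hi => ?_
      rw [List.mem_range] at hi
      rw [← Nat.testBit_eq_decide_div_mod_eq, ← Nat.testBit_eq_decide_div_mod_eq,
        Nat.testBit_two_pow_add_gt hi]
    · have h : (2 ^ p + m) / 2 ^ p % 2 = 1 := by
        rw [Nat.add_div_left _ (by positivity), Nat.div_eq_of_lt hm]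
      simp [h]

theorem subs_sum (x : ℝ) (p : ℕ) :
    ((subs p).map fun Y => x ^ Y.length).sum = (1 + x) ^ p := by
  induction p with
  | zero => simp [subs]
  | succ p ih =>
    rw [subs_succ, List.map_append, List.sum_append, List.map_map, ih]
    have h : (subs p).map ((fun Y : List ℕ => x ^ Y.length) ∘ fun Y => Y ++ [p]) =
        (subs p).map fun Y => x ^ Y.length * x := by
      refine List.map_congr_left fun Y _ => ?_
      simp [pow_succ]
    rw [h, List.sum_map_mul_right, ih, pow_succ]
    ring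

theorem length_filter_le_sum {α : Type*} (L : List α) (P : α → Bool) (f : α → ℝ)
    (hf : ∀ a, 0 ≤ f a) (hP : ∀ a, P a = true → 1 ≤ f a) :
    ((L.filter P).length : ℝ) ≤ (L.map f).sum := by
  induction L with
  | nil => simp
  | cons a L ih =>
    rw [List.map_cons, List.sum_cons]
    by_cases h : P a = true
    · rw [List.filter_cons_of_pos h, List.length_cons, Nat.cast_add, Nat.cast_one]
      have := hP a h
      linarith
    · rw [List.filter_cons_of_neg h]
      have := hf a
      linarith

theorem count_subs (p r j : ℕ) :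
    ((((subs p).filter fun Y => decide (Y.length ≤ r / 2 ^ j)).length : ℕ) : ℝ) ≤
      Real.exp (p / 2 ^ j + r * j / 2 ^ j) := by
  have hq : (1 : ℝ) ≤ 2 ^ j := one_le_pow₀ (by norm_num)
  have hq0 : (0 : ℝ) < 2 ^ j := by positivity
  have h1 := length_filter_le_sum (subs p) (fun Y => decide (Y.length ≤ r / 2 ^ j))
    (fun Y => ((2 : ℝ) ^ j) ^ (r / 2 ^ j) * (((2 : ℝ) ^ j)⁻¹) ^ Y.length)
    (fun Y => by positivity) (fun Y hY => by
      rw [decide_eq_true_iff] at hY
      rw [inv_pow, ← div_eq_mul_inv, one_le_div (by positivity)]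
      exact pow_le_pow_right₀ hq hY)
  refine h1.trans ?_
  rw [List.sum_map_mul_left, subs_sum, mul_comm, Real.exp_add]
  refine mul_le_mul ?_ ?_ (by positivity) (Real.exp_pos _).le
  · calc (1 + ((2 : ℝ) ^ j)⁻¹) ^ p ≤ (Real.exp (((2 : ℝ) ^ j)⁻¹)) ^ p := by
          refine pow_le_pow_left₀ (by positivity) ?_ p
          rw [add_comm]
          exact Real.add_one_le_exp _
      _ = Real.exp (p / 2 ^ j) := by
          rw [← Real.exp_nat_mul, div_eq_mul_inv]
  · have h2 : ((2 : ℝ) ^ j) ^ (r / 2 ^ j) ≤ (Real.exp j) ^ (r / 2 ^ j) := by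
      refine pow_le_pow_left₀ hq0.le ?_ _
      rw [← mul_one (j : ℝ), Real.exp_nat_mul]
      refine pow_le_pow_left₀ (by norm_num) ?_ _
      have := Real.add_one_le_exp (1 : ℝ)
      linarith
    refine h2.trans ?_
    rw [← Real.exp_nat_mul]
    apply Real.exp_le_exp.2
    have h3 : ((r / 2 ^ j : ℕ) : ℝ) ≤ (r : ℝ) / 2 ^ j := by
      have := @Nat.cast_div_le ℝ _ _ _ r (2 ^ j)
      push_cast at this
      exact this
    calc ((r / 2 ^ j : ℕ) : ℝ) * j ≤ (r : ℝ) / 2 ^ j * j :=
          mul_le_mul_of_nonneg_right h3 (Nat.cast_nonneg _)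
      _ = r * j / 2 ^ j := by ring

theorem length_advs_succ (p B r J : ℕ) : (advs p B r (J + 1)).length =
    (advs p B r J).length * (B * ((subs p).filter fun Y => decide (Y.length ≤ r / 2 ^ J)).length) := by
  rw [advs, List.length_flatMap]
  simp only [List.length_flatMap, List.length_map]
  simp [List.sum_replicate]

theorem advCount_aux (p B r J : ℕ) : ((advs p B r J).length : ℝ) ≤
    (B : ℝ) ^ J * Real.exp (p * (2 - 2 / 2 ^ J) + r * (2 - (2 * J + 2) / 2 ^ J)) := by
  induction J with
  | zero => simp [advs]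
  | succ J ih =>
    rw [length_advs_succ]
    push_cast
    calc ((advs p B r J).length : ℝ) *
        ((B : ℝ) * (((subs p).filter fun Y => decide (Y.length ≤ r / 2 ^ J)).length : ℝ)) ≤
          ((B : ℝ) ^ J * Real.exp (p * (2 - 2 / 2 ^ J) + r * (2 - (2 * J + 2) / 2 ^ J))) *
            ((B : ℝ) * Real.exp (p / 2 ^ J + r * J / 2 ^ J)) := by
          refine mul_le_mul ih ?_ (by positivity) (by positivity)
          exact mul_le_mul_of_nonneg_left (count_subs p r J) (Nat.cast_nonneg _)
      _ = (B : ℝ) ^ (J + 1) * Real.exp ((p * (2 - 2 / 2 ^ J) + r * (2 - (2 * J + 2) / 2 ^ J)) +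
            (p / 2 ^ J + r * J / 2 ^ J)) := by
          rw [Real.exp_add (p * (2 - 2 / 2 ^ J) + r * (2 - (2 * J + 2) / 2 ^ J)), pow_succ]
          ring
      _ = _ := by
          congr 2
          have h2 : (2 : ℝ) ^ J ≠ 0 := by positivity
          rw [pow_succ]
          field_simp
          ring

/-- Block E2. -/
theorem advCountSpec : AdvCountSpec := by
  intro p B r J
  refine (advCount_aux p B r J).trans ?_
  refine mul_le_mul_of_nonneg_left (Real.exp_le_exp.2 ?_) (by positivity)
  have h1 : (0 : ℝ) ≤ 2 / 2 ^ J := by positivity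
  have h2 : (0 : ℝ) ≤ (2 * J + 2) / 2 ^ J := by positivity
  have h3 : (0 : ℝ) ≤ p := Nat.cast_nonneg _
  have h4 : (0 : ℝ) ≤ r := Nat.cast_nonneg _
  nlinarith [mul_nonneg h3 h1, mul_nonneg h4 h2]

end Vale.Agent.P334.Det
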