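import Vale.Agent.P334.H100.Defs

/-! Numbers with given digits. -/

namespace Vale.Agent.P334.Det

theorem digitSpec : DigitSpec := by
  intro M h f hM
  induction h generalizing f with
  | zero =>
    intro _
    exact ⟨0, by simp, fun i hi => absurd hi (Nat.not_lt_zero i)⟩
  | succ h ih =>
    intro hf
    obtain ⟨u, hu, hu'⟩ := ih (fun i => f (i + 1)) (fun i hi => hf (i + 1) (by omega))
    refine ⟨f 0 + M * u, ?_, ?_⟩
    · have h0 : f 0 < M := hf 0 (by omega)
      have h1 : M * u + M ≤ M * M ^ h := by
        rw [← Nat.mul_succ]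
        exact Nat.mul_le_mul_left _ hu
      rw [pow_succ, mul_comm (M ^ h) M]
      omega
    · intro i hi
      have h0 : f 0 < M := hf 0 (by omega)
      rcases i with _ | i
      · rw [pow_zero, Nat.div_one, Nat.add_mul_mod_self_left, Nat.mod_eq_of_lt h0]
      · have h1 : (f 0 + M * u) / M ^ (i + 1) = u / M ^ i := by
          rw [pow_succ', ← Nat.div_div_eq_div_mul, Nat.add_mul_div_left _ _ hM,
            Nat.div_eq_of_lt h0, zero_add]
        rw [h1]
        exact hu' i (by omega)

end Vale.Agent.P334.Det
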