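import Vale.Agent.P334.H100.Defs
import Vale.Agent.P334.H100.Digits
import Mathlib.Analysis.SpecialFunctions.Exp
import Mathlib.Analysis.SpecialFunctions.Log.Basic

/-!
Advice: new advice is in the list, and the number of pieces of advice.
-/

namespace Vale.Agent.P334.Det.AdvX

open Finset Vale.Agent.P334.Det

theorem mem_subs {p : ℕ} {Y : Finset ℕ} (hY : Y ⊆ range p) :
    (List.range p).filter (fun i => decide (i ∈ Y)) ∈ subs p := by
  obtain ⟨u, hu, hu'⟩ := digitSpec 2 p (fun i => if i ∈ Y then 1 else 0) (by norm_num)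
    (fun i _ => by split_ifs <;> norm_num)
  unfold subs
  rw [List.mem_map]
  refine ⟨u, List.mem_range.2 hu, ?_⟩
  refine List.filter_congr fun i hi => ?_
  rw [hu' i (List.mem_range.1 hi)]
  by_cases h : i ∈ Y <;> simp [h]

theorem length_filter_mem {p : ℕ} {Y : Finset ℕ} (hY : Y ⊆ range p) :
    ((List.range p).filter (fun i => decide (i ∈ Y))).length = Y.card := by
  have h1 : ((List.range p).filter (fun i => decide (i ∈ Y))).toFinset = Y := by
    ext i
    simp only [List.mem_toFinset, List.mem_filter, List.mem_range, decide_eq_true_eq]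
    exact ⟨fun h => h.2, fun h => ⟨mem_range.1 (hY h), h⟩⟩
  conv_rhs => rw [← h1]
  rw [List.toFinset_card_of_nodup]
  exact (List.nodup_range).filter _

theorem advMemSpec : AdvMemSpec := by
  intro p B r J b l Y hl hb hY hYc
  rw [advs, List.mem_flatMap]
  refine ⟨l, hl, ?_⟩
  rw [List.mem_flatMap]
  refine ⟨b, List.mem_range.2 hb, ?_⟩
  rw [List.mem_map]
  refine ⟨_, List.mem_filter.2 ⟨mem_subs hY, ?_⟩, rfl⟩
  rw [decide_eq_true_eq, length_filter_mem hY]
  exact hYc

/-- The subset with the binary expansion `m`. -/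
def sb (p m : ℕ) : List ℕ := (List.range p).filter fun i => decide (m / 2 ^ i % 2 = 1)

theorem dec_eq (m i : ℕ) : decide (m / 2 ^ i % 2 = 1) = m.testBit i := by
  rw [Nat.testBit_eq_decide_div_mod_eq]

theorem sb_succ_lo {p m : ℕ} (hm : m < 2 ^ p) : sb (p + 1) m = sb p m := by
  unfold sb
  rw [List.range_succ, List.filter_append]
  have _h : (decide (m / 2 ^ p % 2 = 1)) = false := by
    rw [Nat.div_eq_of_lt hm]; rfl
  simp [Nat.div_eq_of_lt hm]

theorem sb_succ_hi {p m : ℕ} (hm : m < 2 ^ p) : sb (p + 1) (2 ^ p + m) = sb p m ++ [p] := by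
  unfold sb
  rw [List.range_succ, List.filter_append]
  congr 1
  · refine List.filter_congr fun i hi => ?_
    rw [dec_eq, dec_eq, Nat.testBit_two_pow_add_gt (List.mem_range.1 hi)]
  · have h : (2 ^ p + m) / 2 ^ p % 2 = 1 := by
      rw [Nat.add_div_left _ (by positivity), Nat.div_eq_of_lt hm]
    simp [h]

theorem sum_sb (y : ℝ) (p : ℕ) : ∑ m ∈ range (2 ^ p), y ^ (sb p m).length = (1 + y) ^ p := by
  induction p with
  | zero => simp [sb]
  | succ p ih =>
    rw [pow_succ 2 p, mul_two, sum_range_add]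
    have h1 : ∑ m ∈ range (2 ^ p), y ^ (sb (p + 1) m).length = (1 + y) ^ p := by
      rw [← ih]
      exact sum_congr rfl fun m hm => by rw [sb_succ_lo (mem_range.1 hm)]
    have h2 : ∑ m ∈ range (2 ^ p), y ^ (sb (p + 1) (2 ^ p + m)).length = (1 + y) ^ p * y := by
      rw [← ih, sum_mul]
      exact sum_congr rfl fun m hm => by
        rw [sb_succ_hi (mem_range.1 hm), List.length_append, pow_add]
        simp
    rw [h1, h2]
    ring

theorem length_filter_subs (p s : ℕ) :
    ((subs p).filter fun Y => decide (Y.length ≤ s)).length =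
      ((range (2 ^ p)).filter fun m => (sb p m).length ≤ s).card := by
  unfold subs
  rw [List.filter_map, List.length_map]
  have h1 : ((range (2 ^ p)).filter fun m => (sb p m).length ≤ s) =
      (((List.range (2 ^ p)).filter
        ((fun Y : List ℕ => decide (Y.length ≤ s)) ∘ fun m => sb p m)).toFinset) := by
    ext m
    simp [mem_filter, List.mem_filter]
  rw [h1, List.toFinset_card_of_nodup ((List.nodup_range).filter _)]
  rfl

theorem count_le (p s J : ℕ) :
    ((((subs p).filter fun Y => decide (Y.length ≤ s)).length : ℕ) : ℝ) ≤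
      Real.exp (J * s + p / 2 ^ J) := by
  rw [length_filter_subs]
  have h2 : (0 : ℝ) < (2 : ℝ) ^ J := by positivity
  have h1 : (1 : ℝ) ≤ (2 : ℝ) ^ J := one_le_pow₀ (by norm_num)
  have h3 : ((((range (2 ^ p)).filter fun m => (sb p m).length ≤ s).card : ℕ) : ℝ) ≤
      ∑ m ∈ range (2 ^ p), ((2 : ℝ) ^ J) ^ s * (((2 : ℝ) ^ J)⁻¹) ^ (sb p m).length := by
    rw [card_eq_sum_ones, Nat.cast_sum, sum_filter]
    refine sum_le_sum fun m _ => ?_
    split_ifs with h
    · rw [Nat.cast_one, inv_pow, ← div_eq_mul_inv, one_le_div (by positivity)]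
      exact pow_le_pow_right₀ h1 h
    · positivity
  refine h3.trans ?_
  rw [← mul_sum, sum_sb, Real.exp_add]
  refine mul_le_mul ?_ ?_ (by positivity) (by positivity)
  · have h4 : (2 : ℝ) ≤ Real.exp 1 := by
      have := Real.add_one_le_exp (1 : ℝ)
      linarith
    calc ((2 : ℝ) ^ J) ^ s = 2 ^ (J * s) := by rw [← pow_mul]
      _ ≤ (Real.exp 1) ^ (J * s) := pow_le_pow_left₀ (by norm_num) h4 _
      _ = Real.exp (J * s) := by rw [← Real.exp_nat_mul]; push_cast; ring_nf
  · have h5 : 1 + ((2 : ℝ) ^ J)⁻¹ ≤ Real.exp (((2 : ℝ) ^ J)⁻¹) := by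
      have := Real.add_one_le_exp (((2 : ℝ) ^ J)⁻¹)
      linarith
    calc (1 + ((2 : ℝ) ^ J)⁻¹) ^ p ≤ (Real.exp (((2 : ℝ) ^ J)⁻¹)) ^ p :=
          pow_le_pow_left₀ (by positivity) h5 _
      _ = Real.exp (p / 2 ^ J) := by rw [← Real.exp_nat_mul, div_eq_mul_inv]

theorem length_advs_succ (p B r J : ℕ) : (advs p B r (J + 1)).length =
    (advs p B r J).length * (B * ((subs p).filter fun Y => decide (Y.length ≤ r / 2 ^ J)).length) := by
  rw [advs]
  simp only [List.length_flatMap, List.length_map]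
  simp [List.sum_replicate, List.map_const']

theorem advCountSpec : AdvCountSpec := by
  intro p B r J
  have key : ((advs p B r J).length : ℝ) ≤
      (B : ℝ) ^ J * Real.exp (p * (2 - 2 / 2 ^ J) + r * (2 - (2 * J + 2) / 2 ^ J)) := by
    induction J with
    | zero => simp [advs]
    | succ J ih =>
      rw [length_advs_succ, Nat.cast_mul, Nat.cast_mul]
      have h1 := count_le p (r / 2 ^ J) J
      have h2 : (((r / 2 ^ J : ℕ)) : ℝ) ≤ r / 2 ^ J := by
        have := @Nat.cast_div_le ℝ _ _ _ r (2 ^ J)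
        push_cast at this
        exact this
      have h3 : Real.exp (J * ((r / 2 ^ J : ℕ) : ℝ) + p / 2 ^ J) ≤
          Real.exp (J * (r / 2 ^ J) + p / 2 ^ J) := by
        apply Real.exp_le_exp.2
        have := mul_le_mul_of_nonneg_left h2 (Nat.cast_nonneg (α := ℝ) J)
        linarith
      calc _ ≤ ((B : ℝ) ^ J * Real.exp (p * (2 - 2 / 2 ^ J) + r * (2 - (2 * J + 2) / 2 ^ J))) *
            (B * Real.exp (J * (r / 2 ^ J) + p / 2 ^ J)) := by
            refine mul_le_mul ih (mul_le_mul_of_nonneg_left (h1.trans h3) (Nat.cast_nonneg _))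
              (by positivity) (by positivity)
        _ = (B : ℝ) ^ (J + 1) * (Real.exp (p * (2 - 2 / 2 ^ J) + r * (2 - (2 * J + 2) / 2 ^ J)) *
              Real.exp (J * (r / 2 ^ J) + p / 2 ^ J)) := by ring
        _ = _ := by
            rw [← Real.exp_add]
            congr 2
            push_cast
            rw [pow_succ]
            field_simp
            ring
  refine key.trans (mul_le_mul_of_nonneg_left (Real.exp_le_exp.2 ?_) (by positivity))
  have h4 : (0 : ℝ) ≤ 2 / 2 ^ J := by positivity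
  have h5 : (0 : ℝ) ≤ (2 * J + 2) / 2 ^ J := by positivity
  nlinarith [mul_nonneg (Nat.cast_nonneg (α := ℝ) p) h4, mul_nonneg (Nat.cast_nonneg (α := ℝ) r) h5]

end Vale.Agent.P334.Det.AdvX
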