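import Vale.Agent.P334.H100.Defs
import Vale.Agent.Lib.PolyTime.Lists2

/-!
Derandomization of the trial for stable instances of metric `k`-median, block AP: the family of
lists of anchor positions is computed in polynomial time.
-/

namespace Vale.Agent.P334.Det

open Vale.Agent.Lib.PolyTime

namespace AP

/-- `size m ^ 2 ≤ 4 m` -/
theorem sq_le_two_pow : ∀ s : ℕ, (s + 1) ^ 2 ≤ 4 * 2 ^ s
  | 0 => by norm_num
  | 1 => by norm_num
  | 2 => by norm_num
  | s + 3 => by
    have ih := sq_le_two_pow (s + 2)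
    have h1 : (s + 3 + 1) ^ 2 ≤ 2 * (s + 2 + 1) ^ 2 :=
      calc (s + 3 + 1) ^ 2 ≤ (s + 3 + 1) ^ 2 + (s ^ 2 + 4 * s + 2) := Nat.le_add_right _ _
        _ = 2 * (s + 2 + 1) ^ 2 := by ring
    calc (s + 3 + 1) ^ 2 ≤ 2 * (s + 2 + 1) ^ 2 := h1
      _ ≤ 2 * (4 * 2 ^ (s + 2)) := Nat.mul_le_mul_left _ ih
      _ = 4 * 2 ^ (s + 3) := by ring

theorem size_sq_le (m : ℕ) : Nat.size m ^ 2 ≤ 4 * m := by
  rcases Nat.eq_zero_or_pos m with rfl | hm
  · simp
  · obtain ⟨s, hs⟩ : ∃ s, Nat.size m = s + 1 :=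
      ⟨Nat.size m - 1, by have := Nat.size_pos.2 hm; omega⟩
    rw [hs]
    have h1 : 2 ^ s ≤ m := by
      have := Nat.lt_size.1 (show s < Nat.size m by omega)
      exact this
    exact (sq_le_two_pow s).trans (Nat.mul_le_mul_left _ h1)

theorem size_le (m : ℕ) : Nat.size m ≤ m := Nat.size_le.2 Nat.lt_two_pow_self

/-- the number of seeds of all the levels is polynomial in `2 ^ m` -/
theorem pow_bound (p m : ℕ) (hp : p ≤ 9152000000 * m) : (p ^ 2) ^ Nat.size m ≤ (2 ^ m) ^ 76 := by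
  have h1 : m < 2 ^ Nat.size m := Nat.lt_size_self m
  have h2 : p ≤ 2 ^ (34 + Nat.size m) := by
    rw [pow_add]
    calc p ≤ 9152000000 * m := hp
      _ ≤ 2 ^ 34 * 2 ^ Nat.size m := Nat.mul_le_mul (by norm_num) h1.le
  have h3 : (p ^ 2) ^ Nat.size m ≤ ((2 ^ (34 + Nat.size m)) ^ 2) ^ Nat.size m :=
    Nat.pow_le_pow_left (Nat.pow_le_pow_left h2 2) _
  refine h3.trans ?_
  rw [← pow_mul, ← pow_mul, ← pow_mul]
  refine Nat.pow_le_pow_right (by norm_num) ?_
  have h4 := size_sq_le m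
  have h5 := size_le m
  nlinarith

theorem flatMap_range_min {β : Type} (f : ℕ → List β) (n : ℕ) :
    (List.range (n + 1)).flatMap (fun z => f (min z n)) = (List.range (n + 1)).flatMap f := by
  refine List.flatMap_congr fun z hz => ?_
  rw [min_eq_left (Nat.lt_succ_iff.1 (List.mem_range.1 hz))]

variable {A : Set Word} {α : Type} [Enc α]

theorem PT_pts {p : α → ℕ} {l : α → List (ℕ × List ℕ)} (hp : PT A p) (hl : PT A l) :
    PT A (fun a => pts (p a) (l a)) := by
  unfold pts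
  refine PT.flatMap hl ?_
  refine PT.map (f := fun (q : α × (ℕ × List ℕ)) (x : ℕ) =>
    x * p q.1 + (q.2.1 / p q.1 * x + q.2.1 % p q.1) % p q.1) PT.snd'.snd ?_
  have hp' : PT A (fun q : (α × (ℕ × List ℕ)) × ℕ => p q.1.1) := hp.comp PT.fst'.fst
  have he : PT A (fun q : (α × (ℕ × List ℕ)) × ℕ => q.1.2.1) := PT.fst'.snd.fst
  exact PT.add (PT.mul PT.snd' hp')
    (PT.mod (PT.add (PT.mul (PT.div he hp') PT.snd') (PT.mod he hp')) hp')

/-- the inner part -/
theorem PT_inner (hE : AdvPTSpec) {p P m x y : α → ℕ} (hp : PT A p) (hP : PT A P) (hm : PT A m)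
    (hx : PT A x) (hy : PT A y) (hmb : PBd (fun a => 2 ^ m a))
    (hpm : ∀ a, p a ≤ 9152000000 * m a) :
    PT A (fun a => (advs (p a) (p a ^ 2) (m a) (Nat.size (m a))).map fun l =>
      (pts (p a) l).map fun i => (x a + i * y a) % P a) := by
  have hpb : PBd (fun a => 2 ^ p a) := (hmb.pow 9152000000).mono fun a => by
    rw [← pow_mul, mul_comm]
    exact Nat.pow_le_pow_right (by norm_num) (hpm a)
  have hBb : PBd (fun a => p a ^ 2) := (hpb.pow 2).mono fun a =>
    Nat.pow_le_pow_left Nat.lt_two_pow_self.le 2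
  have hJb : PBd (fun a => Nat.size (m a)) := hmb.mono fun a =>
    (size_le (m a)).trans Nat.lt_two_pow_self.le
  have hBJ : PBd (fun a => (p a ^ 2) ^ Nat.size (m a)) := (hmb.pow 76).mono fun a =>
    pow_bound _ _ (hpm a)
  have hadv := hE hp hpb (PT.powConst hp 2) hBb hm hmb (PT.natSize hm) hJb hBJ
  refine PT.map hadv ?_
  refine PT.map (f := fun (q : α × List (ℕ × List ℕ)) (i : ℕ) => (x q.1 + i * y q.1) % P q.1)
    (PT_pts (hp.comp PT.fst') PT.snd') ?_
  have hf : PT A (fun q : (α × List (ℕ × List ℕ)) × ℕ => q.1.1) := PT.fst'.fst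
  exact PT.mod (PT.add (hx.comp hf) (PT.mul PT.snd' (hy.comp hf))) (hP.comp hf)

end AP

open AP in
/-- Block AP. -/
theorem anchorPT_of (hE : AdvPTSpec) : AnchorPTSpec := by
  intro A α _ n m hn hnb hm hmb
  have hmb' : PBd m := hmb.mono fun a => Nat.lt_two_pow_self.le
  -- the bounds of the two ranges
  have hc : PT A (fun a => 9152000000 * m a) := PT.mul (PT.const _) hm
  have hcb : PBd (fun a => 9152000000 * m a) := (PBd.const _).mul hmb'
  -- context `(a, p)`, with `p` cut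
  have hp1 : PT A (fun q : α × ℕ => min q.2 (9152000000 * m q.1)) :=
    PT.min PT.snd' (hc.comp PT.fst')
  have hp1b : PBd (fun q : α × ℕ => min q.2 (9152000000 * m q.1)) :=
    (hcb.comp (PT.fst' : PT A (fun q : α × ℕ => q.1))).mono fun q => min_le_right _ _
  have hd : PT A (fun q : α × ℕ => 4 * min q.2 (9152000000 * m q.1) ^ 2 * n q.1) :=
    PT.mul (PT.mul (PT.const _) (PT.powConst hp1 2)) (hn.comp PT.fst')
  have hdb : PBd (fun q : α × ℕ => 4 * min q.2 (9152000000 * m q.1) ^ 2 * n q.1) :=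
    ((PBd.const 4).mul (hp1b.pow 2)).mul (hnb.comp (PT.fst' : PT A (fun q : α × ℕ => q.1)))
  -- context `((a, p), P)`, with `P` cut
  have hP2 : PT A (fun q : (α × ℕ) × ℕ =>
      min q.2 (4 * min q.1.2 (9152000000 * m q.1.1) ^ 2 * n q.1.1)) :=
    PT.min PT.snd' (hd.comp PT.fst')
  have hP2b : PBd (fun q : (α × ℕ) × ℕ =>
      min q.2 (4 * min q.1.2 (9152000000 * m q.1.1) ^ 2 * n q.1.1)) :=
    (hdb.comp (PT.fst' : PT A (fun q : (α × ℕ) × ℕ => q.1))).mono fun q => min_le_right _ _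
  -- context `(((a, p), P), x), y`
  have h4 : PT A (fun q : (((α × ℕ) × ℕ) × ℕ) × ℕ => q.1.1) := PT.fst'.fst
  have h4p : PT A (fun q : (((α × ℕ) × ℕ) × ℕ) × ℕ => q.1.1.1) := PT.fst'.fst.fst
  have h4a : PT A (fun q : (((α × ℕ) × ℕ) × ℕ) × ℕ => q.1.1.1.1) := PT.fst'.fst.fst.fst
  have hin := PT_inner hE (p := fun q : (((α × ℕ) × ℕ) × ℕ) × ℕ =>
      min q.1.1.1.2 (9152000000 * m q.1.1.1.1))
    (P := fun q => min q.1.1.2 (4 * min q.1.1.1.2 (9152000000 * m q.1.1.1.1) ^ 2 * n q.1.1.1.1))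
    (m := fun q => m q.1.1.1.1) (x := fun q => q.1.2) (y := fun q => q.2)
    (hp1.comp h4p) (hP2.comp h4) (hm.comp h4a) PT.fst'.snd PT.snd' (hmb.comp h4a)
    (fun q => min_le_right _ _)
  have hB : PT A (fun q : ((α × ℕ) × ℕ) × ℕ =>
      (List.range (min q.1.2 (4 * min q.1.1.2 (9152000000 * m q.1.1.1) ^ 2 * n q.1.1.1))).flatMap
      fun y => (advs (min q.1.1.2 (9152000000 * m q.1.1.1))
        (min q.1.1.2 (9152000000 * m q.1.1.1) ^ 2) (m q.1.1.1) (Nat.size (m q.1.1.1))).map fun l =>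
        (pts (min q.1.1.2 (9152000000 * m q.1.1.1)) l).map fun i => (q.2 + i * y) %
          min q.1.2 (4 * min q.1.1.2 (9152000000 * m q.1.1.1) ^ 2 * n q.1.1.1)) :=
    PT.flatMap (PT.range (hP2.comp PT.fst')
      (hP2b.comp (PT.fst' : PT A (fun q : ((α × ℕ) × ℕ) × ℕ => q.1)))) hin
  have hA : PT A (fun q : (α × ℕ) × ℕ =>
      (List.range (min q.2 (4 * min q.1.2 (9152000000 * m q.1.1) ^ 2 * n q.1.1))).flatMap fun x =>
      (List.range (min q.2 (4 * min q.1.2 (9152000000 * m q.1.1) ^ 2 * n q.1.1))).flatMap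
      fun y => (advs (min q.1.2 (9152000000 * m q.1.1))
        (min q.1.2 (9152000000 * m q.1.1) ^ 2) (m q.1.1) (Nat.size (m q.1.1))).map fun l =>
        (pts (min q.1.2 (9152000000 * m q.1.1)) l).map fun i => (x + i * y) %
          min q.2 (4 * min q.1.2 (9152000000 * m q.1.1) ^ 2 * n q.1.1)) :=
    PT.flatMap (PT.range hP2 hP2b) hB
  have hPP : PT A (fun q : α × ℕ =>
      (List.range (4 * min q.2 (9152000000 * m q.1) ^ 2 * n q.1 + 1)).flatMap fun P =>
      (List.range (min P (4 * min q.2 (9152000000 * m q.1) ^ 2 * n q.1))).flatMap fun x =>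
      (List.range (min P (4 * min q.2 (9152000000 * m q.1) ^ 2 * n q.1))).flatMap
      fun y => (advs (min q.2 (9152000000 * m q.1))
        (min q.2 (9152000000 * m q.1) ^ 2) (m q.1) (Nat.size (m q.1))).map fun l =>
        (pts (min q.2 (9152000000 * m q.1)) l).map fun i => (x + i * y) %
          min P (4 * min q.2 (9152000000 * m q.1) ^ 2 * n q.1)) :=
    PT.flatMap (PT.range (PT.add hd (PT.const 1)) (hdb.add (PBd.const 1))) hA
  have hall := PT.flatMap (f := fun (a : α) (p : ℕ) =>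
      (List.range (4 * min p (9152000000 * m a) ^ 2 * n a + 1)).flatMap fun P =>
      (List.range (min P (4 * min p (9152000000 * m a) ^ 2 * n a))).flatMap fun x =>
      (List.range (min P (4 * min p (9152000000 * m a) ^ 2 * n a))).flatMap
      fun y => (advs (min p (9152000000 * m a))
        (min p (9152000000 * m a) ^ 2) (m a) (Nat.size (m a))).map fun l =>
        (pts (min p (9152000000 * m a)) l).map fun i => (x + i * y) %
          min P (4 * min p (9152000000 * m a) ^ 2 * n a))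
    (PT.range (PT.add hc (PT.const 1)) (hcb.add (PBd.const 1))) hPP
  refine hall.congr fun a => ?_
  unfold famA
  rw [flatMap_range_min (fun p : ℕ =>
    (List.range (4 * p ^ 2 * n a + 1)).flatMap fun P =>
      (List.range (min P (4 * p ^ 2 * n a))).flatMap fun x =>
      (List.range (min P (4 * p ^ 2 * n a))).flatMap
      fun y => (advs p (p ^ 2) (m a) (Nat.size (m a))).map fun l =>
        (pts p l).map fun i => (x + i * y) % min P (4 * p ^ 2 * n a)) (9152000000 * m a)]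
  refine List.flatMap_congr fun p _ => ?_
  exact flatMap_range_min (fun P : ℕ =>
      (List.range P).flatMap fun x => (List.range P).flatMap
      fun y => (advs p (p ^ 2) (m a) (Nat.size (m a))).map fun l =>
        (pts p l).map fun i => (x + i * y) % P) (4 * p ^ 2 * n a)

end Vale.Agent.P334.Det
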