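import Vale.Agent.P334.H100.Defs
import Mathlib.NumberTheory.Bertrand

/-!
P334 (deterministic k-median), block C: some coloring of the explicit family is good.
-/

namespace Vale.Agent.P334.Det.C622

open Finset Vale.Agent.P334.Det

/-! ### Averaging -/

theorem avg {n : ℕ} {f g : ℕ → ℝ} {x y : ℝ} (hf : ∀ i ∈ range n, 0 ≤ f i)
    (hg : ∀ i ∈ range n, 0 ≤ g i) (hx : 0 < x) (hy : 0 ≤ y)
    (h1 : ∑ i ∈ range n, f i < n * x / 2) (h2 : ∑ i ∈ range n, g i ≤ n * y / 2) :
    ∃ i ∈ range n, f i < x ∧ g i ≤ y := by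
  by_contra hcon
  push Not at hcon
  rcases hy.eq_or_lt with hy0 | hy0
  · have hg0 : ∀ i ∈ range n, g i = 0 := by
      have hs : ∑ i ∈ range n, g i = 0 := by
        refine le_antisymm ?_ (sum_nonneg hg)
        rw [← hy0] at h2
        simpa using h2
      exact (sum_eq_zero_iff_of_nonneg hg).1 hs
    have h3 : ∀ i ∈ range n, x ≤ f i := by
      intro i hi
      by_contra h4
      push Not at h4
      have := hcon i hi h4
      rw [hg0 i hi, ← hy0] at this
      exact lt_irrefl _ this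
    have h4 : (n : ℝ) * x ≤ ∑ i ∈ range n, f i := by
      have := sum_le_sum h3
      simpa using this
    have : (0 : ℝ) ≤ n * x := by positivity
    linarith
  · have h3 : ∀ i ∈ range n, (1 : ℝ) ≤ f i / x + g i / y := by
      intro i hi
      by_cases h4 : f i < x
      · have h5 := hcon i hi h4
        have h6 : 1 ≤ g i / y := by rw [le_div_iff₀ hy0]; linarith
        have h7 : 0 ≤ f i / x := div_nonneg (hf i hi) hx.le
        linarith
      · push Not at h4
        have h6 : 1 ≤ f i / x := by rw [le_div_iff₀ hx]; linarith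
        have h7 : 0 ≤ g i / y := div_nonneg (hg i hi) hy0.le
        linarith
    have h4 := sum_le_sum h3
    rw [sum_add_distrib, ← sum_div, ← sum_div] at h4
    have h4' : (n : ℝ) ≤ (∑ i ∈ range n, f i) / x + (∑ i ∈ range n, g i) / y := by
      simpa using h4
    have h5 : (∑ i ∈ range n, f i) / x < n / 2 := by
      rw [div_lt_iff₀ hx]; linarith
    have h6 : (∑ i ∈ range n, g i) / y ≤ n / 2 := by
      rw [div_le_iff₀ hy0]; linarith
    linarith

/-- the number of weighted collisions, summed over the parameters -/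
theorem coll_sum {p t : ℕ} (h : ℕ → ℕ → ℕ) (A B : Finset ℕ) (w : ℕ → ℝ)
    (hw : ∀ y ∈ B, 0 ≤ w y)
    (hh : ∀ x ∈ A, ∀ y ∈ B, x ≠ y → ((range p).filter (fun b => h b x = h b y)).card ≤ t) :
    ∑ b ∈ range p, ∑ x ∈ A, ∑ y ∈ B, (if x ≠ y ∧ h b x = h b y then w y else 0) ≤
      t * A.card * ∑ y ∈ B, w y := by
  rw [sum_comm]
  have h1 : ∀ x ∈ A, ∑ b ∈ range p, ∑ y ∈ B, (if x ≠ y ∧ h b x = h b y then w y else 0) ≤
      t * ∑ y ∈ B, w y := by
    intro x hx
    rw [sum_comm, mul_sum]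
    refine sum_le_sum fun y hy => ?_
    by_cases hxy : x = y
    · subst hxy
      have : (0 : ℝ) ≤ t * w x := mul_nonneg t.cast_nonneg (hw x hy)
      simpa using this
    · simp only [ne_eq, hxy, not_false_eq_true, true_and]
      rw [← sum_filter, sum_const, nsmul_eq_mul]
      exact mul_le_mul_of_nonneg_right (by exact_mod_cast hh x hx y hy hxy) (hw y hy)
  calc _ ≤ ∑ x ∈ A, (t * ∑ y ∈ B, w y) := sum_le_sum h1
    _ = _ := by rw [sum_const, nsmul_eq_mul]; ring

/-- the number of weighted collisions for one parameter -/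
theorem coll_nonneg {h : ℕ → ℕ} {A B : Finset ℕ} {w : ℕ → ℝ} (hw : ∀ y ∈ B, 0 ≤ w y) :
    0 ≤ ∑ x ∈ A, ∑ y ∈ B, (if x ≠ y ∧ h x = h y then w y else 0) :=
  sum_nonneg fun x _ => sum_nonneg fun y hy => by
    split_ifs
    · exact hw y hy
    · exact le_rfl

/-- a weight of the elements that collide -/
theorem coll_ge {h : ℕ → ℕ} {A B : Finset ℕ} {w : ℕ → ℝ} (hw : ∀ y ∈ B, 0 ≤ w y)
    {P : ℕ → Prop} [DecidablePred P] (hP : ∀ y ∈ B, P y → ∃ x ∈ A, x ≠ y ∧ h x = h y) :
    ∑ y ∈ B, (if P y then w y else 0) ≤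
      ∑ x ∈ A, ∑ y ∈ B, (if x ≠ y ∧ h x = h y then w y else 0) := by
  rw [sum_comm]
  refine sum_le_sum fun y hy => ?_
  split_ifs with h1
  · obtain ⟨x, hx, h2⟩ := hP y hy h1
    refine le_trans ?_ (single_le_sum (f := fun x => if x ≠ y ∧ h x = h y then w y else 0)
      (fun x _ => by
        show 0 ≤ (if x ≠ y ∧ h x = h y then w y else 0)
        split_ifs
        · exact hw y hy
        · exact le_rfl) hx)
    show w y ≤ (if x ≠ y ∧ h x = h y then w y else 0)
    rw [if_pos h2]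
  · refine sum_nonneg fun x _ => ?_
    split_ifs
    · exact hw y hy
    · exact le_rfl

/-! ### Values of the hash functions -/

theorem hsh_lt {p a t x : ℕ} (hp : 0 < p) : hsh p a t x < p := by
  unfold hsh
  cases List.range t with
  | nil => exact hp
  | cons i l => exact Nat.mod_lt _ hp

/-! ### First stage -/

theorem stageA (hH : HashSpec) {N m : ℕ} {Z C O : Finset ℕ} {loss : ℕ → ℝ} (hZ : Z ⊆ range N)
    (hC : C ⊆ range N) (hO : O ⊆ range N) (hZO : Disjoint Z O) (hz : Z.card ≤ m)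
    (hc : C.card ≤ m) (hN : Nat.size N ≤ m) (hm : 1 ≤ m) (hl : ∀ i, 0 ≤ loss i) :
    ∃ p1 a : ℕ, 0 < p1 ∧ p1 ≤ 96000 * m ^ 3 ∧ a < p1 ∧
      (∀ x ∈ Z ∪ C, ∀ y ∈ Z ∪ C, hsh p1 a (Nat.size N) x = hsh p1 a (Nat.size N) y → x = y) ∧
      ∑ s ∈ O, (if s ∈ O.filter (fun s => ∃ x ∈ Z, hsh p1 a (Nat.size N) x =
        hsh p1 a (Nat.size N) s) then loss s else 0) ≤ 1 / 24000 * ∑ s ∈ O, loss s := by
  have hm3 : 0 < m ^ 3 := by positivity
  obtain ⟨p1, hp1, hlt, hle⟩ := Nat.exists_prime_lt_and_le_two_mul (48000 * m ^ 3) (by omega)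
  set t := Nat.size N with ht
  set h : ℕ → ℕ → ℕ := fun a x => hsh p1 a t x with hh
  have hmem : ∀ x < N, x < p1 ^ t := by
    intro x hx
    refine hx.trans ((Nat.lt_size_self N).trans_le ?_)
    exact Nat.pow_le_pow_left hp1.two_le t
  have hcol : ∀ x < N, ∀ y < N, x ≠ y →
      ((range p1).filter (fun a => h a x = h a y)).card ≤ t := fun x hx y hy hxy =>
    hH p1 t x y hp1 (hmem x hx) (hmem y hy) hxy
  have hZC : ∀ x ∈ Z ∪ C, x < N := by
    intro x hx
    rcases Finset.mem_union.1 hx with h1 | h1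
    · exact Finset.mem_range.1 (hZ h1)
    · exact Finset.mem_range.1 (hC h1)
  have hcard : (Z ∪ C).card ≤ 2 * m := (card_union_le _ _).trans (by omega)
  have s1 := coll_sum (p := p1) (t := t) h (Z ∪ C) (Z ∪ C) (fun _ => 1) (fun _ _ => zero_le_one)
    (fun x hx y hy hxy => hcol x (hZC x hx) y (hZC y hy) hxy)
  have s2 := coll_sum (p := p1) (t := t) h Z O loss (fun y _ => hl y)
    (fun x hx y hy hxy => hcol x (Finset.mem_range.1 (hZ hx)) y (Finset.mem_range.1 (hO hy)) hxy)
  set Λ := ∑ s ∈ O, loss s with hΛ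
  have hΛ0 : 0 ≤ Λ := sum_nonneg fun i _ => hl i
  have hp1R : (48000 : ℝ) * m ^ 3 < p1 := by exact_mod_cast hlt
  have hmR : (1 : ℝ) ≤ m := by exact_mod_cast hm
  have htR : (t : ℝ) ≤ m := by exact_mod_cast hN
  have hzR : (Z.card : ℝ) ≤ m := by exact_mod_cast hz
  have hcardR : ((Z ∪ C).card : ℝ) ≤ 2 * m := by exact_mod_cast hcard
  have hm3R : (1 : ℝ) ≤ (m : ℝ) ^ 3 := one_le_pow₀ hmR
  obtain ⟨a, ha, h1, h2⟩ := avg (n := p1)
    (f := fun a => ∑ x ∈ Z ∪ C, ∑ y ∈ Z ∪ C, (if x ≠ y ∧ h a x = h a y then (1 : ℝ) else 0))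
    (g := fun a => ∑ x ∈ Z, ∑ y ∈ O, (if x ≠ y ∧ h a x = h a y then loss y else 0))
    (x := 1) (y := 1 / 24000 * Λ) (fun a _ => coll_nonneg fun _ _ => zero_le_one)
    (fun a _ => coll_nonneg fun y _ => hl y) one_pos (by positivity)
    (by
      refine lt_of_le_of_lt s1 ?_
      rw [sum_const, nsmul_eq_mul, mul_one]
      have e1 : (t : ℝ) * (Z ∪ C).card * (Z ∪ C).card ≤ m * (2 * m) * (2 * m) := by
        gcongr
      have e2 : (m : ℝ) * (2 * m) * (2 * m) = 4 * m ^ 3 := by ring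
      rw [e2] at e1
      linarith)
    (by
      refine le_trans s2 ?_
      have e1 : (t : ℝ) * Z.card * Λ ≤ m * m * Λ := by gcongr
      have e2 : (m : ℝ) * m * Λ ≤ m ^ 3 * Λ := by
        refine mul_le_mul_of_nonneg_right ?_ hΛ0
        nlinarith [mul_nonneg (mul_nonneg (zero_le_one.trans hmR) (zero_le_one.trans hmR))
          (sub_nonneg.2 hmR)]
      have e3 : (m : ℝ) ^ 3 * Λ ≤ p1 / 48000 * Λ := by
        refine mul_le_mul_of_nonneg_right ?_ hΛ0
        linarith
      linarith)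
  refine ⟨p1, a, hp1.pos, by omega, Finset.mem_range.1 ha, ?_, ?_⟩
  · intro x hx y hy hxy
    by_contra hne
    have h3 : (1 : ℝ) ≤ ∑ x ∈ Z ∪ C, ∑ y ∈ Z ∪ C,
        (if x ≠ y ∧ h a x = h a y then (1 : ℝ) else 0) := by
      have h4 := coll_ge (h := h a) (A := Z ∪ C) (B := Z ∪ C) (w := fun _ => 1)
        (fun _ _ => zero_le_one) (P := fun y' => y' = y) (by
          rintro y' _ rfl
          exact ⟨x, hx, hne, hxy⟩)
      refine le_trans ?_ h4
      rw [Finset.sum_ite_eq' (Z ∪ C) y, if_pos hy]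
    linarith
  · refine le_trans ?_ h2
    refine coll_ge (h := h a) (A := Z) (B := O) (w := loss) (fun y _ => hl y) ?_
    intro y hy hy'
    rw [Finset.mem_filter] at hy'
    obtain ⟨x, hx, hxy⟩ := hy'.2
    refine ⟨x, hx, ?_, hxy⟩
    rintro rfl
    exact Finset.disjoint_left.1 hZO hx hy

/-! ### Levels -/

section Level

variable {z p : ℕ}

theorem colOf_nil (y : ℕ) : colOf z p [] y = (z, 0) := rfl

theorem colOf_cons (e : ℕ × List ℕ) (l : List (ℕ × List ℕ)) (y : ℕ) :
    colOf z p (e :: l) y =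
      (if (colOf z p l y).1 = z ∧ hsh p e.1 4 y ∈ e.2 then
        (colOf z p l y).2 + e.2.idxOf (hsh p e.1 4 y) else (colOf z p l y).1,
      (colOf z p l y).2 + e.2.length) := rfl

/-- the state after `j` levels -/
structure Inv (z p : ℕ) (H : ℕ → ℕ) (Z C O : Finset ℕ) (loss : ℕ → ℝ) (j : ℕ)
    (l : List (ℕ × List ℕ)) (R : Finset ℕ) (c : ℕ) : Prop where
  mem : l ∈ advs p p z j
  sub : R ⊆ Z
  card : R.card * 2 ^ j ≤ z
  snd : ∀ y, (colOf z p l y).2 = c
  tot : c + R.card = z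
  maps : ∀ i ∈ Z, i ∉ R → (colOf z p l (H i)).1 < c
  inj : ∀ i ∈ Z, i ∉ R → ∀ k ∈ Z, k ∉ R → (colOf z p l (H i)).1 = (colOf z p l (H k)).1 → i = k
  surj : ∀ a < c, ∃ i ∈ Z, i ∉ R ∧ (colOf z p l (H i)).1 = a
  rest : ∀ i ∈ R ∪ C, (colOf z p l (H i)).1 = z
  le : ∀ y, (colOf z p l y).1 < c ∨ (colOf z p l y).1 = z
  loss : ∑ s ∈ O, (if (colOf z p l (H s)).1 < z then loss s else 0) ≤
    16 * z * (1 - 1 / 2 ^ j) / p * ∑ s ∈ O, loss s

theorem inv_zero {H : ℕ → ℕ} {Z C O : Finset ℕ} {loss : ℕ → ℝ} (hz : Z.card = z) :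
    Inv z p H Z C O loss 0 [] Z 0 where
  mem := by simp [advs]
  sub := Finset.Subset.refl _
  card := by simp [hz]
  snd _ := rfl
  tot := by omega
  maps i h1 h2 := absurd h1 h2
  inj i h1 h2 := absurd h1 h2
  surj a ha := absurd ha (Nat.not_lt_zero a)
  rest _ _ := rfl
  le _ := Or.inr rfl
  loss := by
    simp [colOf_nil]

/-- the sorted list of a subset of `{0, ..., p - 1}` -/
def srt (p : ℕ) (Y : Finset ℕ) : List ℕ := (List.range p).filter fun i => decide (i ∈ Y)

theorem mem_srt {Y : Finset ℕ} (hY : Y ⊆ range p) {y : ℕ} : y ∈ srt p Y ↔ y ∈ Y := by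
  unfold srt
  rw [List.mem_filter, List.mem_range, decide_eq_true_iff]
  exact ⟨fun h => h.2, fun h => ⟨Finset.mem_range.1 (hY h), h⟩⟩

theorem nodup_srt (Y : Finset ℕ) : (srt p Y).Nodup := (List.nodup_range).filter _

theorem length_srt {Y : Finset ℕ} (hY : Y ⊆ range p) : (srt p Y).length = Y.card := by
  rw [← List.toFinset_card_of_nodup (nodup_srt Y)]
  congr 1
  ext y
  rw [List.mem_toFinset, mem_srt hY]

/-- one more level -/
theorem inv_succ (hE : AdvMemSpec) {H : ℕ → ℕ} {Z C O : Finset ℕ} {loss : ℕ → ℝ} {j : ℕ}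
    {l : List (ℕ × List ℕ)} {R : Finset ℕ} {c : ℕ} (hI : Inv z p H Z C O loss j l R c)
    (hl : ∀ i, 0 ≤ loss i) (hp : 0 < p) {b : ℕ} (hb : b < p) {I : Finset ℕ} (hIR : I ⊆ R)
    (hZC : Disjoint Z C)
    (hiso : ∀ x ∈ I, ∀ y ∈ R ∪ C, x ≠ y → hsh p b 4 (H x) ≠ hsh p b 4 (H y))
    (hcard : 2 * (R \ I).card ≤ R.card)
    (hloss : ∑ x ∈ R, ∑ y ∈ O, (if x ≠ y ∧ hsh p b 4 (H x) = hsh p b 4 (H y) then loss y else 0) ≤
      8 * R.card * (∑ s ∈ O, loss s) / p) (hRO : Disjoint R O) :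
    Inv z p H Z C O loss (j + 1) ((b, srt p (I.image fun x => hsh p b 4 (H x))) :: l) (R \ I)
      (c + I.card) := by
  set Y : Finset ℕ := I.image fun x => hsh p b 4 (H x) with hYdef
  have hY : Y ⊆ range p := by
    intro y hy
    rw [hYdef, Finset.mem_image] at hy
    obtain ⟨x, _, rfl⟩ := hy
    exact Finset.mem_range.2 (hsh_lt hp)
  have hinj : ∀ x ∈ I, ∀ y ∈ I, hsh p b 4 (H x) = hsh p b 4 (H y) → x = y := by
    intro x hx y hy hxy
    by_contra hne
    exact hiso x hx y (Finset.mem_union_left _ (hIR hy)) hne hxy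
  have hYcard : Y.card = I.card := Finset.card_image_of_injOn (fun x hx y hy hxy =>
    hinj x hx y hy hxy)
  have hlen : (srt p Y).length = I.card := by rw [length_srt hY, hYcard]
  have hIR' : I.card ≤ R.card := Finset.card_le_card hIR
  have hcardRI : (R \ I).card = R.card - I.card := Finset.card_sdiff_of_subset hIR
  -- values of the new coloring
  have hY' : ∀ x ∈ R ∪ C, hsh p b 4 (H x) ∈ srt p Y → x ∈ I := by
    intro x hx h1
    rw [mem_srt hY, hYdef, Finset.mem_image] at h1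
    obtain ⟨x', hx', h2⟩ := h1
    by_contra hne
    refine hiso x' hx' x hx ?_ h2
    rintro rfl
    exact hne hx'
  have hYI : ∀ x ∈ I, hsh p b 4 (H x) ∈ srt p Y := fun x hx => by
    rw [mem_srt hY, hYdef]
    exact Finset.mem_image_of_mem _ hx
  have cz : c ≤ z := by have := hI.tot; omega
  have vOld : ∀ i ∈ Z, i ∉ R → (colOf z p ((b, srt p Y) :: l) (H i)).1 = (colOf z p l (H i)).1 := by
    intro i hi hiR
    rw [colOf_cons]
    simp only
    rw [if_neg]
    rintro ⟨h1, _⟩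
    have := hI.maps i hi hiR
    omega
  have vNew : ∀ i ∈ I, (colOf z p ((b, srt p Y) :: l) (H i)).1 =
      c + (srt p Y).idxOf (hsh p b 4 (H i)) := by
    intro i hi
    rw [colOf_cons]
    simp only
    rw [if_pos ⟨hI.rest i (Finset.mem_union_left _ (hIR hi)), hYI i hi⟩, hI.snd]
  have idx_lt : ∀ i ∈ I, (srt p Y).idxOf (hsh p b 4 (H i)) < I.card := by
    intro i hi
    rw [← hlen]
    exact List.idxOf_lt_length_of_mem (hYI i hi)
  have split : ∀ i ∈ Z, i ∉ R \ I → i ∉ R ∨ i ∈ I := by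
    intro i _ h1
    by_cases h2 : i ∈ R
    · right
      by_contra h3
      exact h1 (Finset.mem_sdiff.2 ⟨h2, h3⟩)
    · exact Or.inl h2
  refine ⟨?_, ?_, ?_, ?_, ?_, ?_, ?_, ?_, ?_, ?_, ?_⟩
  · refine hE p p z j b l Y hI.mem hb hY ?_
    rw [hYcard, Nat.le_div_iff_mul_le (by positivity)]
    exact (Nat.mul_le_mul_right _ hIR').trans hI.card
  · exact Finset.sdiff_subset.trans hI.sub
  · have h1 := hI.card
    calc (R \ I).card * 2 ^ (j + 1) = 2 * (R \ I).card * 2 ^ j := by ring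
      _ ≤ R.card * 2 ^ j := Nat.mul_le_mul_right _ hcard
      _ ≤ z := h1
  · intro y
    rw [colOf_cons]
    simp only
    rw [hI.snd, hlen]
  · have := hI.tot
    omega
  · intro i hi h1
    rcases split i hi h1 with h2 | h2
    · rw [vOld i hi h2]
      have := hI.maps i hi h2
      omega
    · rw [vNew i h2]
      have := idx_lt i h2
      omega
  · intro i hi h1 k hk h1' heq
    rcases split i hi h1 with h2 | h2
    · rcases split k hk h1' with h3 | h3
      · rw [vOld i hi h2, vOld k hk h3] at heq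
        exact hI.inj i hi h2 k hk h3 heq
      · rw [vOld i hi h2, vNew k h3] at heq
        have := hI.maps i hi h2
        omega
    · rcases split k hk h1' with h3 | h3
      · rw [vNew i h2, vOld k hk h3] at heq
        have := hI.maps k hk h3
        omega
      · rw [vNew i h2, vNew k h3] at heq
        have h4 : (srt p Y).idxOf (hsh p b 4 (H i)) = (srt p Y).idxOf (hsh p b 4 (H k)) := by
          omega
        exact hinj i h2 k h3 ((List.idxOf_inj (hYI i h2)).1 h4)
  · intro a ha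
    by_cases h1 : a < c
    · obtain ⟨i, hi, hiR, h2⟩ := hI.surj a h1
      refine ⟨i, hi, fun h => hiR (Finset.mem_sdiff.1 h).1, ?_⟩
      rw [vOld i hi hiR, h2]
    · have h2 : a - c < (srt p Y).length := by rw [hlen]; omega
      have h3 : (srt p Y)[a - c] ∈ srt p Y := List.getElem_mem h2
      have h3' : (srt p Y)[a - c] ∈ I.image (fun x => hsh p b 4 (H x)) := (mem_srt hY).1 h3
      obtain ⟨x, hx, hxy⟩ := Finset.mem_image.1 h3'
      refine ⟨x, hI.sub (hIR hx), fun h => (Finset.mem_sdiff.1 h).2 hx, ?_⟩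
      rw [vNew x hx, hxy, (nodup_srt Y).idxOf_getElem (a - c) h2]
      omega
  · intro i hi
    have hi' : i ∈ R ∪ C := by
      rcases Finset.mem_union.1 hi with h | h
      · exact Finset.mem_union_left _ (Finset.mem_sdiff.1 h).1
      · exact Finset.mem_union_right _ h
    have hiI : i ∉ I := by
      intro h
      rcases Finset.mem_union.1 hi with h1 | h1
      · exact (Finset.mem_sdiff.1 h1).2 h
      · exact Finset.disjoint_left.1 hZC (hI.sub (hIR h)) h1
    rw [colOf_cons]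
    simp only
    rw [if_neg, hI.rest i hi']
    rintro ⟨_, h1⟩
    exact hiI (hY' i hi' h1)
  · intro y
    rw [colOf_cons]
    simp only
    split_ifs with h1
    · left
      rw [hI.snd]
      have h2 : (srt p Y).idxOf (hsh p b 4 y) < (srt p Y).length :=
        List.idxOf_lt_length_of_mem h1.2
      omega
    · rcases hI.le y with h2 | h2
      · left; omega
      · right; exact h2
  · have hΛ0 : 0 ≤ ∑ s ∈ O, loss s := sum_nonneg fun i _ => hl i
    have k1 : ∑ s ∈ O, (if (colOf z p ((b, srt p Y) :: l) (H s)).1 < z then loss s else 0) ≤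
        ∑ s ∈ O, (if (colOf z p l (H s)).1 < z then loss s else 0) +
        ∑ s ∈ O, (if hsh p b 4 (H s) ∈ srt p Y then loss s else 0) := by
      rw [← sum_add_distrib]
      refine sum_le_sum fun s _ => ?_
      have hs := hl s
      rw [colOf_cons]
      simp only
      by_cases h1 : hsh p b 4 (H s) ∈ srt p Y
      · rw [if_pos h1]
        have : 0 ≤ (if (colOf z p l (H s)).1 < z then loss s else 0) := by
          split_ifs
          · exact hs
          · exact le_rfl
        split_ifs <;> linarith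
      · rw [if_neg (show ¬ ((colOf z p l (H s)).1 = z ∧ hsh p b 4 (H s) ∈ srt p Y) from
          fun h => h1 h.2), if_neg h1]
        linarith
    have k2 : ∑ s ∈ O, (if hsh p b 4 (H s) ∈ srt p Y then loss s else 0) ≤
        ∑ x ∈ R, ∑ y ∈ O,
          (if x ≠ y ∧ hsh p b 4 (H x) = hsh p b 4 (H y) then loss y else 0) := by
      refine coll_ge (h := fun x => hsh p b 4 (H x)) (fun y _ => hl y) ?_
      intro y hy h1
      rw [mem_srt hY, hYdef, Finset.mem_image] at h1
      obtain ⟨x, hx, hxy⟩ := h1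
      refine ⟨x, hIR hx, ?_, hxy⟩
      rintro rfl
      exact Finset.disjoint_left.1 hRO (hIR hx) hy
    have k3 := hI.loss
    have hR : (R.card : ℝ) * 2 ^ j ≤ z := by exact_mod_cast hI.card
    have hpR : (0 : ℝ) < p := by exact_mod_cast hp
    have h2j : (0 : ℝ) < 2 ^ j := by positivity
    have k4 : 8 * (R.card : ℝ) * (∑ s ∈ O, loss s) / p ≤
        8 * (z / 2 ^ j) / p * ∑ s ∈ O, loss s := by
      have e1 : (R.card : ℝ) ≤ z / 2 ^ j := by
        rw [le_div_iff₀ h2j]; exact hR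
      have e2 : 8 * (R.card : ℝ) * (∑ s ∈ O, loss s) / p =
        8 * (R.card : ℝ) / p * ∑ s ∈ O, loss s := by ring
      rw [e2]
      refine mul_le_mul_of_nonneg_right ?_ hΛ0
      refine div_le_div_of_nonneg_right ?_ hpR.le
      linarith
    have k5 : 16 * (z : ℝ) * (1 - 1 / 2 ^ (j + 1)) / p * ∑ s ∈ O, loss s =
        16 * z * (1 - 1 / 2 ^ j) / p * ∑ s ∈ O, loss s +
          8 * (z / 2 ^ j) / p * ∑ s ∈ O, loss s := by
      rw [pow_succ]
      field_simp
      ring
    rw [k5]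
    linarith

/-- the levels -/
theorem levels (hH : HashSpec) (hE : AdvMemSpec) {m : ℕ} {H : ℕ → ℕ} {Z C O : Finset ℕ}
    {loss : ℕ → ℝ} (hl : ∀ i, 0 ≤ loss i) (hpr : p.Prime) (hp : 384000 * m < p)
    (hH4 : ∀ i, H i < p ^ 4) (hz : Z.card = z) (hzm : z ≤ m) (hc : C.card ≤ m) (hm : 1 ≤ m)
    (hZC : Disjoint Z C) (hZO : Disjoint Z O)
    (hinj : ∀ x ∈ Z ∪ C, ∀ y ∈ Z ∪ C, H x = H y → x = y)
    (hOH : ∀ s ∈ O, ∀ x ∈ Z, H x ≠ H s) (j : ℕ) :
    ∃ l R c, Inv z p H Z C O loss j l R c := by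
  induction j with
  | zero => exact ⟨[], Z, 0, inv_zero hz⟩
  | succ j ih =>
    obtain ⟨l, R, c, hI⟩ := ih
    have hRZ := hI.sub
    have hRO : Disjoint R O := Finset.disjoint_of_subset_left hRZ hZO
    rcases R.eq_empty_or_nonempty with hR0 | hR0
    · subst hR0
      refine ⟨_, _, _, inv_succ hE hI hl hpr.pos (b := 0) hpr.pos (I := ∅) (by simp) hZC
        (by simp) (by simp) (by simp) hRO⟩
    · have hΛ0 : 0 ≤ ∑ s ∈ O, loss s := sum_nonneg fun i _ => hl i
      have s1 := coll_sum (p := p) (t := 4) (fun b x => hsh p b 4 (H x)) (R ∪ C) R (fun _ => 1)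
        (fun _ _ => zero_le_one)
        (fun x hx y hy hxy => hH p 4 (H x) (H y) hpr (hH4 x) (hH4 y) (fun h => hxy (hinj x
          (Finset.union_subset_union hRZ (Finset.Subset.refl _) hx) y
          (Finset.mem_union_left _ (hRZ hy)) h)))
      have s2 := coll_sum (p := p) (t := 4) (fun b x => hsh p b 4 (H x)) R O loss
        (fun y _ => hl y)
        (fun x hx y hy _ => hH p 4 (H x) (H y) hpr (hH4 x) (hH4 y) (hOH y hy x (hRZ hx)))
      have hRm : R.card ≤ m := (Finset.card_le_card hRZ).trans (by omega)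
      have hRC : (R ∪ C).card ≤ 2 * m := (card_union_le _ _).trans (by omega)
      have hR1 : (1 : ℝ) ≤ R.card := by exact_mod_cast Finset.card_pos.2 hR0
      have hRCR : ((R ∪ C).card : ℝ) ≤ 2 * m := by exact_mod_cast hRC
      have hpR : (384000 : ℝ) * m < p := by exact_mod_cast hp
      have hmR : (1 : ℝ) ≤ m := by exact_mod_cast hm
      have hp0 : (0 : ℝ) < p := by linarith
      obtain ⟨b, hb, h1, h2⟩ := avg (n := p)
        (f := fun b => ∑ x ∈ R ∪ C, ∑ y ∈ R,
          (if x ≠ y ∧ hsh p b 4 (H x) = hsh p b 4 (H y) then (1 : ℝ) else 0))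
        (g := fun b => ∑ x ∈ R, ∑ y ∈ O,
          (if x ≠ y ∧ hsh p b 4 (H x) = hsh p b 4 (H y) then loss y else 0))
        (x := R.card / 2) (y := 8 * R.card * (∑ s ∈ O, loss s) / p)
        (fun b _ => coll_nonneg (h := fun x => hsh p b 4 (H x)) fun _ _ => zero_le_one)
        (fun b _ => coll_nonneg (h := fun x => hsh p b 4 (H x)) fun y _ => hl y)
        (by linarith) (by positivity)
        (by
          refine lt_of_le_of_lt s1 ?_
          rw [sum_const, nsmul_eq_mul, mul_one]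
          have e1 : ((4 : ℕ) : ℝ) * (R ∪ C).card * R.card ≤ 4 * (2 * m) * R.card := by
            push_cast
            gcongr
          have e2 : (4 : ℝ) * (2 * m) * R.card < p * (R.card / 2) / 2 := by
            have e3 : (4 : ℝ) * (2 * m) < p / 4 := by linarith
            have e4 : (0 : ℝ) < R.card := by linarith
            have e5 := mul_lt_mul_of_pos_right e3 e4
            linarith
          exact lt_of_le_of_lt e1 e2)
        (by
          refine le_trans s2 (le_of_eq ?_)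
          push_cast
          field_simp
          ring)
      rw [Finset.mem_range] at hb
      have hi0 : ∃ I : Finset ℕ, I ⊆ R ∧
          (∀ x ∈ I, ∀ y ∈ R ∪ C, x ≠ y → hsh p b 4 (H x) ≠ hsh p b 4 (H y)) ∧
          2 * (R \ I).card ≤ R.card := by
        refine ⟨R.filter (fun x => ∀ y ∈ R ∪ C, x ≠ y → hsh p b 4 (H x) ≠ hsh p b 4 (H y)),
          Finset.filter_subset _ _, fun x hx => (Finset.mem_filter.1 hx).2, ?_⟩
        have h3 : ((R \ R.filter (fun x => ∀ y ∈ R ∪ C, x ≠ y →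
            hsh p b 4 (H x) ≠ hsh p b 4 (H y))).card : ℝ) ≤ ∑ x ∈ R ∪ C, ∑ y ∈ R,
            (if x ≠ y ∧ hsh p b 4 (H x) = hsh p b 4 (H y) then (1 : ℝ) else 0) := by
          have h4 := coll_ge (h := fun x => hsh p b 4 (H x)) (A := R ∪ C) (B := R)
            (w := fun _ => 1) (fun _ _ => zero_le_one)
            (P := fun y => y ∈ R \ R.filter (fun x => ∀ y ∈ R ∪ C, x ≠ y →
              hsh p b 4 (H x) ≠ hsh p b 4 (H y))) (by
              intro y _ hy
              rw [Finset.mem_sdiff, Finset.mem_filter] at hy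
              have h5 := hy.2
              push Not at h5
              obtain ⟨x, hx, h6, h7⟩ := h5 hy.1
              exact ⟨x, hx, fun h => h6 h.symm, h7.symm⟩)
          refine le_trans (le_of_eq ?_) h4
          rw [← sum_filter, sum_const, nsmul_eq_mul, mul_one]
          congr 2
          ext y
          rw [Finset.mem_filter]
          exact ⟨fun h => ⟨(Finset.mem_sdiff.1 h).1, h⟩, fun h => h.2⟩
        have h4 : ((R \ R.filter (fun x => ∀ y ∈ R ∪ C, x ≠ y →
            hsh p b 4 (H x) ≠ hsh p b 4 (H y))).card : ℝ) < R.card / 2 :=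
          lt_of_le_of_lt h3 h1
        have h5 : 2 * ((R \ R.filter (fun x => ∀ y ∈ R ∪ C, x ≠ y →
            hsh p b 4 (H x) ≠ hsh p b 4 (H y))).card : ℝ) ≤ R.card := by linarith
        exact_mod_cast h5
      obtain ⟨I, hIR, hiso, hcard⟩ := hi0
      exact ⟨_, _, _, inv_succ hE hI hl hpr.pos hb hIR hZC hiso hcard h2 hRO⟩

end Level

/-! ### The family -/

theorem getD_colL {N z p1 a p2 i : ℕ} {l : List (ℕ × List ℕ)} (hi : i < N) :
    (colL N z p1 a p2 l).getD i 0 = (colOf z p2 l (hsh p1 a (Nat.size N) i)).1 := by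
  unfold colL
  rw [List.getD_eq_getElem _ _ (by simpa using hi)]
  simp

end Vale.Agent.P334.Det.C622

namespace Vale.Agent.P334.Det

open Finset C622

/-- **Block C** -/
theorem colorDet_of (hH : HashSpec) (hE : AdvMemSpec) : ColorDetSpec := by
  intro N z m Z C O loss hZ hC hO hZC hZO hCO hz hzm hc hN hm hl
  obtain ⟨p1, a, hp10, hp1, ha, hinj, hlossA⟩ := stageA hH hZ hC hO hZO (by omega) hc hN hm hl
  obtain ⟨p2, hp2, hlt, hle⟩ := Nat.exists_prime_lt_and_le_two_mul (384000 * m) (by omega)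
  set H : ℕ → ℕ := fun i => hsh p1 a (Nat.size N) i with hHdef
  have h12 : p1 ≤ p2 ^ 4 := by
    calc p1 ≤ 96000 * m ^ 3 := hp1
      _ ≤ (384000 * m) ^ 4 := by
        have e1 : (384000 * m) ^ 4 = 96000 * m ^ 3 * (226492416000000000 * m) := by ring
        rw [e1]
        exact Nat.le_mul_of_pos_right _ (by omega)
      _ ≤ p2 ^ 4 := Nat.pow_le_pow_left hlt.le 4
  have hH4 : ∀ i, H i < p2 ^ 4 := fun i => lt_of_lt_of_le (hsh_lt hp10) h12
  set O1 := O.filter (fun s => ∃ x ∈ Z, H x = H s) with hO1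
  set O2 := O.filter (fun s => ¬ ∃ x ∈ Z, H x = H s) with hO2
  obtain ⟨l, R, c, hI⟩ := levels (z := z) (p := p2) hH hE (m := m) (H := H) (Z := Z) (C := C)
    (O := O2) (loss := loss) hl hp2 hlt hH4 hz hzm hc hm hZC
    (Finset.disjoint_of_subset_right (Finset.filter_subset _ _) hZO) hinj
    (fun s hs x hx h => (Finset.mem_filter.1 hs).2 ⟨x, hx, h⟩) (Nat.size z)
  have hR : R = ∅ := by
    have h1 := hI.card
    have h2 := Nat.lt_size_self z
    rw [← Finset.card_eq_zero]
    by_contra h3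
    have h4 : 1 ≤ R.card := Nat.one_le_iff_ne_zero.2 h3
    have h5 := Nat.mul_le_mul_right (2 ^ Nat.size z) h4
    omega
  subst hR
  have hcz : c = z := by
    have := hI.tot
    simpa using this
  subst hcz
  have hmemZ : ∀ i ∈ Z, i < N := fun i hi => Finset.mem_range.1 (hZ hi)
  refine ⟨colL N c p1 a p2 l, ?_, ⟨?_, ?_, ?_⟩, ?_, ?_, ?_⟩
  · unfold famC
    rw [List.mem_flatMap]
    refine ⟨p1, List.mem_range.2 (by omega), ?_⟩
    rw [List.mem_flatMap]
    refine ⟨a, List.mem_range.2 ha, ?_⟩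
    rw [List.mem_flatMap]
    refine ⟨p2, List.mem_range.2 (by omega), ?_⟩
    rw [List.mem_map]
    exact ⟨l, hI.mem, rfl⟩
  · intro i hi
    have hi' : i ∈ Z := hi
    show (colL N c p1 a p2 l).getD i 0 < c
    rw [getD_colL (hmemZ i hi')]
    exact hI.maps i hi' (by simp)
  · intro i hi k hk heq
    have hi' : i ∈ Z := hi
    have hk' : k ∈ Z := hk
    have heq' : (colL N c p1 a p2 l).getD i 0 = (colL N c p1 a p2 l).getD k 0 := heq
    rw [getD_colL (hmemZ i hi'), getD_colL (hmemZ k hk')] at heq'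
    exact hI.inj i hi' (by simp) k hk' (by simp) heq'
  · intro x hx
    obtain ⟨i, hi, _, h2⟩ := hI.surj x hx
    refine ⟨i, hi, ?_⟩
    show (colL N c p1 a p2 l).getD i 0 = x
    rw [getD_colL (hmemZ i hi)]
    exact h2
  · intro i hi
    rw [getD_colL (Finset.mem_range.1 hi)]
    rcases hI.le (H i) with h | h
    · exact h.le
    · exact h.le
  · intro i hi
    rw [getD_colL (Finset.mem_range.1 (hC hi))]
    exact hI.rest i (Finset.mem_union_right _ hi)
  · have hΛ0 : 0 ≤ ∑ s ∈ O, loss s := sum_nonneg fun i _ => hl i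
    have e1 : ∑ i ∈ O, (if (colL N c p1 a p2 l).getD i 0 < c then loss i else 0) =
        ∑ s ∈ O, (if (colOf c p2 l (H s)).1 < c then loss s else 0) := by
      refine sum_congr rfl fun i hi => ?_
      rw [getD_colL (Finset.mem_range.1 (hO hi))]
    have e2 : ∑ s ∈ O, (if (colOf c p2 l (H s)).1 < c then loss s else 0) ≤
        ∑ s ∈ O, (if s ∈ O1 then loss s else 0) +
        ∑ s ∈ O2, (if (colOf c p2 l (H s)).1 < c then loss s else 0) := by
      rw [hO2, sum_filter, ← sum_add_distrib]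
      refine sum_le_sum fun s hs => ?_
      have hls := hl s
      by_cases h1 : ∃ x ∈ Z, H x = H s
      · rw [if_pos (show s ∈ O1 from Finset.mem_filter.2 ⟨hs, h1⟩), if_neg (not_not.2 h1)]
        split_ifs <;> linarith
      · rw [if_neg (show s ∉ O1 from fun h => h1 (Finset.mem_filter.1 h).2), if_pos h1]
        linarith
    have e3 := hI.loss
    have e4 : ∑ s ∈ O2, loss s ≤ ∑ s ∈ O, loss s :=
      sum_le_sum_of_subset_of_nonneg (Finset.filter_subset _ _) fun i _ _ => hl i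
    have hpR : (384000 : ℝ) * m < p2 := by exact_mod_cast hlt
    have hmR : (1 : ℝ) ≤ m := by exact_mod_cast hm
    have hcm : (c : ℝ) ≤ m := by exact_mod_cast hzm
    have hp0 : (0 : ℝ) < p2 := by linarith
    have e5 : 16 * (c : ℝ) * (1 - 1 / 2 ^ (Nat.size c)) / p2 ≤ 1 / 24000 := by
      rw [div_le_iff₀ hp0]
      have h2 : (0 : ℝ) < 1 / 2 ^ (Nat.size c) := by positivity
      have h3 : (0 : ℝ) ≤ c := Nat.cast_nonneg c
      have h4 : 16 * (c : ℝ) * (1 - 1 / 2 ^ (Nat.size c)) ≤ 16 * c * 1 :=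
        mul_le_mul_of_nonneg_left (by linarith) (by linarith)
      linarith
    have hΛ2 : 0 ≤ ∑ s ∈ O2, loss s := sum_nonneg fun i _ => hl i
    have e6 : 16 * (c : ℝ) * (1 - 1 / 2 ^ (Nat.size c)) / p2 * ∑ s ∈ O2, loss s ≤
        1 / 24000 * ∑ s ∈ O, loss s :=
      (mul_le_mul_of_nonneg_right e5 hΛ2).trans (mul_le_mul_of_nonneg_left e4 (by norm_num))
    rw [e1]
    linarith

end Vale.Agent.P334.Det
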