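import Vale.Agent.P334.H100.Defs
import Mathlib.NumberTheory.Bertrand

/-!
Block C: the averaging lemma, the first hashing stage and one level of the second stage.
-/

namespace Vale.Agent.P334.Det

open Finset

/-- Averaging: if `f` is small on average and `g` is small on average, then some index has both
`f` and `g` small. -/
theorem exists_good_index {ι : Type*} (s : Finset ι) (f g : ι → ℝ) (x y : ℝ)
    (hf : ∀ i ∈ s, 0 ≤ f i) (hg : ∀ i ∈ s, 0 ≤ g i) (hx : 0 < x) (hy : 0 ≤ y)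
    (hF : ∑ i ∈ s, f i < s.card * x / 2) (hG : ∑ i ∈ s, g i ≤ s.card * y / 2) :
    ∃ i ∈ s, f i < x ∧ g i ≤ y := by
  by_contra hcon
  push Not at hcon
  rcases hy.eq_or_lt with hy0 | hy0
  · subst hy0
    have hg0 : ∀ i ∈ s, g i = 0 := by
      have h0 : ∑ i ∈ s, g i = 0 := le_antisymm (by simpa using hG) (Finset.sum_nonneg hg)
      exact (Finset.sum_eq_zero_iff_of_nonneg hg).1 h0
    have hfx : ∀ i ∈ s, x ≤ f i := by
      intro i hi
      by_contra hlt
      push Not at hlt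
      have := hcon i hi hlt
      rw [hg0 i hi] at this
      exact lt_irrefl _ this
    have := Finset.sum_le_sum hfx
    simp only [Finset.sum_const, nsmul_eq_mul] at this
    have hc : (0 : ℝ) ≤ s.card * x := by positivity
    linarith
  · have key : ∀ i ∈ s, (1 : ℝ) ≤ f i / x + g i / y := by
      intro i hi
      by_cases h : f i < x
      · have := hcon i hi h
        have h1 : 1 ≤ g i / y := by rw [le_div_iff₀ hy0]; linarith
        have h2 : 0 ≤ f i / x := div_nonneg (hf i hi) hx.le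
        linarith
      · push Not at h
        have h1 : 1 ≤ f i / x := by rw [le_div_iff₀ hx]; linarith
        have h2 : 0 ≤ g i / y := div_nonneg (hg i hi) hy
        linarith
    have := Finset.sum_le_sum key
    simp only [Finset.sum_const, nsmul_eq_mul, mul_one, Finset.sum_add_distrib,
      ← Finset.sum_div] at this
    have h1 : (∑ i ∈ s, f i) / x < s.card / 2 := by
      rw [div_lt_iff₀ hx]; linarith
    have h2 : (∑ i ∈ s, g i) / y ≤ s.card / 2 := by
      rw [div_le_iff₀ hy0]; linarith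
    linarith

/-- The weighted number of collisions, summed over all seeds. -/
theorem sum_coll_le (h : HashSpec) {p t : ℕ} (hp : p.Prime) (K : ℕ → ℕ) (O : Finset ℕ)
    (D : ℕ → Finset ℕ) (w : ℕ → ℝ) (c : ℕ) (hw : ∀ i ∈ O, 0 ≤ w i)
    (hD : ∀ i ∈ O, ∀ x ∈ D i, K x ≠ K i) (hKO : ∀ i ∈ O, K i < p ^ t)
    (hKD : ∀ i ∈ O, ∀ x ∈ D i, K x < p ^ t) (hc : ∀ i ∈ O, (D i).card ≤ c) :
    ∑ a ∈ range p, ∑ i ∈ O,
      w i * (((D i).filter (fun x => hsh p a t (K x) = hsh p a t (K i))).card : ℝ) ≤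
      (∑ i ∈ O, w i) * (c * t) := by
  rw [Finset.sum_comm, Finset.sum_mul]
  refine Finset.sum_le_sum fun i hi => ?_
  rw [← Finset.mul_sum]
  refine mul_le_mul_of_nonneg_left ?_ (hw i hi)
  have h1 : ∑ a ∈ range p, ((D i).filter (fun x => hsh p a t (K x) = hsh p a t (K i))).card =
      ∑ x ∈ D i, ((range p).filter (fun a => hsh p a t (K x) = hsh p a t (K i))).card := by
    simp only [Finset.card_filter]
    rw [Finset.sum_comm]
  have h2 : ∑ x ∈ D i, ((range p).filter (fun a => hsh p a t (K x) = hsh p a t (K i))).card ≤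
      ∑ _x ∈ D i, t :=
    Finset.sum_le_sum fun x hx => h p t _ _ hp (hKD i hi x hx) (hKO i hi) (hD i hi x hx)
  have h3 : ∑ _x ∈ D i, t ≤ c * t := by
    rw [Finset.sum_const, smul_eq_mul]
    exact Nat.mul_le_mul_right _ (hc i hi)
  have h4 := (h1.le.trans h2).trans h3
  exact_mod_cast h4

/-- A seed with few collisions inside `S` and a small weighted number of collisions between `O`
and `Z`. -/
theorem exists_seed (h : HashSpec) {p t : ℕ} (hp : p.Prime) (K : ℕ → ℕ) (S O : Finset ℕ)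
    (D E : ℕ → Finset ℕ) (w : ℕ → ℝ) (c d : ℕ) (X Y : ℝ) (hX : 0 < X) (hY : 0 ≤ Y)
    (hw : ∀ i ∈ O, 0 ≤ w i)
    (hD : ∀ i ∈ S, ∀ x ∈ D i, K x ≠ K i) (hKS : ∀ i ∈ S, K i < p ^ t)
    (hKD : ∀ i ∈ S, ∀ x ∈ D i, K x < p ^ t) (hc : ∀ i ∈ S, (D i).card ≤ c)
    (hE : ∀ i ∈ O, ∀ x ∈ E i, K x ≠ K i) (hKO : ∀ i ∈ O, K i < p ^ t)
    (hKE : ∀ i ∈ O, ∀ x ∈ E i, K x < p ^ t) (hd : ∀ i ∈ O, (E i).card ≤ d)
    (h1 : 2 * ((S.card : ℝ) * (c * t)) < p * X)
    (h2 : 2 * ((∑ i ∈ O, w i) * (d * t)) ≤ p * Y) :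
    ∃ a < p,
      ∑ i ∈ S, (((D i).filter (fun x => hsh p a t (K x) = hsh p a t (K i))).card : ℝ) < X ∧
      ∑ i ∈ O, w i * (((E i).filter (fun x => hsh p a t (K x) = hsh p a t (K i))).card : ℝ) ≤
        Y := by
  have hA := sum_coll_le h hp K S D (fun _ => 1) c (fun _ _ => zero_le_one) hD hKS hKD hc
  have hB := sum_coll_le h hp K O E w d hw hE hKO hKE hd
  simp only [one_mul, Finset.sum_const, nsmul_eq_mul, mul_one] at hA
  obtain ⟨a, ha, h3, h4⟩ := exists_good_index (range p)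
    (fun a => ∑ i ∈ S, (((D i).filter (fun x => hsh p a t (K x) = hsh p a t (K i))).card : ℝ))
    (fun a => ∑ i ∈ O,
      w i * (((E i).filter (fun x => hsh p a t (K x) = hsh p a t (K i))).card : ℝ)) X Y
    (fun a _ => Finset.sum_nonneg fun i _ => Nat.cast_nonneg _)
    (fun a _ => Finset.sum_nonneg fun i hi => mul_nonneg (hw i hi) (Nat.cast_nonneg _)) hX hY
    (by rw [Finset.card_range]; linarith) (by rw [Finset.card_range]; linarith)
  exact ⟨a, Finset.mem_range.1 ha, h3, h4⟩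

/-- Weighted collisions bound the weight of the elements that collide. -/
theorem sum_filter_le_coll (O Z : Finset ℕ) (G : ℕ → ℕ) (w : ℕ → ℝ) (hw : ∀ i ∈ O, 0 ≤ w i) :
    ∑ i ∈ O.filter (fun i => G i ∈ Z.image G), w i ≤
      ∑ i ∈ O, w i * ((Z.filter (fun x => G x = G i)).card : ℝ) := by
  rw [Finset.sum_filter]
  refine Finset.sum_le_sum fun i hi => ?_
  split_ifs with hG
  · obtain ⟨x, hx, hxi⟩ := Finset.mem_image.1 hG
    have h1 : 1 ≤ (Z.filter (fun x => G x = G i)).card :=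
      Finset.card_pos.2 ⟨x, Finset.mem_filter.2 ⟨hx, hxi⟩⟩
    have h2 : (1 : ℝ) ≤ ((Z.filter (fun x => G x = G i)).card : ℝ) := by exact_mod_cast h1
    nlinarith [hw i hi]
  · exact mul_nonneg (hw i hi) (Nat.cast_nonneg _)

/-- Stage A: the first hashing, injective on `Z ∪ C`, with small loss. -/
theorem stageA (h : HashSpec) (N z m : ℕ) (Z C O : Finset ℕ) (loss : ℕ → ℝ) (hZ : Z ⊆ range N)
    (hC : C ⊆ range N) (hO : O ⊆ range N) (hZO : Disjoint Z O) (hz : Z.card = z) (hzm : z ≤ m)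
    (hCm : C.card ≤ m) (hNm : Nat.size N ≤ m) (hm : 1 ≤ m) (hloss : ∀ i, 0 ≤ loss i) :
    ∃ p1 a, p1.Prime ∧ 48000 * m ^ 3 < p1 ∧ p1 ≤ 96000 * m ^ 3 ∧ a < p1 ∧
      Set.InjOn (fun i => hsh p1 a (Nat.size N) i) (↑(Z ∪ C) : Set ℕ) ∧
      ∑ i ∈ O.filter (fun i => hsh p1 a (Nat.size N) i ∈
        Z.image (fun i => hsh p1 a (Nat.size N) i)), loss i ≤ 1 / 24000 * ∑ i ∈ O, loss i := by
  have hm3 : 1 ≤ m ^ 3 := Nat.one_le_pow _ _ hm
  obtain ⟨p1, hp1, hp1l, hp1u⟩ := Nat.exists_prime_lt_and_le_two_mul (48000 * m ^ 3) (by omega)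
  have hlt : ∀ x, x < N → x < p1 ^ Nat.size N := fun x hx =>
    hx.trans ((Nat.lt_size_self N).trans_le (Nat.pow_le_pow_left hp1.two_le _))
  have hS0 : 0 ≤ ∑ i ∈ O, loss i := Finset.sum_nonneg fun i _ => hloss i
  have hmem : ∀ i ∈ Z ∪ C, i < N := fun i hi => by
    rcases Finset.mem_union.1 hi with h1 | h1
    · exact Finset.mem_range.1 (hZ h1)
    · exact Finset.mem_range.1 (hC h1)
  have hcardU : (Z ∪ C).card ≤ 2 * m := by
    have := Finset.card_union_le Z C
    omega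
  have hp1R : (48000 : ℝ) * (m : ℝ) ^ 3 < p1 := by exact_mod_cast hp1l
  have hmR : (1 : ℝ) ≤ m := by exact_mod_cast hm
  have htR : ((Nat.size N : ℕ) : ℝ) ≤ m := by exact_mod_cast hNm
  have hcUR : (((Z ∪ C).card : ℕ) : ℝ) ≤ 2 * m := by exact_mod_cast hcardU
  obtain ⟨a, ha, h3, h4⟩ := exists_seed h (t := Nat.size N) hp1 id (Z ∪ C) O
    (fun i => (Z ∪ C).erase i) (fun _ => Z) loss (2 * m) m 1 (1 / 24000 * ∑ i ∈ O, loss i)
    one_pos (by positivity) (fun i _ => hloss i)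
    (fun i _ x hx => (Finset.mem_erase.1 hx).1)
    (fun i hi => hlt _ (hmem i hi))
    (fun i _ x hx => hlt _ (hmem x (Finset.mem_of_mem_erase hx)))
    (fun i _ => (Finset.card_erase_le).trans hcardU)
    (fun i hi x hx => fun hxi => Finset.disjoint_left.1 hZO hx (by
      have : x = i := hxi
      rwa [this]))
    (fun i hi => hlt _ (Finset.mem_range.1 (hO hi)))
    (fun i _ x hx => hlt _ (Finset.mem_range.1 (hZ hx)))
    (fun i _ => hz.le.trans hzm)
    (by
      have h0 : (((Z ∪ C).card : ℕ) : ℝ) * (((2 * m : ℕ) : ℝ) * (Nat.size N : ℝ)) ≤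
          (2 * m) * ((2 * m) * m) := by
        push_cast
        gcongr
      nlinarith [pow_pos (lt_of_lt_of_le one_pos hmR) 3])
    (by
      have h0 : (∑ i ∈ O, loss i) * ((m : ℝ) * (Nat.size N : ℝ)) ≤
          (∑ i ∈ O, loss i) * (m * m) := by gcongr
      have h1 : (m : ℝ) * m ≤ (m : ℝ) ^ 3 := by nlinarith [mul_nonneg (sub_nonneg.2 hmR) (mul_self_nonneg (m : ℝ))]
      have h2 : (∑ i ∈ O, loss i) * ((m : ℝ) * m) ≤ (∑ i ∈ O, loss i) * ((p1 : ℝ) / 48000) := by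
        apply mul_le_mul_of_nonneg_left _ hS0
        linarith
      linarith)
  refine ⟨p1, a, hp1, hp1l, by omega, ha, ?_, ?_⟩
  · intro x hx y hy hxy
    by_contra hne
    have hx' : x ∈ Z ∪ C := by simpa using hx
    have hy' : y ∈ Z ∪ C := by simpa using hy
    have h5 : (1 : ℝ) ≤ ((((Z ∪ C).erase x).filter
        (fun y => hsh p1 a (Nat.size N) (id y) = hsh p1 a (Nat.size N) (id x))).card : ℝ) := by
      have : 1 ≤ (((Z ∪ C).erase x).filter
        (fun y => hsh p1 a (Nat.size N) (id y) = hsh p1 a (Nat.size N) (id x))).card :=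
        Finset.card_pos.2 ⟨y, Finset.mem_filter.2
          ⟨Finset.mem_erase.2 ⟨fun h => hne h.symm, hy'⟩, hxy.symm⟩⟩
      exact_mod_cast this
    have h6 := Finset.single_le_sum (f := fun i => ((((Z ∪ C).erase i).filter
        (fun x => hsh p1 a (Nat.size N) (id x) = hsh p1 a (Nat.size N) (id i))).card : ℝ))
        (fun i _ => Nat.cast_nonneg _) hx'
    have h7 := h5.trans h6
    exact absurd h3 (not_lt.2 h7)
  · exact (sum_filter_le_coll O Z (fun i => hsh p1 a (Nat.size N) i) loss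
      (fun i _ => hloss i)).trans h4

/-- Stage B: one level of the second hashing. -/
theorem stageB (h : HashSpec) {m p2 : ℕ} (hp2 : p2.Prime) (hpm : 384000 * m < p2) (H : ℕ → ℕ)
    (Z C O : Finset ℕ) (loss : ℕ → ℝ) (hlt : ∀ i, H i < p2 ^ 4)
    (hinj : Set.InjOn H (↑(Z ∪ C) : Set ℕ)) (hzm : Z.card ≤ m) (hCm : C.card ≤ m)
    (hloss : ∀ i, 0 ≤ loss i) (Zj : Finset ℕ) (hj : Zj ⊆ Z) (hne : Zj.Nonempty) :
    ∃ b < p2,
      2 * (Zj.filter (fun x => ∃ y ∈ Zj ∪ C, y ≠ x ∧ hsh p2 b 4 (H y) = hsh p2 b 4 (H x))).card <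
        Zj.card ∧
      ∑ s ∈ O.filter (fun s => H s ∉ Z.image H ∧
        hsh p2 b 4 (H s) ∈ Zj.image (fun x => hsh p2 b 4 (H x))), loss s ≤
        8 * (Zj.card : ℝ) / p2 * ∑ s ∈ O, loss s := by
  have hS0 : 0 ≤ ∑ i ∈ O, loss i := Finset.sum_nonneg fun i _ => hloss i
  have hp0 : (0 : ℝ) < p2 := by exact_mod_cast hp2.pos
  have hjc : 0 < Zj.card := hne.card_pos
  have hjR : (0 : ℝ) < Zj.card := by exact_mod_cast hjc
  have hZjm : Zj.card ≤ m := (Finset.card_le_card hj).trans hzm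
  have hm : 1 ≤ m := hjc.trans_le hZjm
  have hcardU : (Zj ∪ C).card ≤ 2 * m := by
    have := Finset.card_union_le Zj C
    omega
  have hpR : (384000 : ℝ) * m < p2 := by exact_mod_cast hpm
  have hmR : (1 : ℝ) ≤ m := by exact_mod_cast hm
  have hsub : ∀ {x}, x ∈ Zj ∪ C → x ∈ (↑(Z ∪ C) : Set ℕ) := fun {x} hx => by
    rcases Finset.mem_union.1 hx with h1 | h1
    · exact Finset.mem_coe.2 (Finset.mem_union_left _ (hj h1))
    · exact Finset.mem_coe.2 (Finset.mem_union_right _ h1)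
  obtain ⟨b, hb, h3, h4⟩ := exists_seed h (t := 4) hp2 H Zj (O.filter (fun s => H s ∉ Z.image H))
    (fun i => (Zj ∪ C).erase i) (fun _ => Zj) loss (2 * m) Zj.card ((Zj.card : ℝ) / 2)
    (8 * (Zj.card : ℝ) / p2 * ∑ s ∈ O, loss s)
    (by positivity) (by positivity) (fun i _ => hloss i)
    (fun i hi x hx hxi => (Finset.mem_erase.1 hx).1
      (hinj (hsub (Finset.mem_of_mem_erase hx)) (hsub (Finset.mem_union_left _ hi)) hxi))
    (fun i _ => hlt _) (fun i _ x _ => hlt _)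
    (fun i _ => (Finset.card_erase_le).trans hcardU)
    (fun i hi x hx hxi => (Finset.mem_filter.1 hi).2 (Finset.mem_image.2 ⟨x, hj hx, hxi⟩))
    (fun i _ => hlt _) (fun i _ x _ => hlt _)
    (fun i _ => le_rfl)
    (by
      push_cast
      nlinarith [mul_lt_mul_of_pos_left hpR hjR, mul_pos hjR (lt_of_lt_of_le one_pos hmR)])
    (by
      have h0 : ∑ i ∈ O.filter (fun s => H s ∉ Z.image H), loss i ≤ ∑ i ∈ O, loss i :=
        Finset.sum_le_sum_of_subset_of_nonneg (Finset.filter_subset _ _) fun i _ _ => hloss i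
      have h1 : (p2 : ℝ) * (8 * (Zj.card : ℝ) / p2 * ∑ s ∈ O, loss s) =
          8 * (Zj.card : ℝ) * ∑ s ∈ O, loss s := by
        field_simp
      rw [h1]
      push_cast
      nlinarith [mul_le_mul_of_nonneg_right h0 hjR.le])
  refine ⟨b, hb, ?_, ?_⟩
  · have h5 : (((Zj.filter (fun x => ∃ y ∈ Zj ∪ C, y ≠ x ∧
        hsh p2 b 4 (H y) = hsh p2 b 4 (H x))).card : ℕ) : ℝ) ≤
        ∑ i ∈ Zj, ((((Zj ∪ C).erase i).filter
          (fun x => hsh p2 b 4 (H x) = hsh p2 b 4 (H i))).card : ℝ) := by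
      rw [Finset.card_filter]
      push_cast
      refine Finset.sum_le_sum fun i hi => ?_
      split_ifs with hex
      · obtain ⟨y, hy, hyi, hyh⟩ := hex
        have : 1 ≤ (((Zj ∪ C).erase i).filter
            (fun x => hsh p2 b 4 (H x) = hsh p2 b 4 (H i))).card :=
          Finset.card_pos.2 ⟨y, Finset.mem_filter.2 ⟨Finset.mem_erase.2 ⟨hyi, hy⟩, hyh⟩⟩
        exact_mod_cast this
      · exact Nat.cast_nonneg _
    have h6 := h5.trans_lt h3
    have h7 : (2 : ℝ) * (((Zj.filter (fun x => ∃ y ∈ Zj ∪ C, y ≠ x ∧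
        hsh p2 b 4 (H y) = hsh p2 b 4 (H x))).card : ℕ) : ℝ) < (Zj.card : ℝ) := by linarith
    exact_mod_cast h7
  · have h5 := sum_filter_le_coll (O.filter (fun s => H s ∉ Z.image H)) Zj
      (fun x => hsh p2 b 4 (H x)) loss (fun i _ => hloss i)
    rw [Finset.filter_filter] at h5
    exact h5.trans h4

end Vale.Agent.P334.Det
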