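import Vale.Agent.P334.H100.Defs
import Mathlib

/-!
Block H: polynomial hashing.
-/

namespace Vale.Agent.P334.Det

open Finset Polynomial

/-- The hash value is smaller than the modulus. -/
theorem hsh_lt (p a t x : ℕ) (hp : 0 < p) : hsh p a t x < p := by
  unfold hsh
  cases t with
  | zero => simpa using hp
  | succ t =>
    rw [List.range_succ_eq_map]
    simp only [List.foldr_cons]
    exact Nat.mod_lt _ hp

/-- `foldr` over `range t`, started at `c`. -/
theorem foldr_hsh (p a x : ℕ) : ∀ (t c : ℕ),
    (((List.range t).foldr (fun i acc => (x / p ^ i % p + a * acc) % p) c : ℕ) : ZMod p) =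
      (∑ i ∈ range t, ((x / p ^ i % p : ℕ) : ZMod p) * (a : ZMod p) ^ i) +
        (c : ZMod p) * (a : ZMod p) ^ t := by
  intro t
  induction t with
  | zero => intro c; simp
  | succ t ih =>
    intro c
    rw [List.range_succ, List.foldr_append]
    simp only [List.foldr_cons, List.foldr_nil]
    rw [ih, Finset.sum_range_succ, ZMod.natCast_mod, Nat.cast_add, Nat.cast_mul]
    ring

theorem hsh_cast (p a t x : ℕ) : ((hsh p a t x : ℕ) : ZMod p) =
    ∑ i ∈ range t, ((x / p ^ i % p : ℕ) : ZMod p) * (a : ZMod p) ^ i := by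
  unfold hsh
  rw [foldr_hsh]
  simp

/-- Two numbers with the same digits are equal. -/
theorem eq_of_digits {p : ℕ} (hp : 0 < p) : ∀ (t x y : ℕ), x < p ^ t → y < p ^ t →
    (∀ i < t, x / p ^ i % p = y / p ^ i % p) → x = y := by
  intro t
  induction t with
  | zero => intro x y hx hy _; simp at hx hy; omega
  | succ t ih =>
    intro x y hx hy h
    have h0 := h 0 (Nat.succ_pos t)
    simp only [pow_zero, Nat.div_one] at h0
    have h1 : x / p = y / p := by
      apply ih
      · rw [Nat.div_lt_iff_lt_mul hp, ← pow_succ]; exact hx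
      · rw [Nat.div_lt_iff_lt_mul hp, ← pow_succ]; exact hy
      · intro i hi
        have := h (i + 1) (by omega)
        rw [pow_succ', ← Nat.div_div_eq_div_mul, ← Nat.div_div_eq_div_mul] at this
        exact this
    rw [← Nat.div_add_mod x p, ← Nat.div_add_mod y p, h0, h1]

/-- Block H. -/
theorem hashSpec : HashSpec := by
  intro p t x y hp hx hy hxy
  have : Fact p.Prime := ⟨hp⟩
  obtain ⟨i, hi, hne⟩ : ∃ i < t, x / p ^ i % p ≠ y / p ^ i % p := by
    by_contra hcon
    push Not at hcon
    exact hxy (eq_of_digits hp.pos t x y hx hy hcon)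
  set c : ℕ → ZMod p := fun i => ((x / p ^ i % p : ℕ) : ZMod p) - ((y / p ^ i % p : ℕ) : ZMod p)
    with hc
  set P : (ZMod p)[X] := ∑ i ∈ range t, C (c i) * X ^ i with hP
  have hcoeff : P.coeff i = c i := by
    rw [hP, finsetSum_coeff]
    simp only [coeff_C_mul, coeff_X_pow, mul_ite, mul_one, mul_zero]
    rw [Finset.sum_ite_eq]
    simp [hi]
  have hci : c i ≠ 0 := by
    intro h0
    apply hne
    have h1 : ((x / p ^ i % p : ℕ) : ZMod p) = ((y / p ^ i % p : ℕ) : ZMod p) := sub_eq_zero.1 h0
    rw [ZMod.natCast_eq_natCast_iff'] at h1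
    rwa [Nat.mod_mod, Nat.mod_mod] at h1
  have hP0 : P ≠ 0 := by
    intro h0
    rw [h0, coeff_zero] at hcoeff
    exact hci hcoeff.symm
  have hdeg : P.natDegree ≤ t := by
    rw [hP]
    refine natDegree_sum_le_of_forall_le _ _ fun j hj => ?_
    refine (natDegree_C_mul_X_pow_le _ _).trans (Finset.mem_range.1 hj).le
  have heval : ∀ a : ℕ, P.eval (a : ZMod p) =
      ((hsh p a t x : ℕ) : ZMod p) - ((hsh p a t y : ℕ) : ZMod p) := by
    intro a
    rw [hP, eval_finsetSum, hsh_cast, hsh_cast, ← Finset.sum_sub_distrib]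
    refine Finset.sum_congr rfl fun j _ => ?_
    rw [eval_mul, eval_C, eval_pow, eval_X, hc]
    ring
  calc ((range p).filter (fun a => hsh p a t x = hsh p a t y)).card
      ≤ P.roots.toFinset.card := by
        refine Finset.card_le_card_of_injOn (fun a : ℕ => (a : ZMod p)) ?_ ?_
        · intro a ha
          simp only [Finset.coe_filter, Finset.mem_range, Set.mem_ofPred_eq] at ha
          simp only [Finset.mem_coe, Multiset.mem_toFinset]
          rw [mem_roots hP0, IsRoot.def, heval, ha.2, sub_self]
        · intro a ha b hb hab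
          simp only [Finset.coe_filter, Finset.mem_range, Set.mem_ofPred_eq] at ha hb
          have h1 : (a : ZMod p) = (b : ZMod p) := hab
          rw [ZMod.natCast_eq_natCast_iff'] at h1
          rwa [Nat.mod_eq_of_lt ha.1, Nat.mod_eq_of_lt hb.1] at h1
    _ ≤ Multiset.card P.roots := Multiset.toFinset_card_le _
    _ ≤ P.natDegree := card_roots' P
    _ ≤ t := hdeg

end Vale.Agent.P334.Det
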