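import Vale.Agent.P334.H100.C853
import Vale.Agent.P334.H100.Hash

/-!
Block C: the induction on the levels of the second hashing, and the good coloring.
-/

namespace Vale.Agent.P334.Det

open Finset

/-- The number of colors used by an advice. -/
def cntL (l : List (ℕ × List ℕ)) : ℕ := (l.map fun e => e.2.length).sum

theorem colOf_cons (z p : ℕ) (e : ℕ × List ℕ) (l : List (ℕ × List ℕ)) (y : ℕ) :
    colOf z p (e :: l) y =
      (if (colOf z p l y).1 = z ∧ hsh p e.1 4 y ∈ e.2 then
        (colOf z p l y).2 + e.2.idxOf (hsh p e.1 4 y) else (colOf z p l y).1,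
        (colOf z p l y).2 + e.2.length) := rfl

theorem colOf_snd (z p : ℕ) (l : List (ℕ × List ℕ)) (y : ℕ) : (colOf z p l y).2 = cntL l := by
  induction l with
  | nil => rfl
  | cons e l ih =>
    rw [colOf_cons, ih]
    simp only [cntL, List.map_cons, List.sum_cons]
    omega

theorem colOf_fst_cons (z p : ℕ) (e : ℕ × List ℕ) (l : List (ℕ × List ℕ)) (y : ℕ) :
    (colOf z p (e :: l) y).1 =
      if (colOf z p l y).1 = z ∧ hsh p e.1 4 y ∈ e.2 then
        cntL l + e.2.idxOf (hsh p e.1 4 y) else (colOf z p l y).1 := by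
  rw [colOf_cons, colOf_snd]

/-- The sorted list of a finite set below `p`. -/
def lst (p : ℕ) (Y : Finset ℕ) : List ℕ := (List.range p).filter fun i => decide (i ∈ Y)

theorem mem_lst {p : ℕ} {Y : Finset ℕ} (hY : Y ⊆ range p) {i : ℕ} : i ∈ lst p Y ↔ i ∈ Y := by
  simp only [lst, List.mem_filter, List.mem_range, decide_eq_true_eq]
  exact ⟨fun h => h.2, fun h => ⟨Finset.mem_range.1 (hY h), h⟩⟩

theorem nodup_lst (p : ℕ) (Y : Finset ℕ) : (lst p Y).Nodup := List.nodup_range.filter _

theorem toFinset_lst {p : ℕ} {Y : Finset ℕ} (hY : Y ⊆ range p) : (lst p Y).toFinset = Y := by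
  ext i
  rw [List.mem_toFinset, mem_lst hY]

theorem length_lst {p : ℕ} {Y : Finset ℕ} (hY : Y ⊆ range p) : (lst p Y).length = Y.card := by
  rw [← List.toFinset_card_of_nodup (nodup_lst p Y), toFinset_lst hY]

/-- The invariant of the levels. -/
structure LInv (p z j : ℕ) (H : ℕ → ℕ) (Z C O : Finset ℕ) (loss : ℕ → ℝ)
    (l : List (ℕ × List ℕ)) (Zj : Finset ℕ) : Prop where
  mem : l ∈ advs p p z j
  sub : Zj ⊆ Z
  small : Zj.card * 2 ^ j ≤ z
  cnt : cntL l + Zj.card = z
  maps : ∀ i ∈ Z \ Zj, (colOf z p l (H i)).1 < cntL l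
  inj : ∀ i ∈ Z \ Zj, ∀ i' ∈ Z \ Zj, (colOf z p l (H i)).1 = (colOf z p l (H i')).1 → i = i'
  out : ∀ i ∈ Zj ∪ C, (colOf z p l (H i)).1 = z
  all : ∀ y, (colOf z p l y).1 < cntL l ∨ (colOf z p l y).1 = z
  lss : ∑ s ∈ O.filter (fun s => (colOf z p l (H s)).1 < z ∧ H s ∉ Z.image H), loss s ≤
    16 * (z : ℝ) * (1 - 1 / 2 ^ j) / p * ∑ s ∈ O, loss s

theorem exists_level (h : HashSpec) (hE : AdvMemSpec) {m p z : ℕ} (hp : p.Prime)
    (hpm : 384000 * m < p) (H : ℕ → ℕ) (Z C O : Finset ℕ) (loss : ℕ → ℝ) (hlt : ∀ i, H i < p ^ 4)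
    (hinj : Set.InjOn H (↑(Z ∪ C) : Set ℕ)) (hZC : Disjoint Z C) (hz : Z.card = z) (hzm : z ≤ m)
    (hCm : C.card ≤ m) (hloss : ∀ i, 0 ≤ loss i) (j : ℕ) :
    ∃ l Zj, LInv p z j H Z C O loss l Zj := by
  have hS0 : 0 ≤ ∑ i ∈ O, loss i := Finset.sum_nonneg fun i _ => hloss i
  have hp0 : (0 : ℝ) < p := by exact_mod_cast hp.pos
  induction j with
  | zero =>
    refine ⟨[], Z, ?_⟩
    refine ⟨by simp [advs], subset_rfl, by rw [hz]; simp, by simp [cntL, hz], ?_, ?_, ?_, ?_, ?_⟩
    · intro i hi
      simp at hi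
    · intro i hi
      simp at hi
    · intro i _
      rfl
    · intro y
      right
      rfl
    · have h0 : O.filter (fun s => (colOf z p [] (H s)).1 < z ∧ H s ∉ Z.image H) = ∅ := by
        rw [Finset.filter_eq_empty_iff]
        intro s _ hs
        exact lt_irrefl _ hs.1
      rw [h0]
      simp
  | succ j ih =>
    obtain ⟨l, Zj, hI⟩ := ih
    rcases Zj.eq_empty_or_nonempty with h0 | h0
    · subst h0
      have hlst : lst p ∅ = [] := by simp [lst]
      have hmem := hE p p z j 0 l ∅ hI.mem hp.pos (Finset.empty_subset _) (by simp)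
      have hmem' : ((0, []) : ℕ × List ℕ) :: l ∈ advs p p z (j + 1) := by
        simpa using hmem
      have hcol : ∀ y, (colOf z p (((0, []) : ℕ × List ℕ) :: l) y).1 = (colOf z p l y).1 := by
        intro y
        rw [colOf_fst_cons]
        simp
      have hcnt : cntL (((0, []) : ℕ × List ℕ) :: l) = cntL l := by simp [cntL]
      refine ⟨_, ∅, ⟨hmem', hI.sub, by simp, by rw [hcnt]; exact hI.cnt, ?_, ?_, ?_, ?_, ?_⟩⟩
      · simp only [hcol, hcnt]; exact hI.maps
      · simp only [hcol]; exact hI.inj
      · simp only [hcol]; exact hI.out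
      · simp only [hcol, hcnt]; exact hI.all
      · simp only [hcol]
        refine hI.lss.trans ?_
        refine mul_le_mul_of_nonneg_right ?_ hS0
        refine div_le_div_of_nonneg_right ?_ hp0.le
        refine mul_le_mul_of_nonneg_left ?_ (by positivity)
        have : (1 : ℝ) / 2 ^ (j + 1) ≤ 1 / 2 ^ j :=
          one_div_le_one_div_of_le (by positivity) (pow_le_pow_right₀ (by norm_num) (Nat.le_succ j))
        linarith
    · obtain ⟨b, hb, hbad, hls⟩ := stageB h hp hpm H Z C O loss hlt hinj (hz.le.trans hzm) hCm hloss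
        Zj hI.sub h0
      set bad := Zj.filter (fun x => ∃ y ∈ Zj ∪ C, y ≠ x ∧ hsh p b 4 (H y) = hsh p b 4 (H x))
        with hbaddef
      set I := Zj \ bad with hIdef
      set Y := I.image (fun x => hsh p b 4 (H x)) with hYdef
      have hYr : Y ⊆ range p := by
        intro y hy
        obtain ⟨x, -, rfl⟩ := Finset.mem_image.1 hy
        exact Finset.mem_range.2 (hsh_lt p b 4 (H x) hp.pos)
      have hIbad : ∀ x ∈ I, ∀ y ∈ Zj ∪ C, hsh p b 4 (H y) = hsh p b 4 (H x) → y = x := by
        intro x hx y hy hxy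
        by_contra hne
        have hx' := Finset.mem_sdiff.1 hx
        exact hx'.2 (Finset.mem_filter.2 ⟨hx'.1, y, hy, hne, hxy⟩)
      have hIsub : I ⊆ Zj := Finset.sdiff_subset
      have hbadsub : bad ⊆ Zj := Finset.filter_subset _ _
      have hIinj : Set.InjOn (fun x => hsh p b 4 (H x)) (I : Set ℕ) := by
        intro x hx y hy hxy
        exact hIbad y hy x (Finset.mem_union_left _ (hIsub hx)) hxy
      have hYcard : Y.card = I.card := Finset.card_image_of_injOn hIinj
      have hIcard : I.card + bad.card = Zj.card := by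
        rw [hIdef, Finset.card_sdiff_add_card_eq_card hbadsub]
      have hYle : Y.card ≤ z / 2 ^ j := by
        rw [Nat.le_div_iff_mul_le (by positivity)]
        refine (Nat.mul_le_mul_right _ ?_).trans hI.small
        omega
      have hmem := hE p p z j b l Y hI.mem hb hYr hYle
      have hmem' : ((b, lst p Y) : ℕ × List ℕ) :: l ∈ advs p p z (j + 1) := hmem
      have hcnt : cntL (((b, lst p Y) : ℕ × List ℕ) :: l) = cntL l + I.card := by
        simp only [cntL, List.map_cons, List.sum_cons, length_lst hYr, hYcard]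
        omega
      have hcol : ∀ y, (colOf z p (((b, lst p Y) : ℕ × List ℕ) :: l) y).1 =
          if (colOf z p l y).1 = z ∧ hsh p b 4 y ∈ Y then
            cntL l + (lst p Y).idxOf (hsh p b 4 y) else (colOf z p l y).1 := by
        intro y
        rw [colOf_fst_cons]
        simp only [mem_lst hYr]
      have hidx : ∀ y ∈ Y, (lst p Y).idxOf y < I.card := by
        intro y hy
        have := List.idxOf_lt_length_of_mem ((mem_lst hYr).2 hy)
        rwa [length_lst hYr, hYcard] at this
      have hsmall' : bad.card * 2 ^ (j + 1) ≤ z := by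
        have h1 : bad.card * 2 ^ (j + 1) = (2 * bad.card) * 2 ^ j := by ring
        rw [h1]
        exact (Nat.mul_le_mul_right _ hbad.le).trans hI.small
      -- colors of the elements of `Z \ Zj`
      have hA : ∀ i ∈ Z \ Zj, (colOf z p (((b, lst p Y) : ℕ × List ℕ) :: l) (H i)).1 =
          (colOf z p l (H i)).1 := by
        intro i hi
        have h1 := hI.maps i hi
        have h2 := hI.cnt
        rw [hcol, if_neg]
        intro h3
        omega
      -- colors of the elements of `I`
      have hB : ∀ i ∈ I, (colOf z p (((b, lst p Y) : ℕ × List ℕ) :: l) (H i)).1 =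
          cntL l + (lst p Y).idxOf (hsh p b 4 (H i)) := by
        intro i hi
        rw [hcol, if_pos ⟨hI.out i (Finset.mem_union_left _ (hIsub hi)),
          Finset.mem_image_of_mem _ hi⟩]
      have hcase : ∀ i ∈ Z \ bad, i ∈ Z \ Zj ∨ i ∈ I := by
        intro i hi
        rw [Finset.mem_sdiff] at hi
        by_cases hij : i ∈ Zj
        · right
          exact Finset.mem_sdiff.2 ⟨hij, hi.2⟩
        · left
          exact Finset.mem_sdiff.2 ⟨hi.1, hij⟩
      refine ⟨_, bad, ⟨hmem', hbadsub.trans hI.sub, hsmall', ?_, ?_, ?_, ?_, ?_, ?_⟩⟩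
      · rw [hcnt]
        have := hI.cnt
        omega
      · intro i hi
        rw [hcnt]
        rcases hcase i hi with h1 | h1
        · rw [hA i h1]
          have := hI.maps i h1
          omega
        · rw [hB i h1]
          have := hidx _ (Finset.mem_image_of_mem (fun x => hsh p b 4 (H x)) h1)
          exact Nat.add_lt_add_left this _
      · intro i hi i' hi' heq
        rcases hcase i hi with h1 | h1 <;> rcases hcase i' hi' with h2 | h2
        · rw [hA i h1, hA i' h2] at heq
          exact hI.inj i h1 i' h2 heq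
        · rw [hA i h1, hB i' h2] at heq
          have := hI.maps i h1
          omega
        · rw [hB i h1, hA i' h2] at heq
          have := hI.maps i' h2
          omega
        · rw [hB i h1, hB i' h2] at heq
          have h3 : (lst p Y).idxOf (hsh p b 4 (H i)) = (lst p Y).idxOf (hsh p b 4 (H i')) := by
            omega
          have h4 : hsh p b 4 (H i) = hsh p b 4 (H i') :=
            (List.idxOf_inj ((mem_lst hYr).2
              (Finset.mem_image_of_mem (fun x => hsh p b 4 (H x)) h1))).1 h3
          exact hIinj h1 h2 h4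
      · intro i hi
        have hi' : i ∈ Zj ∪ C := by
          rcases Finset.mem_union.1 hi with h1 | h1
          · exact Finset.mem_union_left _ (hbadsub h1)
          · exact Finset.mem_union_right _ h1
        rw [hcol, if_neg]
        · exact hI.out i hi'
        · rintro ⟨-, h2⟩
          obtain ⟨x, hx, hxi⟩ := Finset.mem_image.1 h2
          have h3 := hIbad x hx i hi' hxi.symm
          subst h3
          have hx' := Finset.mem_sdiff.1 hx
          rcases Finset.mem_union.1 hi with h1 | h1
          · exact hx'.2 h1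
          · exact Finset.disjoint_left.1 hZC (hI.sub hx'.1) h1
      · intro y
        rw [hcol, hcnt]
        split_ifs with hc
        · left
          exact Nat.add_lt_add_left (hidx _ hc.2) _
        · rcases hI.all y with h1 | h1
          · left; omega
          · right; exact h1
      · have hsub : O.filter (fun s => (colOf z p (((b, lst p Y) : ℕ × List ℕ) :: l) (H s)).1 < z ∧
            H s ∉ Z.image H) ⊆
            O.filter (fun s => (colOf z p l (H s)).1 < z ∧ H s ∉ Z.image H) ∪
            O.filter (fun s => H s ∉ Z.image H ∧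
              hsh p b 4 (H s) ∈ Zj.image (fun x => hsh p b 4 (H x))) := by
          intro s hs
          obtain ⟨hsO, hs1, hs2⟩ := Finset.mem_filter.1 hs
          rw [Finset.mem_union]
          rw [hcol] at hs1
          by_cases hc : (colOf z p l (H s)).1 = z ∧ hsh p b 4 (H s) ∈ Y
          · right
            exact Finset.mem_filter.2 ⟨hsO, hs2, Finset.image_subset_image hIsub hc.2⟩
          · left
            rw [if_neg hc] at hs1
            exact Finset.mem_filter.2 ⟨hsO, hs1, hs2⟩
        have h1 := Finset.sum_le_sum_of_subset_of_nonneg hsub (f := loss) fun i _ _ => hloss i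
        have h2 := Finset.sum_union_inter (f := loss)
          (s₁ := O.filter (fun s => (colOf z p l (H s)).1 < z ∧ H s ∉ Z.image H))
          (s₂ := O.filter (fun s => H s ∉ Z.image H ∧
              hsh p b 4 (H s) ∈ Zj.image (fun x => hsh p b 4 (H x))))
        have h3 : 0 ≤ ∑ s ∈ (O.filter (fun s => (colOf z p l (H s)).1 < z ∧ H s ∉ Z.image H)) ∩
            (O.filter (fun s => H s ∉ Z.image H ∧
              hsh p b 4 (H s) ∈ Zj.image (fun x => hsh p b 4 (H x)))), loss s :=
          Finset.sum_nonneg fun i _ => hloss i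
        have h4 := hI.lss
        have h5 : (Zj.card : ℝ) ≤ z / 2 ^ j := by
          rw [le_div_iff₀ (by positivity)]
          exact_mod_cast hI.small
        have h6 : 8 * (Zj.card : ℝ) / p * ∑ s ∈ O, loss s ≤
            8 * ((z : ℝ) / 2 ^ j) / p * ∑ s ∈ O, loss s := by
          gcongr
        have h7 : 16 * (z : ℝ) * (1 - 1 / 2 ^ (j + 1)) / p * ∑ s ∈ O, loss s =
            16 * (z : ℝ) * (1 - 1 / 2 ^ j) / p * ∑ s ∈ O, loss s +
              8 * ((z : ℝ) / 2 ^ j) / p * ∑ s ∈ O, loss s := by
          have : (2 : ℝ) ^ (j + 1) = 2 * 2 ^ j := by ring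
          rw [this]
          field_simp
          ring
        rw [h7]
        linarith

/-- Block C. -/
theorem colorDet_of (h : HashSpec) (hE : AdvMemSpec) : ColorDetSpec := by
  intro N z m Z C O loss hZ hC hO hZC hZO hCO hz hzm hCm hNm hm hloss
  have hS0 : 0 ≤ ∑ i ∈ O, loss i := Finset.sum_nonneg fun i _ => hloss i
  obtain ⟨p1, a, hp1, hp1l, hp1u, ha, hinj, hlA⟩ := stageA h N z m Z C O loss hZ hC hO hZO hz hzm
    hCm hNm hm hloss
  obtain ⟨p2, hp2, hp2l, hp2u⟩ := Nat.exists_prime_lt_and_le_two_mul (384000 * m) (by omega)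
  set H : ℕ → ℕ := fun i => hsh p1 a (Nat.size N) i with hH
  have hlt : ∀ i, H i < p2 ^ 4 := by
    intro i
    refine (hsh_lt p1 a _ i hp1.pos).trans_le (hp1u.trans ?_)
    have h1 : m ^ 4 * 384000 ^ 4 ≤ p2 ^ 4 := by
      rw [← mul_pow]
      exact Nat.pow_le_pow_left (by omega) 4
    have h2 : m ^ 3 ≤ m ^ 4 := Nat.pow_le_pow_right hm (by norm_num)
    nlinarith
  obtain ⟨l, Zj, hI⟩ := exists_level h hE hp2 hp2l H Z C O loss hlt hinj hZC hz hzm hCm hloss
    (Nat.size z)
  have hZj : Zj = ∅ := by
    rw [← Finset.card_eq_zero]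
    by_contra hne
    have h1 : 1 ≤ Zj.card := Nat.one_le_iff_ne_zero.2 hne
    have h2 := hI.small
    have h3 := Nat.lt_size_self z
    have h4 : 1 * 2 ^ Nat.size z ≤ Zj.card * 2 ^ Nat.size z := Nat.mul_le_mul_right _ h1
    omega
  subst hZj
  have hcnt : cntL l = z := by
    have := hI.cnt
    simpa using this
  have hget : ∀ i ∈ range N, (colL N z p1 a p2 l).getD i 0 = (colOf z p2 l (H i)).1 := by
    intro i hi
    have hi' := Finset.mem_range.1 hi
    simp [colL, List.getD_eq_getElem?_getD, hi', hH]
  refine ⟨colL N z p1 a p2 l, ?_, ?_, ?_, ?_, ?_⟩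
  · simp only [famC, List.mem_flatMap, List.mem_map, List.mem_range]
    exact ⟨p1, by omega, a, ha, p2, by omega, l, hI.mem, rfl⟩
  · refine ⟨?_, ?_, ?_⟩
    · intro i hi
      have hi' : i ∈ Z := hi
      have h1 := hI.maps i (by simpa using hi')
      simp only [Set.mem_ofPred_eq]
      rw [hget i (hZ hi')]
      omega
    · intro i hi i' hi' heq
      have h1 : i ∈ Z := hi
      have h2 : i' ∈ Z := hi'
      simp only at heq
      rw [hget i (hZ h1), hget i' (hZ h2)] at heq
      exact hI.inj i (by simpa using h1) i' (by simpa using h2) heq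
    · intro c hc
      have hc' : c < z := hc
      have himg : (Z.image (fun i => (colOf z p2 l (H i)).1)) = range z := by
        apply Finset.eq_of_subset_of_card_le
        · intro c hc
          obtain ⟨i, hi, rfl⟩ := Finset.mem_image.1 hc
          have := hI.maps i (by simpa using hi)
          rw [Finset.mem_range]
          omega
        · rw [Finset.card_image_of_injOn, Finset.card_range, hz]
          intro i hi i' hi' heq
          exact hI.inj i (by simpa using hi) i' (by simpa using hi') heq
      have := (Finset.ext_iff.1 himg c).2 (Finset.mem_range.2 hc')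
      obtain ⟨i, hi, hic⟩ := Finset.mem_image.1 this
      exact ⟨i, hi, by simp only; rw [hget i (hZ hi)]; exact hic⟩
  · intro i hi
    rw [hget i hi]
    rcases hI.all (H i) with h1 | h1 <;> omega
  · intro i hi
    rw [hget i (hC hi)]
    exact hI.out i (Finset.mem_union_right _ hi)
  · have h1 : ∑ i ∈ O, (if (colL N z p1 a p2 l).getD i 0 < z then loss i else 0) =
        ∑ i ∈ O.filter (fun i => (colOf z p2 l (H i)).1 < z), loss i := by
      rw [Finset.sum_filter]
      exact Finset.sum_congr rfl fun i hi => by rw [hget i (hO hi)]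
    rw [h1]
    have hsub : O.filter (fun i => (colOf z p2 l (H i)).1 < z) ⊆
        O.filter (fun i => H i ∈ Z.image H) ∪
          O.filter (fun s => (colOf z p2 l (H s)).1 < z ∧ H s ∉ Z.image H) := by
      intro s hs
      obtain ⟨hsO, hs1⟩ := Finset.mem_filter.1 hs
      rw [Finset.mem_union]
      by_cases hc : H s ∈ Z.image H
      · left
        exact Finset.mem_filter.2 ⟨hsO, hc⟩
      · right
        exact Finset.mem_filter.2 ⟨hsO, hs1, hc⟩
    have h2 := Finset.sum_le_sum_of_subset_of_nonneg hsub (f := loss) fun i _ _ => hloss i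
    have h3 := Finset.sum_union_inter (f := loss) (s₁ := O.filter (fun i => H i ∈ Z.image H))
      (s₂ := O.filter (fun s => (colOf z p2 l (H s)).1 < z ∧ H s ∉ Z.image H))
    have h4 : 0 ≤ ∑ s ∈ (O.filter (fun i => H i ∈ Z.image H)) ∩
        (O.filter (fun s => (colOf z p2 l (H s)).1 < z ∧ H s ∉ Z.image H)), loss s :=
      Finset.sum_nonneg fun i _ => hloss i
    have h5 := hI.lss
    have hp0 : (0 : ℝ) < p2 := by exact_mod_cast hp2.pos
    have h6 : 16 * (z : ℝ) * (1 - 1 / 2 ^ (Nat.size z)) / p2 ≤ 1 / 24000 := by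
      rw [div_le_iff₀ hp0]
      have hzR : (z : ℝ) ≤ m := by exact_mod_cast hzm
      have hpR : (384000 : ℝ) * m < p2 := by exact_mod_cast hp2l
      have h7 : (0 : ℝ) ≤ 1 / 2 ^ (Nat.size z) := by positivity
      have h8 : (0 : ℝ) ≤ z := Nat.cast_nonneg _
      nlinarith [mul_nonneg h8 h7]
    have h7 : 16 * (z : ℝ) * (1 - 1 / 2 ^ (Nat.size z)) / p2 * ∑ i ∈ O, loss i ≤
        1 / 24000 * ∑ i ∈ O, loss i := mul_le_mul_of_nonneg_right h6 hS0
    linarith

end Vale.Agent.P334.Det
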