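import Vale.Agent.P334.H100.Defs
import Vale.Agent.Lib.PolyTime.Lists2

/-!
Block CP: the family of colorings is computed in polynomial time, provided that the advice is.
-/

namespace Vale.Agent.P334.Det.CP

open Vale.Agent.Lib.PolyTime

variable {A : Set Word} {α β γ : Type} [Enc α] [Enc β] [Enc γ]

theorem flatMap_range_min {β : Type} (f : ℕ → List β) (n : ℕ) :
    (List.range n).flatMap (fun z => f (min z n)) = (List.range n).flatMap f := by
  refine List.flatMap_congr fun z hz => ?_
  rw [min_eq_left (List.mem_range.1 hz).le]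

/-- A loop over a range in a `flatMap`: the loop variable may be assumed to be bounded. -/
theorem PT_flatMap_range {n : α → ℕ} {f : α → ℕ → List β} (hn : PT A n) (hnb : PBd n)
    (hf : PT A (fun p : α × ℕ => f p.1 (min p.2 (n p.1)))) :
    PT A (fun a => (List.range (n a)).flatMap (f a)) :=
  (PT.flatMap (f := fun a i => f a (min i (n a))) (PT.range hn hnb) hf).congr fun a =>
    flatMap_range_min (f a) (n a)

/-- The same with the bound `n` for the loop variable. -/
theorem PT_flatMap_range_succ {n : α → ℕ} {f : α → ℕ → List β} (hn : PT A n) (hnb : PBd n)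
    (hf : PT A (fun p : α × ℕ => f p.1 (min p.2 (n p.1)))) :
    PT A (fun a => (List.range (n a + 1)).flatMap (f a)) :=
  (PT.flatMap (f := fun a i => f a (min i (n a))) (PT.range (PT.add hn (PT.const 1))
    (hnb.add (PBd.const 1))) hf).congr fun a => by
      refine List.flatMap_congr fun z hz => ?_
      rw [min_eq_left (Nat.lt_succ_iff.1 (List.mem_range.1 hz))]

theorem PT_idxOf {l : α → List ℕ} {x : α → ℕ} (hl : PT A l) (hx : PT A x) :
    PT A (fun a => (l a).idxOf (x a)) := by
  have key : ∀ (l : List ℕ) (x : ℕ), (l.takeWhile (fun y => decide (¬ x = y))).length =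
      l.idxOf x := by
    intro l x
    induction l with
    | nil => rfl
    | cons y l ih =>
      by_cases h : x = y
      · subst h
        simp only [decide_not, decide_true, Bool.not_true, Bool.false_eq_true, not_false_eq_true,
          List.takeWhile_cons_of_neg, List.length_nil, List.idxOf_cons_self]
      · rw [List.idxOf_cons_ne _ (Ne.symm h), ← ih]
        simp [h]
  have h1 : PT A (fun p : α × ℕ => decide (¬ x p.1 = p.2)) :=
    PT.decide_not (PT.eqNat (hx.comp PT.fst') PT.snd')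
  exact (PT.takeWhile hl h1).length.congr fun a => key _ _

/-! ### Hashing -/

theorem hfold_le (p a x : ℕ) (l : List ℕ) :
    l.foldr (fun i acc => (x / p ^ i % p + a * acc) % p) 0 ≤ (x + 1) * (a + 2) ^ l.length := by
  induction l with
  | nil => simp
  | cons i l ih =>
    rw [List.foldr_cons, List.length_cons, pow_succ]
    refine (Nat.mod_le _ _).trans ?_
    have h1 : x / p ^ i % p ≤ x := (Nat.mod_le _ _).trans (Nat.div_le_self _ _)
    have h2 : 1 ≤ (a + 2) ^ l.length := Nat.one_le_pow _ _ (by omega)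
    have h3 := Nat.mul_le_mul_left a ih
    nlinarith [Nat.mul_le_mul_left (x + 1) h2]

theorem PT_hsh {p b t x : α → ℕ} (hp : PT A p) (hb : PT A b) (ht : PT A t) (htb : PBd t)
    (hx : PT A x) : PT A (fun a => hsh (p a) (b a) (t a) (x a)) := by
  have hbd : PBd (fun a => esize (x a + 1) + (t a * esize (b a + 2) + 1)) := by
    have h1 := (PT.add hx (PT.const (A := A) 1)).pbd
    have h2 := (PT.add hb (PT.const (A := A) 2)).pbd
    exact h1.add ((htb.mul h2).add (PBd.const 1))
  have hmin : PT A (fun q : α × ℕ × ℕ => min q.2.1 (t q.1)) :=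
    PT.min PT.snd'.fst (ht.comp PT.fst')
  have hminb : PBd (fun q : α × ℕ × ℕ => min q.2.1 (t q.1)) :=
    (htb.comp (PT.fst' : PT A (fun q : α × ℕ × ℕ => q.1))).mono fun q => min_le_right _ _
  refine (PT.foldr (l := fun a => List.range (t a)) (init := fun _ => 0)
    (f := fun a i acc => (x a / p a ^ (min i (t a)) % p a + b a * acc) % p a)
    (PT.range ht htb) (PT.const 0) ?_ hbd fun a i => ?_).congr fun a => ?_
  · exact PT.mod (PT.add (PT.mod (PT.div (hx.comp PT.fst')
      (PT.pow (hp.comp PT.fst') hmin hminb)) (hp.comp PT.fst'))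
      (PT.mul (hb.comp PT.fst') PT.snd'.snd)) (hp.comp PT.fst')
  · have e1 : (List.drop i (List.range (t a))).foldr
        (fun i acc => (x a / p a ^ (min i (t a)) % p a + b a * acc) % p a) 0 =
        (List.drop i (List.range (t a))).foldr
        (fun i acc => (x a / p a ^ i % p a + b a * acc) % p a) 0 := by
      refine List.foldr_ext _ _ _ fun j hj acc => ?_
      rw [min_eq_left (List.mem_range.1 (List.mem_of_mem_drop hj)).le]
    rw [e1]
    refine (esize_nat_mono (hfold_le (p a) (b a) (x a) _)).trans ?_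
    refine (esize_nat_mul_le _ _).trans (Nat.add_le_add_left ?_ _)
    refine (esize_pow_le _ _).trans (Nat.add_le_add_right (Nat.mul_le_mul_right _ ?_) 1)
    rw [List.length_drop, List.length_range]
    exact Nat.sub_le _ _
  · unfold hsh
    refine List.foldr_ext _ _ _ fun j hj acc => ?_
    rw [min_eq_left (List.mem_range.1 hj).le]

/-! ### Colors -/

theorem colOf_snd_le (z p : ℕ) (l : List (ℕ × List ℕ)) (y : ℕ) :
    (colOf z p l y).2 ≤ esize l := by
  induction l with
  | nil => simp [colOf]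
  | cons e l ih =>
    have h1 : (colOf z p (e :: l) y).2 = (colOf z p l y).2 + e.2.length := rfl
    have h2 := length_le_esize e.2
    have h3 := esize_list_cons e l
    have h4 := esize_pair e.1 e.2
    have h5 : (e.1, e.2) = e := rfl
    rw [h5] at h4
    omega

theorem colOf_fst_le (z p : ℕ) (l : List (ℕ × List ℕ)) (y : ℕ) :
    (colOf z p l y).1 ≤ z + esize l := by
  induction l with
  | nil => simp [colOf]
  | cons e l ih =>
    have h1 : (colOf z p (e :: l) y).1 =
      if (colOf z p l y).1 = z ∧ hsh p e.1 4 y ∈ e.2 then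
        (colOf z p l y).2 + e.2.idxOf (hsh p e.1 4 y) else (colOf z p l y).1 := rfl
    have h2 := length_le_esize e.2
    have h3 := esize_list_cons e l
    have h4 := esize_pair e.1 e.2
    have h5 : (e.1, e.2) = e := rfl
    have h6 := colOf_snd_le z p l y
    have h7 : e.2.idxOf (hsh p e.1 4 y) ≤ e.2.length := List.idxOf_le_length
    rw [h5] at h4
    rw [h1]
    split_ifs
    · omega
    · omega

theorem PT_colOf {z p : α → ℕ} {l : α → List (ℕ × List ℕ)} {y : α → ℕ} (hz : PT A z)
    (hp : PT A p) (hl : PT A l) (hy : PT A y) :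
    PT A (fun a => colOf (z a) (p a) (l a) (y a)) := by
  have hbd : PBd (fun a => 2 * (esize (z a) + esize (l a) + 1) +
      esize (l a) + 1) :=
    (((PBd.const 2).mul ((hz.pbd.add hl.pbd).add (PBd.const 1))).add hl.pbd).add (PBd.const 1)
  have he : PT A (fun q : α × (ℕ × List ℕ) × (ℕ × ℕ) => q.2.1) := PT.snd'.fst
  have hs : PT A (fun q : α × (ℕ × List ℕ) × (ℕ × ℕ) => q.2.2) := PT.snd'.snd
  have hh : PT A (fun q : α × (ℕ × List ℕ) × (ℕ × ℕ) => hsh (p q.1) q.2.1.1 4 (y q.1)) :=
    PT_hsh (hp.comp PT.fst') he.fst (PT.const 4) (PBd.const 4) (hy.comp PT.fst')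
  refine (PT.foldr (l := l) (init := fun a => (z a, 0))
    (f := fun a e st => (if st.1 = z a ∧ hsh (p a) e.1 4 (y a) ∈ e.2 then
      st.2 + e.2.idxOf (hsh (p a) e.1 4 (y a)) else st.1, st.2 + e.2.length))
    hl (hz.pair (PT.const 0)) ?_ hbd fun a i => ?_).congr fun a => rfl
  · refine PT.pair (PT.ite (p := fun q : α × (ℕ × List ℕ) × (ℕ × ℕ) =>
      q.2.2.1 = z q.1 ∧ hsh (p q.1) q.2.1.1 4 (y q.1) ∈ q.2.1.2)
      (PT.decide_and (PT.eqNat hs.fst (hz.comp PT.fst')) (PT.mem he.snd hh))
      (PT.add hs.snd (PT_idxOf he.snd hh)) hs.fst) (PT.add hs.snd he.snd.length)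
  · change esize (colOf (z a) (p a) ((l a).drop i) (y a)) ≤ _
    have h1 := colOf_fst_le (z a) (p a) ((l a).drop i) (y a)
    have h2 := colOf_snd_le (z a) (p a) ((l a).drop i) (y a)
    have h3 := esize_drop_le i (l a)
    have h4 := esize_pair (colOf (z a) (p a) ((l a).drop i) (y a)).1
      (colOf (z a) (p a) ((l a).drop i) (y a)).2
    have h5 : ((colOf (z a) (p a) ((l a).drop i) (y a)).1,
      (colOf (z a) (p a) ((l a).drop i) (y a)).2) = colOf (z a) (p a) ((l a).drop i) (y a) := rfl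
    rw [h5] at h4
    have h6 : esize (colOf (z a) (p a) ((l a).drop i) (y a)).1 ≤
        esize (z a) + esize (l a) + 1 := by
      have h7 : (colOf (z a) (p a) ((l a).drop i) (y a)).1 ≤ z a + esize (l a) := by omega
      have h8 := (esize_nat_mono h7).trans (esize_nat_add_le _ _)
      have h9 := esize_nat_le_self (esize (l a))
      omega
    have h10 := esize_nat_le_self (colOf (z a) (p a) ((l a).drop i) (y a)).2
    omega

theorem PT_colL {N z p1 b p2 : α → ℕ} {l : α → List (ℕ × List ℕ)} (hN : PT A N) (hNb : PBd N)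
    (hz : PT A z) (hp1 : PT A p1) (hb : PT A b) (hp2 : PT A p2) (hl : PT A l) :
    PT A (fun a => colL (N a) (z a) (p1 a) (b a) (p2 a) (l a)) := by
  unfold colL
  refine PT.map (f := fun a i => (colOf (z a) (p2 a) (l a)
    (hsh (p1 a) (b a) (Nat.size (N a)) i)).1) (PT.range hN hNb) ?_
  refine (PT_colOf (hz.comp PT.fst') (hp2.comp PT.fst') (hl.comp PT.fst')
    (PT_hsh (hp1.comp PT.fst') (hb.comp PT.fst') (PT.natSize (hN.comp PT.fst')) ?_ PT.snd')).fst
  exact (hNb.comp (PT.fst' : PT A (fun q : α × ℕ => q.1))).mono fun q => by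
    rw [← esize_nat]
    exact esize_nat_le_self _

/-! ### Sizes -/

theorem size_sq_le (n : ℕ) : Nat.size n ^ 2 ≤ 3 * n := by
  rcases Nat.eq_zero_or_pos n with rfl | hn
  · simp
  · have key : ∀ s : ℕ, (s + 1) ^ 2 ≤ 3 * 2 ^ s := by
      intro s
      induction s with
      | zero => norm_num
      | succ s ih =>
        rcases Nat.lt_or_ge s 2 with h | h
        · interval_cases s <;> norm_num
        · rw [pow_succ 2 s]
          nlinarith
    have h1 : 0 < Nat.size n := Nat.size_pos.2 hn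
    obtain ⟨s, hs⟩ : ∃ s, Nat.size n = s + 1 := ⟨Nat.size n - 1, by omega⟩
    have h2 : 2 ^ s ≤ n := Nat.lt_size.1 (by omega)
    rw [hs]
    exact (key s).trans (Nat.mul_le_mul_left 3 h2)

/-- Bounds for the number of sequences of seeds. -/
theorem PBd_pow_size {B m z : α → ℕ} (c k : ℕ) (hB : ∀ a, B a ≤ (c * m a) ^ k)
    (hm : PBd (fun a => 2 ^ m a)) (hz : PBd (fun a => 2 ^ z a)) :
    PBd (fun a => B a ^ Nat.size (z a)) := by
  have h1 : PBd (fun a => (2 ^ m a) ^ (3 * c * k) * (2 ^ z a) ^ (3 * k)) :=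
    (hm.pow _).mul (hz.pow _)
  refine h1.mono fun a => ?_
  have h2 : c * m a ≤ 2 ^ Nat.size (c * m a) := (Nat.lt_size_self _).le
  have h3 : B a ≤ 2 ^ (Nat.size (c * m a) * k) := by
    rw [pow_mul]
    exact (hB a).trans (Nat.pow_le_pow_left h2 k)
  calc B a ^ Nat.size (z a) ≤ (2 ^ (Nat.size (c * m a) * k)) ^ Nat.size (z a) :=
        Nat.pow_le_pow_left h3 _
    _ = 2 ^ (Nat.size (c * m a) * Nat.size (z a) * k) := by rw [← pow_mul]; ring_nf
    _ ≤ 2 ^ (m a * (3 * c * k) + z a * (3 * k)) := by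
        refine Nat.pow_le_pow_right (by norm_num) ?_
        have h4 := size_sq_le (c * m a)
        have h5 := size_sq_le (z a)
        have h6 : Nat.size (c * m a) * Nat.size (z a) ≤ 3 * (c * m a) + 3 * z a := by
          nlinarith [sq_nonneg ((Nat.size (c * m a) : ℤ) - Nat.size (z a)), Nat.zero_le (m a),
            two_mul_le_add_sq (Nat.size (c * m a)) (Nat.size (z a))]
        calc Nat.size (c * m a) * Nat.size (z a) * k ≤ (3 * (c * m a) + 3 * z a) * k :=
              Nat.mul_le_mul_right k h6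
          _ = m a * (3 * c * k) + z a * (3 * k) := by ring
    _ = (2 ^ m a) ^ (3 * c * k) * (2 ^ z a) ^ (3 * k) := by
        rw [pow_add, pow_mul 2 (m a) (3 * c * k), pow_mul 2 (z a) (3 * k)]

theorem PBd_two_pow_mul {p m : α → ℕ} (c : ℕ) (hp : ∀ a, p a ≤ c * m a)
    (hm : PBd (fun a => 2 ^ m a)) : PBd (fun a => 2 ^ p a) :=
  (hm.pow c).mono fun a => by
    rw [← pow_mul, mul_comm]
    exact Nat.pow_le_pow_right (by norm_num) (hp a)

theorem size_le_self (n : ℕ) : Nat.size n ≤ n := by
  rw [← esize_nat]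
  exact esize_nat_le_self n

/-! ### The family of colorings -/

section

variable (hAdv : AdvPTSpec)

include hAdv

theorem PT_fam1 {N z m p1 b p2 : α → ℕ} (hN : PT A N) (hNb : PBd N) (hz : PT A z)
    (h2z : PBd (fun a => 2 ^ z a)) (h2m : PBd (fun a => 2 ^ m a)) (hp1 : PT A p1) (hb : PT A b)
    (hp2 : PT A p2) {c : ℕ} (hp2m : ∀ a, p2 a ≤ c * m a) :
    PT A (fun a => (advs (p2 a) (p2 a) (z a) (Nat.size (z a))).map fun l =>
      colL (N a) (z a) (p1 a) (b a) (p2 a) l) := by
  have h2p : PBd (fun a => 2 ^ p2 a) := PBd_two_pow_mul c hp2m h2m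
  have hpb : PBd p2 := h2p.mono fun a => Nat.lt_two_pow_self.le
  have hzb : PBd z := h2z.mono fun a => Nat.lt_two_pow_self.le
  refine PT.map (f := fun a l => colL (N a) (z a) (p1 a) (b a) (p2 a) l)
    (hAdv hp2 h2p hp2 hpb hz h2z (PT.natSize hz) (hzb.mono fun a => size_le_self _)
      (PBd_pow_size c 1 (fun a => by rw [pow_one]; exact hp2m a) h2m h2z)) ?_
  exact PT_colL (hN.comp PT.fst') (hNb.comp (PT.fst' : PT A (fun q : α × List (ℕ × List ℕ) =>
    q.1))) (hz.comp PT.fst') (hp1.comp PT.fst') (hb.comp PT.fst') (hp2.comp PT.fst') PT.snd'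

theorem PT_fam2 {N z m p1 b : α → ℕ} (hN : PT A N) (hNb : PBd N) (hz : PT A z) (hm : PT A m)
    (h2z : PBd (fun a => 2 ^ z a)) (h2m : PBd (fun a => 2 ^ m a)) (hp1 : PT A p1) (hb : PT A b)
    (c : ℕ) :
    PT A (fun a => (List.range (c * m a + 1)).flatMap fun p2 =>
      (advs p2 p2 (z a) (Nat.size (z a))).map fun l => colL (N a) (z a) (p1 a) (b a) p2 l) := by
  have hmb : PBd m := h2m.mono fun a => Nat.lt_two_pow_self.le
  have hf : PT A (fun q : α × ℕ => q.1) := PT.fst'
  refine PT_flatMap_range_succ (n := fun a => c * m a) (f := fun a p2 =>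
    (advs p2 p2 (z a) (Nat.size (z a))).map fun l => colL (N a) (z a) (p1 a) (b a) p2 l)
    (PT.mul (PT.const c) hm) ((PBd.const c).mul hmb) ?_
  exact PT_fam1 hAdv (N := fun q : α × ℕ => N q.1) (z := fun q : α × ℕ => z q.1)
    (m := fun q : α × ℕ => m q.1) (p1 := fun q : α × ℕ => p1 q.1) (b := fun q : α × ℕ => b q.1)
    (p2 := fun q : α × ℕ => min q.2 (c * m q.1)) (hN.comp hf) (hNb.comp hf) (hz.comp hf)
    (h2z.comp hf) (h2m.comp hf) (hp1.comp hf) (hb.comp hf)
    (PT.min PT.snd' (PT.mul (PT.const c) (hm.comp hf))) (c := c) fun q => min_le_right _ _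

theorem PT_famC {N z m : α → ℕ} (hN : PT A N) (hNb : PBd N) (hz : PT A z) (hm : PT A m)
    (h2z : PBd (fun a => 2 ^ z a)) (h2m : PBd (fun a => 2 ^ m a)) (c d : ℕ) :
    PT A (fun a => (List.range (d * m a ^ 3 + 1)).flatMap fun p1 =>
      (List.range p1).flatMap fun b => (List.range (c * m a + 1)).flatMap fun p2 =>
        (advs p2 p2 (z a) (Nat.size (z a))).map fun l => colL (N a) (z a) p1 b p2 l) := by
  have hmb : PBd m := h2m.mono fun a => Nat.lt_two_pow_self.le
  have hf : PT A (fun q : α × ℕ => q.1) := PT.fst'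
  have hn : PT A (fun a => d * m a ^ 3) := PT.mul (PT.const d) (PT.powConst hm 3)
  have hnb : PBd (fun a => d * m a ^ 3) := (PBd.const d).mul (hmb.pow 3)
  have hp : PT A (fun q : α × ℕ => min q.2 (d * m q.1 ^ 3)) := PT.min PT.snd' (hn.comp hf)
  have hpb : PBd (fun q : α × ℕ => min q.2 (d * m q.1 ^ 3)) :=
    (hnb.comp hf).mono fun q => min_le_right _ _
  refine PT_flatMap_range_succ (n := fun a => d * m a ^ 3) (f := fun a p1 =>
    (List.range p1).flatMap fun b => (List.range (c * m a + 1)).flatMap fun p2 =>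
        (advs p2 p2 (z a) (Nat.size (z a))).map fun l => colL (N a) (z a) p1 b p2 l) hn hnb ?_
  refine PT.flatMap (l := fun q : α × ℕ => List.range (min q.2 (d * m q.1 ^ 3)))
    (f := fun q b => (List.range (c * m q.1 + 1)).flatMap fun p2 =>
        (advs p2 p2 (z q.1) (Nat.size (z q.1))).map fun l =>
          colL (N q.1) (z q.1) (min q.2 (d * m q.1 ^ 3)) b p2 l) (PT.range hp hpb) ?_
  have hg : PT A (fun q : (α × ℕ) × ℕ => q.1.1) := PT.fst'.fst
  exact PT_fam2 hAdv (N := fun q : (α × ℕ) × ℕ => N q.1.1) (z := fun q : (α × ℕ) × ℕ => z q.1.1)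
    (m := fun q : (α × ℕ) × ℕ => m q.1.1)
    (p1 := fun q : (α × ℕ) × ℕ => min q.1.2 (d * m q.1.1 ^ 3)) (b := fun q : (α × ℕ) × ℕ => q.2)
    (hN.comp hg) (hNb.comp hg) (hz.comp hg) (hm.comp hg) (h2z.comp hg) (h2m.comp hg)
    (hp.comp PT.fst') PT.snd' c

end

end Vale.Agent.P334.Det.CP

namespace Vale.Agent.P334.Det

open Vale.Agent.Lib.PolyTime

/-- Block CP. -/
theorem colorPT_of (h : AdvPTSpec) : ColorPTSpec := by
  intro A α _ N z m hN hNb hz hm h2z h2m
  exact CP.PT_famC h hN hNb hz hm h2z h2m 768000 96000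

end Vale.Agent.P334.Det
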