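import Vale.Agent.Lib.PolyTime.NatArith2
import Vale.Agent.Lib.PolyTime.Lists3
import Vale.Agent.Lib.PolyTime.Bitwise
import Mathlib.Analysis.SpecialFunctions.Exp

/-!
Derandomization of the trial for stable instances of metric `k`-median: explicit families of
colorings and of anchor positions.

Every `def ...Spec : Prop` below is a statement to be proved in its own file.
-/

namespace Vale.Agent.P334.Det

open Finset Vale.Agent.Lib.PolyTime

/-! ### Hashing -/

/-- Polynomial hashing: the digits of `x` in base `p` (at most `t` of them) are the coefficients of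
a polynomial, which is evaluated at `a` modulo `p`. -/
def hsh (p a t x : ℕ) : ℕ :=
  (List.range t).foldr (fun i acc => (x / p ^ i % p + a * acc) % p) 0

/-- Block H. Two different numbers collide for at most `t` parameters. -/
def HashSpec : Prop :=
  ∀ p t x y : ℕ, p.Prime → x < p ^ t → y < p ^ t → x ≠ y →
    ((range p).filter (fun a => hsh p a t x = hsh p a t y)).card ≤ t

/-! ### Enumeration of advice -/

/-- The subsets of `{0, ..., p - 1}`, as increasing lists. -/
def subs (p : ℕ) : List (List ℕ) :=
  (List.range (2 ^ p)).map fun m => (List.range p).filter fun i => decide (m / 2 ^ i % 2 = 1)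

/-- Advice for `J` levels: for the level `j` a seed smaller than `B` and a subset of
`{0, ..., p - 1}` with at most `r / 2 ^ j` elements. The head of the list is the last level. -/
def advs (p B r : ℕ) : ℕ → List (List (ℕ × List ℕ))
  | 0 => [[]]
  | J + 1 => (advs p B r J).flatMap fun l => (List.range B).flatMap fun b =>
      ((subs p).filter fun Y => decide (Y.length ≤ r / 2 ^ J)).map fun Y => (b, Y) :: l

/-- Block E1. New advice. -/
def AdvMemSpec : Prop :=
  ∀ (p B r J b : ℕ) (l : List (ℕ × List ℕ)) (Y : Finset ℕ), l ∈ advs p B r J → b < B →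
    Y ⊆ range p → Y.card ≤ r / 2 ^ J →
    (b, (List.range p).filter fun i => decide (i ∈ Y)) :: l ∈ advs p B r (J + 1)

/-- Block E2. The number of pieces of advice. -/
def AdvCountSpec : Prop :=
  ∀ p B r J : ℕ, ((advs p B r J).length : ℝ) ≤ (B : ℝ) ^ J * Real.exp (2 * p + 2 * r)

/-- Block E3. The advice is computed in polynomial time. -/
def AdvPTSpec : Prop :=
  ∀ {A : Set Word} {α : Type} [Enc α] {p B r J : α → ℕ}, PT A p → PBd (fun a => 2 ^ p a) →
    PT A B → PBd B → PT A r → PBd (fun a => 2 ^ r a) → PT A J → PBd J →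
    PBd (fun a => B a ^ J a) → PT A (fun a => advs (p a) (B a) (r a) (J a))

/-! ### Colorings -/

/-- The color of an element with the hash value `y` (`z` means no color), and the number of colors
used. -/
def colOf (z p : ℕ) (l : List (ℕ × List ℕ)) (y : ℕ) : ℕ × ℕ :=
  l.foldr (fun e st =>
    (if st.1 = z ∧ hsh p e.1 4 y ∈ e.2 then st.2 + e.2.idxOf (hsh p e.1 4 y) else st.1,
      st.2 + e.2.length)) (z, 0)

/-- The coloring of `{0, ..., N - 1}` given by the parameters and the advice. -/
def colL (N z p1 a p2 : ℕ) (l : List (ℕ × List ℕ)) : List ℕ :=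
  (List.range N).map fun i => (colOf z p2 l (hsh p1 a (Nat.size N) i)).1

/-- The family of colorings; `m` is at least the number of colored elements, of protected
elements, and of the binary digits of `N`. -/
def famC (N z m : ℕ) : List (List ℕ) :=
  (List.range (96000 * m ^ 3 + 1)).flatMap fun p1 => (List.range p1).flatMap fun a =>
    (List.range (768000 * m + 1)).flatMap fun p2 =>
      (advs p2 p2 z (Nat.size z)).map fun l => colL N z p1 a p2 l

/-- Block C. Some coloring of the family is good. -/
def ColorDetSpec : Prop :=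
  ∀ (N z m : ℕ) (Z C O : Finset ℕ) (loss : ℕ → ℝ), Z ⊆ range N → C ⊆ range N → O ⊆ range N →
    Disjoint Z C → Disjoint Z O → Disjoint C O → Z.card = z → z ≤ m → C.card ≤ m →
    Nat.size N ≤ m → 1 ≤ m → (∀ i, 0 ≤ loss i) →
    ∃ χ ∈ famC N z m, Set.BijOn (fun i => χ.getD i 0) (Z : Set ℕ) {a | a < z} ∧
      (∀ i ∈ range N, χ.getD i 0 ≤ z) ∧ (∀ i ∈ C, χ.getD i 0 = z) ∧
      ∑ i ∈ O, (if χ.getD i 0 < z then loss i else 0) ≤ 1 / 12000 * ∑ i ∈ O, loss i

/-- Block CP. The family of colorings is computed in polynomial time. -/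
def ColorPTSpec : Prop :=
  ∀ {A : Set Word} {α : Type} [Enc α] {N z m : α → ℕ}, PT A N → PBd N → PT A z → PT A m →
    PBd (fun a => 2 ^ z a) → PBd (fun a => 2 ^ m a) → PT A (fun a => famC (N a) (z a) (m a))

/-! ### Anchors -/

/-- The points chosen by an advice in `{0, ..., p - 1} × {0, ..., p - 1}`, where `(x, y)` is written
as `x * p + y`: a seed `e` is a line. -/
def pts (p : ℕ) (l : List (ℕ × List ℕ)) : List ℕ :=
  l.flatMap fun e => e.2.map fun x => x * p + (e.1 / p * x + e.1 % p) % p

/-- The family of lists of positions in a list of length `n`; `m` is at least the number of anchors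
needed. -/
def famA (n m : ℕ) : List (List ℕ) :=
  (List.range (9152000000 * m + 1)).flatMap fun p => (List.range (4 * p ^ 2 * n + 1)).flatMap fun P =>
    (List.range P).flatMap fun A => (List.range P).flatMap fun B =>
      (advs p (p ^ 2) m (Nat.size m)).map fun l => (pts p l).map fun i => (A + i * B) % P

/-- Block PI. Pairwise independence of `A + i * B` modulo a prime number: the variance of the number
of hits. -/
def PairSpec : Prop :=
  ∀ (P s : ℕ) (E : ℕ → Finset ℕ), P.Prime → s ≤ P → (∀ i < s, E i ⊆ range P) →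
    ∑ A ∈ range P, ∑ B ∈ range P,
      ((((range s).filter (fun i => (A + i * B) % P ∈ E i)).card : ℝ) -
        (∑ i ∈ range s, ((E i).card : ℝ)) / P) ^ 2 ≤ P * ∑ i ∈ range s, ((E i).card : ℝ)

/-- Block A. Some list of the family hits all the sets, in some order. -/
def AnchorDetSpec : Prop :=
  ∀ {X : Type} [DecidableEq X] (n m : ℕ) (Q : Finset X) (I : X → Finset ℕ), 0 < n → 1 ≤ m →
    Q.card ≤ m → (∀ o ∈ Q, I o ⊆ range n) →
    (∀ o ∈ Q, ∀ o' ∈ Q, o ≠ o' → Disjoint (I o) (I o')) →
    (∀ o ∈ Q, (1 / 572000000 : ℝ) * n / m ≤ ((I o).card : ℝ)) →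
    ∃ L ∈ famA n m, ∃ os : List X, os.Nodup ∧ os.toFinset = Q ∧
      List.Forall₂ (fun i o => i % n ∈ I o) L os

/-- Block AP. The family of lists of positions is computed in polynomial time. -/
def AnchorPTSpec : Prop :=
  ∀ {A : Set Word} {α : Type} [Enc α] {n m : α → ℕ}, PT A n → PBd n → PT A m →
    PBd (fun a => 2 ^ m a) → PT A (fun a => famA (n a) (m a))

/-! ### Digits -/

/-- Block D. Numbers with given digits. -/
def DigitSpec : Prop :=
  ∀ (M h : ℕ) (f : ℕ → ℕ), 0 < M → (∀ i < h, f i < M) → ∃ u < M ^ h, ∀ i < h, u / M ^ i % M = f i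

end Vale.Agent.P334.Det
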