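import Vale.Agent.P334.Bdl.B7
import Vale.Agent.P334.H100.Defs

set_option linter.all false

/-!
Deterministic part of the analysis of the trial for stable instances: what the choices have to
satisfy.
-/

namespace Vale.Agent.P334.Alg

section

variable {X : Type} [MetricSpace X] [DecidableEq X] {d : X → X → ℕ} {D : ℕ} {J F : List X}

/-- Algorithm 2: sufficient conditions for the choices. -/
theorem case2_ev (hB : LevelBSpec) (hR : RadSpec) (I : Inst d D J F)
    (hdiv : ∀ x y, 4000 * J.length ∣ d x y) {S : List X} {T0 : Finset X} (x0 : X)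
    (hSn : S.Nodup) (hSF : S ⊆ F) (hS : S ≠ []) (hTF : T0 ⊆ F.toFinset) (hT0 : T0.Nonempty)
    {tq tz : ℕ} (htq : 1 ≤ tq) (h1 : (T0 \ S.toFinset).card ≤ tq)
    (h2 : (S.toFinset \ T0).card ≤ tz)
    (hsat : ∀ q ∈ F.toFinset, cost J.toFinset S.toFinset ≤
      cost J.toFinset (insert q S.toFinset) +
        cost J.toFinset S.toFinset / (2 * 10 ^ 9 * (tq : ℝ)))
    (hA : cost J.toFinset T0 < 5 * cost J.toFinset S.toFinset) :
    ∃ (z : ℕ) (Z Cr V Q B2 : Finset X) (loss : X → ℝ) (G : X → Finset X) (rad : X → X → ℕ),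
      z ≤ tz ∧ Z.card = z ∧ V ⊆ S.toFinset ∧ Z ⊆ V ∧ Cr ⊆ V ∧ Disjoint Z Cr ∧ Cr.card ≤ tz ∧
      (∀ s, 0 ≤ loss s) ∧ Q.card ≤ tq ∧ 0 < (bag d D J S).length ∧
      (∀ o ∈ Q, ∀ o' ∈ Q, o ≠ o' → Disjoint (G o) (G o')) ∧
      (∀ o ∈ Q, (1 / 572000000 : ℝ) * (bag d D J S).length / tq ≤
        (((bag d D J S).countP (fun x => decide (x ∈ G o)) : ℕ) : ℝ)) ∧
      (∀ o ∈ Q, ∀ p ∈ G o, rad o p < 2541000) ∧
      (bigS d D x0 J S tz).length ≤ 2000 * tz ∧
      ∀ r1 r2 r3 r4 : ℕ → ℕ, Ev1 S z Z Cr V loss r1 →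
        Ev2 S (bigS d D x0 J S tz).toFinset B2 r2 →
        (∃ o : Fin Q.card ≃ {x // x ∈ Q}, ∀ i : Fin Q.card,
          (bag d D J S).getD (r3 i % (bag d D J S).length) x0 ∈ G (o i) ∧
          r4 i % 2541000 = rad (o i) ((bag d D J S).getD (r3 i % (bag d D J S).length) x0)) →
        ∀ T, T = cand2 d D x0 J F S tz r1 r2 r3 r4 z Q.card →
          T ≠ [] ∧ T.length ≤ T0.card ∧ (cst d D J T : ℝ) ≤ 199 / 100 * cost J.toFinset T0 := by
  classical
  have hSne : (S.toFinset).Nonempty := by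
    obtain ⟨x, hx⟩ := List.exists_mem_of_ne_nil _ hS
    exact ⟨x, List.mem_toFinset.2 hx⟩
  have hJpos : 0 < J.length := List.length_pos_of_ne_nil I.hJ0
  have hA0 : 0 < cost J.toFinset S.toFinset := by
    have : 0 ≤ cost J.toFinset T0 := cost_nonneg _ _
    linarith only [hA, this]
  have hcst : (cst d D J S : ℝ) = cost J.toFinset S.toFinset := I.cst_real hS
  have hcst0 : 0 < cst d D J S := by
    rw [← hcst] at hA0
    exact_mod_cast hA0
  obtain ⟨K, Q, e, v, G, tgt⟩ := exists_target (J := J.toFinset) hSne hT0 hTF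
    (τ := (tq : ℝ)) (by exact_mod_cast h1) (by exact_mod_cast htq) hsat hA
  obtain ⟨Cr, hCr1, hCr2, hCr3⟩ := hB d D J F I x0 S T0 (tq : ℝ) tz K Q e v G hSn hSF hS hcst0
    hTF hT0 h2 tgt
  set V := (A2.small (bigS d D x0 J S tz) S).toFinset with hV
  have hVS : V ⊆ S.toFinset := by
    intro s hs
    rw [hV, List.mem_toFinset, A2.mem_small] at hs
    exact List.mem_toFinset.2 hs.1
  -- cardinalities
  have hQF : Q ⊆ F.toFinset := fun x hx => hTF (Finset.mem_sdiff.1 (tgt.Q_sub hx)).1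
  have hQq : Q.card ≤ tq := (Finset.card_le_card tgt.Q_sub).trans h1
  have hSK : S.toFinset \ K ⊆ S.toFinset \ T0 := by
    intro x hx
    rw [Finset.mem_sdiff] at hx ⊢
    exact ⟨hx.1, fun h => hx.2 (tgt.inter_sub (Finset.mem_inter.2 ⟨hx.1, h⟩))⟩
  have hzt : (V \ K).card ≤ tz :=
    ((Finset.card_le_card (Finset.sdiff_subset_sdiff hVS (Finset.Subset.refl _))).trans
      (Finset.card_le_card hSK)).trans h2
  -- radii
  have hinf : ∀ p, Metric.infDist p (S.toFinset : Set X) = (mins d D p S : ℝ) := fun p =>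
    (I.mins_real hS p).symm
  have hvbig : ∀ o ∈ Q, 4000 ≤ v o := by
    intro o ho
    obtain ⟨j, _, hj1, hj2⟩ := tgt.v_big o ho
    rw [I.hd] at hj1 hj2
    have e1 : 4000 * J.length ≤ d j o := Nat.le_of_dvd (by exact_mod_cast hj1) (hdiv j o)
    have e2 : (4000 : ℝ) * J.length ≤ d j o := by exact_mod_cast e1
    have e3 : (J.toFinset.card : ℝ) = J.length := by
      rw [List.toFinset_card_of_nodup I.hJ]
    rw [e3] at hj2
    have e4 : (0 : ℝ) < J.length := by exact_mod_cast hJpos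
    have e5 : (J.length : ℝ) * 4000 ≤ J.length * v o := by linarith only [hj2, e2]
    exact le_of_mul_le_mul_left e5 e4
  have hrad : ∀ o p, ∃ u, o ∈ Q → p ∈ G o → u < 2541000 ∧ d p o ≤ radi d D S p u ∧
      (radi d D S p u : ℝ) ≤ 231 / 200 * v o := by
    intro o p
    by_cases ho : o ∈ Q
    · by_cases hp : p ∈ G o
      · obtain ⟨u, hu1, hu2, hu3⟩ := hR (d p o) (mins d D p S) (v o) (hvbig o ho)
          (by rw [← I.hd]; exact tgt.G_dist o ho p hp)
          (by rw [← hinf]; exact tgt.G_lo o ho p hp)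
          (by rw [← hinf]; exact tgt.G_hi o ho p hp)
        exact ⟨u, fun _ _ => ⟨hu1, hu2, hu3⟩⟩
      · exact ⟨0, fun _ h => absurd h hp⟩
    · exact ⟨0, fun h => absurd h ho⟩
  choose rad hrad using hrad
  -- the events
  set loss : X → ℝ := fun s => 2 * ∑ j ∈ J.toFinset.filter (fun j => e j = s), (d j s : ℝ)
    with hloss
  have hLlen : (bag d D J S).length = cst d D J S := length_bag J S
  set z := (V \ K).card with hz
  have hVc : Disjoint (V \ K) Cr := by
    rw [Finset.disjoint_left]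
    intro x hx hx'
    exact (Finset.mem_sdiff.1 hx).2 (Finset.mem_inter.1 (hCr1 hx')).2
  have hBgn : (bigS d D x0 J S tz).Nodup := hSn.filter _
  refine ⟨z, V \ K, Cr, V, Q, S.toFinset \ K, loss, G, rad, hzt, rfl, hVS, Finset.sdiff_subset,
    hCr1.trans Finset.inter_subset_left, hVc, hCr2, fun s => ?_, hQq, ?_, tgt.G_disj, ?_,
    fun o ho p hp => (hrad o p ho hp).1, ?_, ?_⟩
  · rw [hloss]; (clear * -; positivity)
  · rw [hLlen]; exact hcst0
  · intro o ho
    have e1 := tgt.G_wt o ho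
    have e2 : G o ⊆ J.toFinset := tgt.G_sub o ho
    rw [countP_bag I S (G o) e2, hLlen, hcst]
    push_cast
    have e3 : ∑ p ∈ G o, Metric.infDist p (S.toFinset : Set X) =
        ∑ p ∈ G o, (mins d D p S : ℝ) := Finset.sum_congr rfl fun p _ => hinf p
    rw [← e3]
    refine le_trans (le_of_eq ?_) e1
    (clear * - htq hA0; field_simp)
  · rw [← List.toFinset_card_of_nodup hBgn]
    exact card_bigS I x0 hS tz hcst0
  · -- consequence
    rintro r1 r2 r3 r4 ⟨g1, g2, g3⟩ g4 ⟨o, g5⟩ T hT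
    obtain ⟨os, p, R, ho1, ho2, ho3, ho4⟩ := anch_eq (d := d) (D := D) x0 J S r3 r4 Q o
    have hZb : (bigS d D x0 J S tz).filter (fun s => decide
        (r2 (S.idxOf s) % 2 = 1)) =
        (bigS d D x0 J S tz).filter (fun s => decide (s ∉ K)) := by
      apply List.filter_congr
      intro s hs
      have e1 := g4 s (List.mem_toFinset.2 hs)
      have e2 : s ∈ S := (List.mem_filter.1 hs).1
      rw [Finset.mem_sdiff, List.mem_toFinset] at e1
      rw [decide_eq_decide]
      exact e1.trans ⟨fun h => h.2, fun h => ⟨e2, h⟩⟩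
    obtain ⟨q1, q2, q3, q4⟩ := hCr3 z (col r1 z S) _ os p R hz g1 g2 (by
        refine g3.trans ?_
        have e1 : ∑ s ∈ (V \ (V \ K)) \ Cr, loss s ≤
            ∑ s ∈ K, loss s := by
          refine Finset.sum_le_sum_of_subset_of_nonneg ?_ ?_
          · intro s hs
            rw [Finset.mem_sdiff, Finset.mem_sdiff, Finset.mem_sdiff] at hs
            by_contra h
            exact hs.1.2 ⟨hs.1.1, h⟩
          · intro s _ _
            rw [hloss]
            (clear * -; positivity)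
        have e2 : ∑ s ∈ K, loss s ≤ 2 * ∑ j ∈ J.toFinset, (d j (e j) : ℝ) := by
          rw [hloss, ← Finset.mul_sum]
          refine mul_le_mul_of_nonneg_left ?_ (by norm_num)
          have e3 : ∀ s ∈ K, ∑ j ∈ J.toFinset.filter (fun j => e j = s), (d j s : ℝ) =
              ∑ j ∈ J.toFinset.filter (fun j => e j = s), (d j (e j) : ℝ) := by
            intro s _
            refine Finset.sum_congr rfl fun j hj => ?_
            rw [(Finset.mem_filter.1 hj).2]
          rw [Finset.sum_congr rfl e3]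
          have e4 : ∀ s, ∑ j ∈ J.toFinset.filter (fun j => e j = s), (d j (e j) : ℝ) =
              ∑ j ∈ (J.toFinset.filter (fun j => e j ∈ K)).filter (fun j => e j = s),
                (d j (e j) : ℝ) ∨ s ∉ K := by
            intro s
            by_cases hs : s ∈ K
            · left
              congr 1
              rw [Finset.filter_filter]
              refine Finset.filter_congr fun j _ => ?_
              constructor
              · intro h
                exact ⟨by rw [h]; exact hs, h⟩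
              · exact fun h => h.2
            · exact Or.inr hs
          have e5 : ∑ s ∈ K, ∑ j ∈ J.toFinset.filter (fun j => e j = s), (d j (e j) : ℝ) =
              ∑ j ∈ J.toFinset.filter (fun j => e j ∈ K), (d j (e j) : ℝ) := by
            rw [← Finset.sum_fiberwise_of_maps_to (s := J.toFinset.filter (fun j => e j ∈ K))
              (t := K) (g := e) (fun j hj => (Finset.mem_filter.1 hj).2)]
            refine Finset.sum_congr rfl fun s hs => ?_
            exact (e4 s).resolve_right (fun h => h hs)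
          rw [e5]
          exact Finset.sum_le_sum_of_subset_of_nonneg (Finset.filter_subset _ _)
            (fun _ _ _ => Nat.cast_nonneg _)
        linarith only [e1, e2]) hZb ho1 ho2 (by
        intro x hx
        obtain ⟨i, hi⟩ : ∃ i, o i = ⟨x, hx⟩ := ⟨o.symm ⟨x, hx⟩, by simp⟩
        have hix : ((o i : {x // x ∈ Q}) : X) = x := by rw [hi]
        obtain ⟨e1, e2⟩ := ho4 i
        obtain ⟨e3, e4⟩ := g5 i
        rw [hix] at e1 e2 e3 e4
        have e5 : pnt d D x0 J S (r3 i) ∈ G x := e3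
        obtain ⟨e6, e7, e8⟩ := hrad x _ hx e5
        have e9 : r4 i % 2541000 = rad x (pnt d D x0 J S (r3 i)) := e4
        rw [e1, e2, e9]
        exact ⟨e5, e7, e8⟩) _ rfl
    obtain ⟨w1, w2⟩ := addAll_good d D J _ q2
    obtain ⟨w3, w4, w5⟩ := addAll_nil (A2.alg2 d D (topOf D J) x0 J F S (bigS d D x0 J S tz)
      ((bigS d D x0 J S tz).filter (fun s => decide (r2 (S.idxOf s) % 2 = 1)))
      (col r1 z S) z (os.map fun o => (p o, R o)))
    have hT' : T = addAll (A2.alg2 d D (topOf D J) x0 J F S (bigS d D x0 J S tz)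
      ((bigS d D x0 J S tz).filter (fun s => decide (r2 (S.idxOf s) % 2 = 1)))
      (col r1 z S) z (os.map fun o => (p o, R o))) [] := by
      rw [hT, ← ho3]
      rfl
    rw [hT']
    refine ⟨w1, w5.trans (q3.trans tgt.card_le), ?_⟩
    rw [w2]
    exact q4

/-- Algorithm 1: sufficient conditions for the choices. -/
theorem case1_ev (I : Inst d D J F) {S : List X}
    {T0 : Finset X} (x0 : X) (hSn : S.Nodup) (hSF : S ⊆ F) (hS : S ≠ []) (hTF : T0 ⊆ F.toFinset)
    (hT0 : T0.Nonempty) {tz : ℕ}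
    (h2 : (S.toFinset \ T0).card ≤ tz)
    (hA : 5 * cost J.toFinset S.toFinset ≤ cost J.toFinset T0) :
    ∃ (z : ℕ) (Z Cr : Finset X), z ≤ tz ∧ Z.card = z ∧ Z ⊆ S.toFinset ∧ Cr ⊆ S.toFinset ∧
      Disjoint Z Cr ∧ Cr.card ≤ tz ∧
      ∀ r1 : ℕ → ℕ, Ev1 S z Z Cr S.toFinset (fun _ => 0) r1 →
        ∀ T, T = cand1s d D x0 J F S r1 z (T0 \ S.toFinset).card →
        T ≠ [] ∧ T.length ≤ T0.card ∧ (cst d D J T : ℝ) ≤ 199 / 100 * cost J.toFinset T0 := by
  classical
  obtain ⟨Cr, hCr1, hCr2, hCr3, hCr4⟩ := case1 I x0 hSn hSF hS hTF hT0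
  refine ⟨(S.toFinset \ T0).card, S.toFinset \ T0, Cr, h2, rfl, Finset.sdiff_subset, hCr1, hCr2,
    hCr3.trans h2, ?_⟩
  rintro r ⟨g1, g2, -⟩ T hT
  obtain ⟨q1, q2, q3⟩ := hCr4 (col r _ S) _ _ rfl rfl g1 g2 T hT
  refine ⟨q1, q2, ?_⟩
  have q4 : (cst d D J T : ℝ) ≤ 2 * cst d D J S + cst d D J T0.toList := by exact_mod_cast q3
  rw [I.cst_real hS, I.cst_toList hT0] at q4
  have : 0 ≤ cost J.toFinset T0 := cost_nonneg _ _
  linarith only [hA, q4]

end

end Vale.Agent.P334.Alg
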