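import Vale.Agent.P334.H100.Defs
import Vale.Agent.Lib.PolyTime.Lists2
import Mathlib.Analysis.Complex.ExponentialBounds

/-!
Block E3: the advice is computed in polynomial time.
-/

namespace Vale.Agent.P334.Det

open Finset Vale.Agent.Lib.PolyTime

variable {A : Set Word} {α : Type} [Enc α]

/-- The list of subsets is computed in polynomial time. -/
theorem PT_subs {p : α → ℕ} (hp : PT A p) (hb : PBd (fun a => 2 ^ p a)) :
    PT A (fun a => subs (p a)) := by
  have hpb : PBd p := hb.mono fun a => (Nat.lt_two_pow_self).le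
  have h1 : PT A (fun a => 2 ^ p a) := PT.pow (PT.const 2) hp hpb
  have h2 : PT A (fun q : α × ℕ => List.range (p q.1)) :=
    PT.range (hp.comp PT.fst') (hpb.comp (A := A) PT.fst')
  have h3 : PT A (fun q : (α × ℕ) × ℕ => decide (q.1.2 / 2 ^ q.2 % 2 = 1)) :=
    PT.eqNat (PT.bitNat PT.fst'.snd PT.snd') (PT.const 1)
  exact PT.map (f := fun a m => (List.range (p a)).filter fun i => decide (m / 2 ^ i % 2 = 1))
    (PT.range h1 hb) (PT.filter (f := fun (q : α × ℕ) i => decide (q.2 / 2 ^ i % 2 = 1)) h2 h3)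

/-- One level of advice. -/
def advStep (p B r j : ℕ) (L : List (List (ℕ × List ℕ))) : List (List (ℕ × List ℕ)) :=
  L.flatMap fun l => (List.range B).flatMap fun b =>
    ((subs p).filter fun Y => decide (Y.length ≤ r / 2 ^ j)).map fun Y => (b, Y) :: l

theorem advs_succ (p B r J : ℕ) : advs p B r (J + 1) = advStep p B r J (advs p B r J) := rfl

theorem advs_eq_rec (p B r J : ℕ) : advs p B r J =
    Nat.rec (motive := fun _ => List (List (ℕ × List ℕ))) [[]] (fun j L => advStep p B r j L) J := by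
  induction J with
  | zero => rfl
  | succ J ih => rw [advs_succ, ih]

theorem div_two_pow_min (r j : ℕ) : r / 2 ^ j = r / 2 ^ (min j r) := by
  rcases le_total j r with h | h
  · rw [min_eq_left h]
  · rw [min_eq_right h, Nat.div_eq_of_lt ((Nat.lt_two_pow_self).trans_le
      (Nat.pow_le_pow_right (by norm_num) h)), Nat.div_eq_of_lt Nat.lt_two_pow_self]

/-- A level of advice is computed in polynomial time. -/
theorem PT_advStep {p B r : α → ℕ} (hp : PT A p) (hpb : PBd (fun a => 2 ^ p a)) (hB : PT A B)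
    (hBb : PBd B) (hr : PT A r) (hrb : PBd (fun a => 2 ^ r a)) :
    PT A (fun q : α × ℕ × List (List (ℕ × List ℕ)) =>
      advStep (p q.1) (B q.1) (r q.1) q.2.1 q.2.2) := by
  have hrb' : PBd r := hrb.mono fun a => (Nat.lt_two_pow_self).le
  have h1 : PT A (fun q : α × ℕ × List (List (ℕ × List ℕ)) => r q.1 / 2 ^ q.2.1) := by
    refine (PT.div (hr.comp PT.fst') (PT.pow (PT.const 2)
      (PT.min PT.snd'.fst (hr.comp PT.fst')) ((hrb'.comp (A := A) PT.fst').mono fun q =>
        min_le_right _ _))).congr fun q => (div_two_pow_min _ _).symm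
  have hF : PT A (fun q : α × ℕ × List (List (ℕ × List ℕ)) =>
      (subs (p q.1)).filter fun Y => decide (Y.length ≤ r q.1 / 2 ^ q.2.1)) :=
    PT.filter (f := fun (q : α × ℕ × List (List (ℕ × List ℕ))) (Y : List ℕ) =>
      decide (Y.length ≤ r q.1 / 2 ^ q.2.1)) (PT_subs (hp.comp PT.fst') (hpb.comp (A := A) PT.fst'))
      (PT.le (PT.length PT.snd') (h1.comp PT.fst'))
  have hM : PT A (fun q : ((α × ℕ × List (List (ℕ × List ℕ))) × List (ℕ × List ℕ)) × ℕ =>
      ((subs (p q.1.1.1)).filter fun Y =>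
        decide (Y.length ≤ r q.1.1.1 / 2 ^ q.1.1.2.1)).map fun Y => (q.2, Y) :: q.1.2) :=
    PT.map (f := fun (q : ((α × ℕ × List (List (ℕ × List ℕ))) × List (ℕ × List ℕ)) × ℕ)
      (Y : List ℕ) => (q.2, Y) :: q.1.2) (hF.comp PT.fst'.fst)
      (PT.cons ((PT.fst'.snd).pair PT.snd') PT.fst'.fst.snd)
  have hR : PT A (fun q : (α × ℕ × List (List (ℕ × List ℕ))) × List (ℕ × List ℕ) =>
      List.range (B q.1.1)) :=
    PT.range (hB.comp PT.fst'.fst) (hBb.comp (A := A) PT.fst'.fst)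
  exact PT.flatMap (f := fun (q : α × ℕ × List (List (ℕ × List ℕ))) (l : List (ℕ × List ℕ)) =>
    (List.range (B q.1)).flatMap fun b => ((subs (p q.1)).filter fun Y =>
        decide (Y.length ≤ r q.1 / 2 ^ q.2.1)).map fun Y => (b, Y) :: l) PT.snd'.snd
    (PT.flatMap (f := fun (q : (α × ℕ × List (List (ℕ × List ℕ))) × List (ℕ × List ℕ)) (b : ℕ) =>
      ((subs (p q.1.1)).filter fun Y =>
        decide (Y.length ≤ r q.1.1 / 2 ^ q.1.2.1)).map fun Y => (b, Y) :: q.2) hR hM)

/-- The entries of a piece of advice. -/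
theorem mem_advs {p B r : ℕ} : ∀ {J : ℕ} {l : List (ℕ × List ℕ)}, l ∈ advs p B r J →
    l.length = J ∧ ∀ e ∈ l, e.1 < B ∧ e.2 ∈ subs p
  | 0, l, h => by
    rw [advs, List.mem_singleton] at h
    subst h
    simp
  | J + 1, l, h => by
    rw [advs, List.mem_flatMap] at h
    obtain ⟨l', hl', h⟩ := h
    rw [List.mem_flatMap] at h
    obtain ⟨b, hb, h⟩ := h
    rw [List.mem_map] at h
    obtain ⟨Y, hY, rfl⟩ := h
    obtain ⟨h1, h2⟩ := mem_advs hl'
    refine ⟨by simp [h1], fun e he => ?_⟩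
    rcases List.mem_cons.1 he with rfl | he
    · exact ⟨List.mem_range.1 hb, (List.mem_filter.1 hY).1⟩
    · exact h2 e he

theorem esize_subs {p : ℕ} {Y : List ℕ} (h : Y ∈ subs p) : esize Y ≤ p * (2 * p + 1) := by
  rw [subs, List.mem_map] at h
  obtain ⟨m, -, rfl⟩ := h
  refine (esize_list_le (B := p) fun x hx => ?_).trans ?_
  · exact (esize_nat_le_self x).trans (List.mem_range.1 (List.mem_filter.1 hx).1).le
  · refine Nat.mul_le_mul_right _ ?_
    refine (List.length_filter_le _ _).trans ?_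
    rw [List.length_range]

theorem esize_advs {p B r J : ℕ} {l : List (ℕ × List ℕ)} (h : l ∈ advs p B r J) :
    esize l ≤ J * (2 * (2 * B + p * (2 * p + 1) + 1) + 1) := by
  obtain ⟨h1, h2⟩ := mem_advs h
  rw [← h1]
  refine esize_list_le fun e he => ?_
  obtain ⟨h3, h4⟩ := h2 e he
  have h5 := esize_pair e.1 e.2
  have h6 := esize_subs h4
  have h7 := (esize_nat_le_self e.1).trans h3.le
  have h8 : esize e = 2 * esize e.1 + esize e.2 + 1 := h5
  omega

theorem exp_le_pow (p r : ℕ) : Real.exp (2 * p + 2 * r) ≤ (((2 ^ p) ^ 3 * (2 ^ r) ^ 3 : ℕ) : ℝ) := by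
  have h1 : Real.exp 2 ≤ 8 := by
    have h := Real.exp_one_lt_d9
    have h0 := Real.exp_pos 1
    have h2 : Real.exp 2 = Real.exp 1 * Real.exp 1 := by rw [← Real.exp_add]; norm_num
    rw [h2]
    nlinarith
  have h2 : Real.exp (2 * p + 2 * r) = Real.exp 2 ^ (p + r) := by
    rw [← Real.exp_nat_mul]
    congr 1
    push_cast
    ring
  have h3 : (((2 ^ p) ^ 3 * (2 ^ r) ^ 3 : ℕ) : ℝ) = 8 ^ (p + r) := by
    push_cast
    rw [← pow_mul, ← pow_mul, ← pow_add, show (8 : ℝ) = 2 ^ 3 by norm_num, ← pow_mul]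
    congr 1
    ring
  rw [h2, h3]
  exact pow_le_pow_left₀ (Real.exp_pos _).le h1 _

theorem pow_le_pow_add_one {B j J : ℕ} (h : j ≤ J) : B ^ j ≤ B ^ J + 1 := by
  rcases Nat.eq_zero_or_pos B with h0 | h0
  · subst h0
    rcases Nat.eq_zero_or_pos j with h1 | h1
    · subst h1; simp
    · rw [Nat.zero_pow h1]; exact Nat.zero_le _
  · exact (Nat.pow_le_pow_right h0 h).trans (Nat.le_succ _)

/-- Block E3. -/
theorem advPT_of (h : AdvCountSpec) : AdvPTSpec := by
  intro A α _ p B r J hp hpb hB hBb hr hrb hJ hJb hBJ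
  have hpb' : PBd p := hpb.mono fun a => (Nat.lt_two_pow_self).le
  have hlen : ∀ a, ∀ j ≤ J a, (advs (p a) (B a) (r a) j).length ≤
      (B a ^ J a + 1) * ((2 ^ p a) ^ 3 * (2 ^ r a) ^ 3) := by
    intro a j hj
    have h1 := h (p a) (B a) (r a) j
    have h2 := exp_le_pow (p a) (r a)
    have h3 : ((B a : ℝ)) ^ j ≤ ((B a ^ J a + 1 : ℕ) : ℝ) := by
      exact_mod_cast pow_le_pow_add_one hj
    have h4 : ((advs (p a) (B a) (r a) j).length : ℝ) ≤
        ((B a ^ J a + 1 : ℕ) : ℝ) * (((2 ^ p a) ^ 3 * (2 ^ r a) ^ 3 : ℕ) : ℝ) :=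
      h1.trans (mul_le_mul h3 h2 (Real.exp_pos _).le (Nat.cast_nonneg _))
    exact_mod_cast h4
  have hb : PBd (fun a => (B a ^ J a + 1) * ((2 ^ p a) ^ 3 * (2 ^ r a) ^ 3) *
      (2 * (J a * (2 * (2 * B a + p a * (2 * p a + 1) + 1) + 1)) + 1)) :=
    ((hBJ.add (PBd.const 1)).mul ((hpb.pow 3).mul (hrb.pow 3))).mul
      (((PBd.const 2).mul (hJb.mul (((PBd.const 2).mul ((((PBd.const 2).mul hBb).add
        (hpb'.mul (((PBd.const 2).mul hpb').add (PBd.const 1)))).add (PBd.const 1))).add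
          (PBd.const 1)))).add (PBd.const 1))
  refine (PT.natRec (init := fun _ => [[]]) (step := fun a j L => advStep (p a) (B a) (r a) j L)
    hJ hJb (PT.const [[]]) (PT_advStep hp hpb hB hBb hr hrb) hb fun a j hj => ?_).congr
      fun a => (advs_eq_rec _ _ _ _).symm
  rw [← advs_eq_rec]
  refine (esize_list_le fun l hl => (esize_advs hl).trans
    (Nat.mul_le_mul_right _ hj)).trans (Nat.mul_le_mul_right _ (hlen a j hj))

end Vale.Agent.P334.Det
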