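import Vale.Agent.P334.H100.Defs

/-!
Block PI: pairwise independence of `A + i * B` modulo a prime number.
-/

namespace Vale.Agent.P334.Det

open Finset

namespace Pair149

theorem inj2 {P i j : ℕ} (hP : P.Prime) (hi : i < P) (hj : j < P) (hij : i ≠ j)
    {A B A' B' : ℕ} (hA : A < P) (hB : B < P) (hA' : A' < P) (hB' : B' < P)
    (h1 : (A + i * B) % P = (A' + i * B') % P) (h2 : (A + j * B) % P = (A' + j * B') % P) :
    A = A' ∧ B = B' := by
  have := Fact.mk hP
  have e1 : ((A + i * B : ℕ) : ZMod P) = ((A' + i * B' : ℕ) : ZMod P) :=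
    (ZMod.natCast_eq_natCast_iff' _ _ _).2 h1
  have e2 : ((A + j * B : ℕ) : ZMod P) = ((A' + j * B' : ℕ) : ZMod P) :=
    (ZMod.natCast_eq_natCast_iff' _ _ _).2 h2
  push_cast at e1 e2
  have hne : (i : ZMod P) - j ≠ 0 := by
    intro h
    have h' : (i : ZMod P) = j := sub_eq_zero.1 h
    have h'' := (ZMod.natCast_eq_natCast_iff' _ _ _).1 h'
    rw [Nat.mod_eq_of_lt hi, Nat.mod_eq_of_lt hj] at h''
    exact hij h''
  have hBB : (B : ZMod P) = B' := by
    have h0 : ((i : ZMod P) - j) * (B - B') = 0 := by linear_combination e1 - e2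
    rcases mul_eq_zero.1 h0 with h | h
    · exact absurd h hne
    · exact sub_eq_zero.1 h
  have hAA : (A : ZMod P) = A' := by
    rw [hBB] at e1
    exact add_right_cancel e1
  have hA2 := (ZMod.natCast_eq_natCast_iff' _ _ _).1 hAA
  have hB2 := (ZMod.natCast_eq_natCast_iff' _ _ _).1 hBB
  rw [Nat.mod_eq_of_lt hA, Nat.mod_eq_of_lt hA'] at hA2
  rw [Nat.mod_eq_of_lt hB, Nat.mod_eq_of_lt hB'] at hB2
  exact ⟨hA2, hB2⟩

theorem sum_pair {P i j : ℕ} (hP : P.Prime) (hi : i < P) (hj : j < P) (hij : i ≠ j)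
    (f g : ℕ → ℝ) :
    ∑ A ∈ range P, ∑ B ∈ range P, f ((A + i * B) % P) * g ((A + j * B) % P) =
      (∑ y ∈ range P, f y) * ∑ y ∈ range P, g y := by
  have hpos := hP.pos
  rw [← Finset.sum_product', Finset.sum_mul_sum, ← Finset.sum_product']
  have hmaps : ∀ x ∈ range P ×ˢ range P,
      (fun x : ℕ × ℕ => ((x.1 + i * x.2) % P, (x.1 + j * x.2) % P)) x ∈ range P ×ˢ range P := by
    intro x _
    simp only [mem_product, mem_range]
    exact ⟨Nat.mod_lt _ hpos, Nat.mod_lt _ hpos⟩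
  have hinj : Set.InjOn (fun x : ℕ × ℕ => ((x.1 + i * x.2) % P, (x.1 + j * x.2) % P))
      (range P ×ˢ range P : Finset (ℕ × ℕ)) := by
    rintro ⟨A, B⟩ hx ⟨A', B'⟩ hx' h
    simp only [coe_product, Set.mem_prod, mem_coe, mem_range] at hx hx'
    simp only [Prod.mk.injEq] at h
    obtain ⟨h1, h2⟩ := inj2 hP hi hj hij hx.1 hx.2 hx'.1 hx'.2 h.1 h.2
    rw [h1, h2]
  exact Finset.sum_nbij (fun x : ℕ × ℕ => ((x.1 + i * x.2) % P, (x.1 + j * x.2) % P)) hmaps hinj
    (Finset.surjOn_of_injOn_of_card_le _ hmaps hinj le_rfl) (fun _ _ => rfl)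

theorem sum_single {P i : ℕ} (hP : P.Prime) (hi : i < P) (f : ℕ → ℝ) :
    ∑ A ∈ range P, ∑ B ∈ range P, f ((A + i * B) % P) = P * ∑ y ∈ range P, f y := by
  obtain ⟨j, hj, hij⟩ : ∃ j, j < P ∧ i ≠ j := by
    rcases Nat.eq_zero_or_pos i with h | h
    · exact ⟨1, hP.one_lt, by omega⟩
    · exact ⟨0, hP.pos, by omega⟩
  have h := sum_pair hP hi hj hij f (fun _ => 1)
  simp only [mul_one, sum_const, card_range, nsmul_eq_mul] at h
  rw [h, mul_comm]

/-- The centred indicator of a set. -/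
noncomputable def cen (P : ℕ) (E : Finset ℕ) (y : ℕ) : ℝ := (if y ∈ E then 1 else 0) - (E.card : ℝ) / P

theorem sum_ind {P : ℕ} {E : Finset ℕ} (hE : E ⊆ range P) :
    ∑ y ∈ range P, (if y ∈ E then (1 : ℝ) else 0) = E.card := by
  rw [Finset.sum_ite_mem, Finset.inter_eq_right.2 hE]
  simp

theorem sum_cen {P : ℕ} (hP : 0 < P) {E : Finset ℕ} (hE : E ⊆ range P) :
    ∑ y ∈ range P, cen P E y = 0 := by
  have hP' : (P : ℝ) ≠ 0 := by positivity
  simp only [cen, sum_sub_distrib, sum_ind hE, sum_const, card_range, nsmul_eq_mul]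
  field_simp
  ring

theorem sum_cen_sq {P : ℕ} (hP : 0 < P) {E : Finset ℕ} (hE : E ⊆ range P) :
    ∑ y ∈ range P, cen P E y * cen P E y ≤ E.card := by
  have hP' : (P : ℝ) ≠ 0 := by positivity
  have h1 : ∀ y, cen P E y * cen P E y =
      (if y ∈ E then (1 : ℝ) else 0) * (1 - 2 * ((E.card : ℝ) / P)) + ((E.card : ℝ) / P) ^ 2 := by
    intro y
    unfold cen
    split_ifs <;> ring
  simp only [h1, sum_add_distrib, ← sum_mul, sum_ind hE, sum_const, card_range, nsmul_eq_mul]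
  have h2 : (E.card : ℝ) * (1 - 2 * ((E.card : ℝ) / P)) + P * ((E.card : ℝ) / P) ^ 2 =
      E.card - (E.card : ℝ) ^ 2 / P := by
    field_simp
    ring
  rw [h2]
  have : (0 : ℝ) ≤ (E.card : ℝ) ^ 2 / P := by positivity
  linarith

end Pair149

open Pair149

/-- Block PI. -/
theorem pairSpec : PairSpec := by
  intro P s E hP hs hE
  have hpos := hP.pos
  have hP' : (P : ℝ) ≠ 0 := by positivity
  have key : ∀ A B : ℕ, (((range s).filter (fun i => (A + i * B) % P ∈ E i)).card : ℝ) -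
      (∑ i ∈ range s, ((E i).card : ℝ)) / P = ∑ i ∈ range s, cen P (E i) ((A + i * B) % P) := by
    intro A B
    simp only [cen, sum_sub_distrib, ← sum_div]
    congr 1
    rw [card_filter]
    push_cast
    rfl
  simp only [key]
  have hsq : ∀ A B : ℕ, (∑ i ∈ range s, cen P (E i) ((A + i * B) % P)) ^ 2 =
      ∑ i ∈ range s, ∑ j ∈ range s,
        cen P (E i) ((A + i * B) % P) * cen P (E j) ((A + j * B) % P) := by
    intro A B
    rw [sq, sum_mul_sum]
  simp only [hsq]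
  have hswap : ∑ A ∈ range P, ∑ B ∈ range P, ∑ i ∈ range s, ∑ j ∈ range s,
        cen P (E i) ((A + i * B) % P) * cen P (E j) ((A + j * B) % P) =
      ∑ i ∈ range s, ∑ j ∈ range s, ∑ A ∈ range P, ∑ B ∈ range P,
        cen P (E i) ((A + i * B) % P) * cen P (E j) ((A + j * B) % P) := by
    calc _ = ∑ A ∈ range P, ∑ i ∈ range s, ∑ B ∈ range P, ∑ j ∈ range s,
        cen P (E i) ((A + i * B) % P) * cen P (E j) ((A + j * B) % P) :=
          sum_congr rfl fun A _ => sum_comm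
      _ = ∑ i ∈ range s, ∑ A ∈ range P, ∑ B ∈ range P, ∑ j ∈ range s,
        cen P (E i) ((A + i * B) % P) * cen P (E j) ((A + j * B) % P) := sum_comm
      _ = ∑ i ∈ range s, ∑ A ∈ range P, ∑ j ∈ range s, ∑ B ∈ range P,
        cen P (E i) ((A + i * B) % P) * cen P (E j) ((A + j * B) % P) :=
          sum_congr rfl fun i _ => sum_congr rfl fun A _ => sum_comm
      _ = _ := sum_congr rfl fun i _ => sum_comm
  rw [hswap, mul_sum]
  refine sum_le_sum fun i hi => ?_
  have hi' : i < P := lt_of_lt_of_le (mem_range.1 hi) hs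
  have hEi := hE i (mem_range.1 hi)
  rw [Finset.sum_eq_single i]
  · rw [sum_single hP hi' (fun y => cen P (E i) y * cen P (E i) y)]
    exact mul_le_mul_of_nonneg_left (sum_cen_sq hpos hEi) (by positivity)
  · intro j hj hji
    have hj' : j < P := lt_of_lt_of_le (mem_range.1 hj) hs
    rw [sum_pair hP hi' hj' (Ne.symm hji), sum_cen hpos hEi, zero_mul]
  · intro h
    exact absurd hi h

end Vale.Agent.P334.Det
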