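import Vale.Agent.P334.H100.Trial

set_option linter.all false

/-!
The deterministic procedure for stable instances is computable in polynomial time.
-/

namespace Vale.Agent.P334.Alg

open Vale.Agent.Lib.PolyTime Vale.Agent.P334.Det Function

section

variable {A : Set Word} {α X : Type} [Enc α] [Enc X]

theorem PT_colorFam (hC : ColorPTSpec) {S : α → List X} {tz : α → ℕ} (hS : PT A S)
    (htz : PT A tz) (htzb : PBd (fun a => 2 ^ tz a)) :
    PT A (fun a => colorFam (S a).length (tz a)) := by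
  have htzb' : PBd tz := htzb.mono fun a => Nat.lt_two_pow_self.le
  have hf : PT A (fun q : α × ℕ => q.1) := PT.fst'
  have hS' : PT A (fun q : α × ℕ => S q.1) := hS.comp hf
  have hm : PT A (fun q : α × ℕ => tz q.1 + Nat.size (S q.1).length + 1) :=
    PT.add (PT.add (htz.comp hf) (PT.natSize hS'.length)) (PT.const 1)
  have hmb : PBd (fun q : α × ℕ => 2 ^ (tz q.1 + Nat.size (S q.1).length + 1)) :=
    ((htzb.comp hf).mul (PBd_two_pow_size hS' 1 1)).mono fun q => by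
      rw [← pow_add]
      exact le_of_eq (by congr 1; omega)
  have hz : PT A (fun q : α × ℕ => min q.2 (tz q.1)) := PT.min PT.snd' (htz.comp hf)
  have hzb : PBd (fun q : α × ℕ => 2 ^ min q.2 (tz q.1)) :=
    (htzb.comp hf).mono fun q => Nat.pow_le_pow_right (by norm_num) (min_le_right _ _)
  have h1 := hC (A := A) hS'.length (PBd.length hS') hz hm hzb hmb
  refine (PT.flatMap (f := fun (a : α) (z : ℕ) => famC (S a).length (min z (tz a))
    (tz a + Nat.size (S a).length + 1)) (PT.range (PT.add htz (PT.const 1))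
      (htzb'.add (PBd.const 1))) h1).congr fun a => ?_
  unfold colorFam
  exact flatMap_range_min (fun z => famC (S a).length z (tz a + Nat.size (S a).length + 1)) (tz a)

theorem pow_tq_le (t : ℕ) : 2541000 ^ t ≤ (2 ^ t) ^ 22 := by
  rw [← pow_mul, mul_comm t, pow_mul]
  exact Nat.pow_le_pow_left (by norm_num) t

/-- Four nested loops whose ranges depend on the context only. -/
theorem PT_flat4 {β1 β2 β3 β4 γ : Type} [Enc β1] [Enc β2] [Enc β3] [Enc β4] [Enc γ]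
    {L1 : α → List β1} {L2 : α → List β2} {L3 : α → List β3} {L4 : α → List β4}
    {f : α → β1 → β2 → β3 → β4 → List γ} (h1 : PT A L1) (h2 : PT A L2) (h3 : PT A L3)
    (h4 : PT A L4) (hf : PT A (fun q : (((α × β1) × β2) × β3) × β4 =>
      f q.1.1.1.1 q.1.1.1.2 q.1.1.2 q.1.2 q.2)) :
    PT A (fun a => (L1 a).flatMap fun x => (L2 a).flatMap fun y => (L3 a).flatMap fun z =>
      (L4 a).flatMap fun v => f a x y z v) := by
  have c3 : PT A (fun q : ((α × β1) × β2) × β3 => q.1.1.1) := PT.fst'.fst.fst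
  have c2 : PT A (fun q : (α × β1) × β2 => q.1.1) := PT.fst'.fst
  have c1 : PT A (fun q : α × β1 => q.1) := PT.fst'
  have e4 := PT.flatMap (f := fun (q : ((α × β1) × β2) × β3) (v : β4) =>
    f q.1.1.1 q.1.1.2 q.1.2 q.2 v) (h4.comp c3) hf
  have e3 := PT.flatMap (f := fun (q : (α × β1) × β2) (z : β3) =>
    (L4 q.1.1).flatMap fun v => f q.1.1 q.1.2 q.2 z v) (h3.comp c2) e4
  have e2 := PT.flatMap (f := fun (q : α × β1) (y : β2) =>
    (L3 q.1).flatMap fun z => (L4 q.1).flatMap fun v => f q.1 q.2 y z v) (h2.comp c1) e3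
  exact PT.flatMap (f := fun (a : α) (x : β1) => (L2 a).flatMap fun y => (L3 a).flatMap fun z =>
    (L4 a).flatMap fun v => f a x y z v) h1 e2

variable [DecidableEq X]

theorem PT_detCands (hC : ColorPTSpec) (hAn : AnchorPTSpec)
    (heq : PT A (fun p : X × X => decide (p.1 = p.2))) {dd : α → X → X → ℕ}
    {D tq tz : α → ℕ} {x0 : α → X} {J F S : α → List X}
    (hd : PT A (fun p : α × X × X => dd p.1 p.2.1 p.2.2)) (hD : PT A D) (hDb : PBd D)
    (hx0 : PT A x0) (hJ : PT A J) (hF : PT A F) (hS : PT A S)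
    (htq : PT A tq) (htqb : PBd (fun a => 2 ^ tq a)) (htz : PT A tz)
    (htzb : PBd (fun a => 2 ^ tz a)) :
    PT A (fun a => detCands (dd a) (D a) (x0 a) (J a) (F a) (S a) (tq a) (tz a)) := by
  have htqb' : PBd tq := htqb.mono fun a => Nat.lt_two_pow_self.le
  have htzb' : PBd tz := htzb.mono fun a => Nat.lt_two_pow_self.le
  -- the four ranges
  have hR1 : PT A (fun a => colorFam (S a).length (tz a)) := PT_colorFam hC hS htz htzb
  have h2000 : PBd (fun a => 2000 * tz a) := (PBd.const 2000).mul htzb'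
  have hP2 : PT A (fun a => 2 ^ (2000 * tz a)) :=
    PT.pow (PT.const 2) (PT.mul (PT.const 2000) htz) h2000
  have hB2 : PBd (fun a => 2 ^ (2000 * tz a)) := (htzb.pow 2000).mono fun a => by
    rw [← pow_mul, mul_comm (tz a)]
  have hbag := PT_bagS hd hD hDb hJ hS
  have hR3 : PT A (fun a => ([] : List ℕ) :: famA (bag (dd a) (D a) (J a) (S a)).length (tq a)) :=
    PT.cons (PT.const []) (hAn (A := A) hbag.length (PBd.length hbag) htq htqb)
  have hP4 : PT A (fun a => 2541000 ^ tq a) := PT.pow (PT.const _) htq htqb'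
  have hB4 : PBd (fun a => 2541000 ^ tq a) := (htqb.pow 22).mono fun a => pow_tq_le _
  have hbig := PT_bigS heq hd hD hx0 hJ hS htz
  -- contexts
  have c4 : PT A (fun q : (((α × List ℕ) × ℕ) × List ℕ) × ℕ => q.1.1.1.1) := PT.fst'.fst.fst.fst
  have c3 : PT A (fun q : ((α × List ℕ) × ℕ) × List ℕ => q.1.1.1) := PT.fst'.fst.fst
  have c2 : PT A (fun q : (α × List ℕ) × ℕ => q.1.1) := PT.fst'.fst
  have c1 : PT A (fun q : α × List ℕ => q.1) := PT.fst'
  have c5 : PT A (fun q : ((((α × List ℕ) × ℕ) × List ℕ) × ℕ) × ℕ => q.1.1.1.1.1) :=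
    PT.fst'.fst.fst.fst.fst
  -- the four functions
  have hr1 : PT A (fun q : ((((α × List ℕ) × ℕ) × List ℕ) × ℕ) × ℕ =>
      q.1.1.1.1.2.getD q.2 0) := PT.getD PT.fst'.fst.fst.fst.snd PT.snd' (PT.const 0)
  have hidx : PT A (fun q : ((((α × List ℕ) × ℕ) × List ℕ) × ℕ) × ℕ =>
      (bigS (dd q.1.1.1.1.1) (D q.1.1.1.1.1) (x0 q.1.1.1.1.1) (J q.1.1.1.1.1) (S q.1.1.1.1.1)
        (tz q.1.1.1.1.1)).idxOf ((S q.1.1.1.1.1).getD q.2 (x0 q.1.1.1.1.1))) :=
    PT_idxOf heq (hbig.comp c5) (PT.getD (hS.comp c5) PT.snd' (hx0.comp c5))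
  have hidxb : PBd (fun q : ((((α × List ℕ) × ℕ) × List ℕ) × ℕ) × ℕ =>
      (bigS (dd q.1.1.1.1.1) (D q.1.1.1.1.1) (x0 q.1.1.1.1.1) (J q.1.1.1.1.1) (S q.1.1.1.1.1)
        (tz q.1.1.1.1.1)).idxOf ((S q.1.1.1.1.1).getD q.2 (x0 q.1.1.1.1.1))) :=
    (PBd.length (hbig.comp c5)).mono fun q => List.idxOf_le_length
  have hr2 : PT A (fun q : ((((α × List ℕ) × ℕ) × List ℕ) × ℕ) × ℕ =>
      q.1.1.1.2 / 2 ^ ((bigS (dd q.1.1.1.1.1) (D q.1.1.1.1.1) (x0 q.1.1.1.1.1) (J q.1.1.1.1.1)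
        (S q.1.1.1.1.1) (tz q.1.1.1.1.1)).idxOf ((S q.1.1.1.1.1).getD q.2 (x0 q.1.1.1.1.1))) % 2) :=
    PT.mod (PT.div PT.fst'.fst.fst.snd (PT.pow (PT.const 2) hidx hidxb)) (PT.const 2)
  have hr3 : PT A (fun q : ((((α × List ℕ) × ℕ) × List ℕ) × ℕ) × ℕ => q.1.1.2.getD q.2 0) :=
    PT.getD PT.fst'.fst.snd PT.snd' (PT.const 0)
  have hmin : PT A (fun q : ((((α × List ℕ) × ℕ) × List ℕ) × ℕ) × ℕ =>
      min q.2 (tq q.1.1.1.1.1)) := PT.min PT.snd' (htq.comp c5)
  have hminb : PBd (fun q : ((((α × List ℕ) × ℕ) × List ℕ) × ℕ) × ℕ =>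
      min q.2 (tq q.1.1.1.1.1)) := (htqb'.comp c5).mono fun q => min_le_right _ _
  have hr4 : PT A (fun q : ((((α × List ℕ) × ℕ) × List ℕ) × ℕ) × ℕ =>
      q.1.2 / 2541000 ^ (min q.2 (tq q.1.1.1.1.1)) % 2541000) :=
    PT.mod (PT.div PT.fst'.snd (PT.pow (PT.const 2541000) hmin hminb)) (PT.const 2541000)
  have hc := PT_cands heq (α := (((α × List ℕ) × ℕ) × List ℕ) × ℕ)
    (dd := fun q => dd q.1.1.1.1) (D := fun q => D q.1.1.1.1) (tq := fun q => tq q.1.1.1.1)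
    (tz := fun q => tz q.1.1.1.1) (x0 := fun q => x0 q.1.1.1.1) (J := fun q => J q.1.1.1.1)
    (F := fun q => F q.1.1.1.1) (S := fun q => S q.1.1.1.1)
    (r1 := fun q i => q.1.1.1.2.getD i 0)
    (r2 := fun q i => q.1.1.2 / 2 ^ ((bigS (dd q.1.1.1.1) (D q.1.1.1.1) (x0 q.1.1.1.1)
      (J q.1.1.1.1) (S q.1.1.1.1) (tz q.1.1.1.1)).idxOf ((S q.1.1.1.1).getD i
      (x0 q.1.1.1.1))) % 2)
    (r3 := fun q i => q.1.2.getD i 0)
    (r4 := fun q i => q.2 / 2541000 ^ (min i (tq q.1.1.1.1)) % 2541000)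
    (hd.comp (PT.fst'.fst.fst.fst.fst.pair PT.snd')) (hD.comp c4) (hDb.comp c4) (hx0.comp c4) (hJ.comp c4)
    (hF.comp c4) (hS.comp c4) (htq.comp c4) (htqb'.comp c4) (htz.comp c4) (htzb.comp c4)
    hr1 hr2 hr3 hr4
  unfold detCands
  exact PT_flat4 (f := fun (a : α) (χ : List ℕ) (u : ℕ) (pl : List ℕ) (v : ℕ) =>
      cands (dd a) (D a) (x0 a) (J a) (F a) (S a)
        (tq a) (tz a) (fun i => χ.getD i 0)
        (fun i => u / 2 ^ ((bigS (dd a) (D a) (x0 a)
          (J a) (S a) (tz a)).idxOf ((S a).getD i (x0 a))) % 2)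
        (fun i => pl.getD i 0) (fun i => v / 2541000 ^ (min i (tq a)) % 2541000))
    hR1 (PT.range hP2 hB2) hR3 (PT.range hP4 hB4) hc

theorem PT_detTrial (hC : ColorPTSpec) (hAn : AnchorPTSpec)
    (heq : PT A (fun p : X × X => decide (p.1 = p.2))) {dd : α → X → X → ℕ}
    {D k b t tq tz : α → ℕ} {J F S0 : α → List X}
    (hd : PT A (fun p : α × X × X => dd p.1 p.2.1 p.2.2)) (hD : PT A D) (hDb : PBd D)
    (hJ : PT A J) (hF : PT A F) (hk : PT A k) (hb : PT A b) (ht : PT A t) (htb : PBd t)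
    (htq : PT A tq) (htqb : PBd (fun a => 2 ^ tq a)) (htz : PT A tz)
    (htzb : PBd (fun a => 2 ^ tz a)) (hS0 : PT A S0) :
    PT A (fun a => detTrial (dd a) (D a) (J a) (F a) (k a) (b a) (t a) (tq a) (tz a)
      (S0 a)) := by
  have hf : PT A (fun p : α × X => p.1) := PT.fst'
  refine PT_bestOf heq hd hD hJ hF hk (PT.flatMap (f := fun a x0 => detCands (dd a) (D a) x0 (J a)
    (F a) (prep (dd a) (D a) (b a) (t a) (J a) (F a) (S0 a)) (tq a) (tz a))
    (PT.take hF (PT.const 1)) ?_)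
  exact PT_detCands hC hAn heq (dd := fun p : α × X => dd p.1)
    (hd.comp (PT.fst'.fst.pair PT.snd')) (hD.comp hf)
    (hDb.comp hf) PT.snd' (hJ.comp hf) (hF.comp hf)
    ((PT_prep heq hd hD hDb hb ht htb hJ hF hS0).comp hf) (htq.comp hf) (htqb.comp hf)
    (htz.comp hf) (htzb.comp hf)

/-- The deterministic procedure is computable in polynomial time. -/
theorem PT_stableDet (hC : ColorPTSpec) (hAn : AnchorPTSpec)
    (heq : PT A (fun p : X × X => decide (p.1 = p.2))) {dd : α → X → X → ℕ}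
    {D k : α → ℕ} {J F S0 : α → List X} (K3 Kb : ℕ)
    (hd : PT A (fun p : α × X × X => dd p.1 p.2.1 p.2.2)) (hD : PT A D) (hDb : PBd D)
    (hJ : PT A J) (hF : PT A F) (hk : PT A k) (hS0 : PT A S0) :
    PT A (fun a => stableDet (dd a) (D a) (J a) (F a) (k a) K3 Kb (S0 a)) := by
  have hs := PT_sizeLen hJ
  have htzb := PBd_two_pow_tauZ K3 Kb hJ
  have htzb' : PBd (fun a => tauZ K3 Kb (Nat.size (J a).length)) :=
    htzb.mono fun a => Nat.lt_two_pow_self.le
  have htb : PBd (fun a => satT K3 Kb (Nat.size (J a).length)) :=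
    htzb'.mono fun a => satT_le_tauZ _ _ _
  have htqb : PBd (fun a => 2 ^ tauQ K3 Kb (Nat.size (J a).length)) :=
    htzb.mono fun a => Nat.pow_le_pow_right (by norm_num)
      ((tauQ_le_satT _ _ _).trans (satT_le_tauZ _ _ _))
  unfold stableDet
  exact PT_detTrial hC hAn heq hd hD hDb hJ hF hk (PT_satB K3 Kb hs) (PT_satT K3 Kb hs) htb
    (PT_tauQ K3 Kb hs) htqb (PT_tauZ K3 Kb hs) htzb hS0

end

end Vale.Agent.P334.Alg
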