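import Vale.Agent.P334.H100.Final
import Vale.Agent.P334.H100.TrialPT
import Vale.Agent.P334.H100.A344
import Vale.Agent.P334.H100.AnchorPT
import Vale.Agent.P334.H100.C622
import Vale.Agent.P334.H100.CP727
import Vale.Agent.P334.H100.E853
import Vale.Agent.P334.H100.Hash
import Vale.Agent.P334.H100.Pair
import Vale.Agent.P334.H100.AdvX

set_option linter.all false

/-!
The deterministic algorithm: the closing theorem.
-/

namespace Vale.Agent.P334.Alg.One.H100

open Vale.Agent.Lib.PolyTime Vale.Agent.P334.Det

theorem advPT : AdvPTSpec := advPT_of AdvX.advCountSpec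

theorem colorDet : ColorDetSpec := colorDet_of hashSpec AdvX.advMemSpec

theorem anchorDet : AnchorDetSpec := A344.anchorDet_of pairSpec AdvX.advMemSpec

theorem colorPT : ColorPTSpec := colorPT_of advPT

theorem anchorPT : AnchorPTSpec := anchorPT_of advPT

theorem stableDet_spec : StableDetSpec := stableDet_of levelBSpec radSpec colorDet anchorDet

theorem ptTrialD (K3 Kb : ℕ) : PTTrial (trialD K3 Kb) := by
  intro α _ dd l k J F S r hd _ hl hlb hJ hF hk _ hS hr
  exact PT_stableDet colorPT anchorPT (PT.eqNat PT.fst' PT.snd') K3 Kb hd hl hlb hJ hF hk hS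

theorem final_det :
    ∃ B : Final.Inst → List ℕ,
      (∃ M : Turing.TM2ComputableInPolyTime Final.Inst.code (Final.codeList Nat.bits) B,
        ∀ k, Finite (M.tm.Γ k)) ∧
      ∀ I : Final.Inst, I.Valid → I.Feasible (B I).toFinset ∧
        ∀ S, I.Feasible S → I.cost (B I).toFinset ≤ (2 - 1 / 10 ^ 28) * I.cost S :=
  final_det_of stableDet_spec ptTrialD

end Vale.Agent.P334.Alg.One.H100
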