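import Vale.Agent.P334.H100.Stable
import Vale.Agent.P334.H220.Final

set_option linter.all false

/-!
The deterministic algorithm: assembly.
-/

namespace Vale.Agent.P334.Alg.One.H100

open Vale.Agent.Lib.PolyTime Vale.Agent.P334.Det

/-- The deterministic procedure, as a trial without random bits. -/
def trialD (K3 Kb : ℕ) (d : ℕ → ℕ → ℕ) (l : ℕ) (J F : List ℕ) (k : ℕ) (S0 : List ℕ)
    (_ : List Bool) : List ℕ := stableDet d l J F k K3 Kb S0

theorem trialDSpec_of (hS : StableDetSpec) (K3 Kb : ℕ) (hKb : 1 ≤ Kb) :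
    TrialSpec (1995 / 1000) K3 Kb 0 (fun n _ => 4000 * max n 1) (fun _ _ _ => 0)
      (trialD K3 Kb) := by
  refine ⟨by (clear * -; norm_num), by norm_num, fun n f => by positivity, ?_⟩
  intro d l J F k S0 hset hk hkF hdvd hpos hst hf0 hn0 hc0
  obtain ⟨m, hm⟩ : ∃ m : MetricSpace ℕ, m = hset.met.space := ⟨_, rfl⟩
  have hd : ∀ a b : ℕ, @dist ℕ m.toPseudoMetricSpace.toDist a b = (d a b : ℝ) := by
    intro a b
    subst hm
    rfl
  have hI : @Inst ℕ m d l J F := ⟨hd, hset.le, hset.nodupJ, hset.nodupF, hset.neJ, hset.neF⟩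
  have hJpos : 0 < J.length := List.length_pos_iff.2 hset.neJ
  have hdvd' : ∀ x y, 4000 * J.length ∣ d x y := by
    intro x y
    have := hdvd x y
    rwa [max_eq_left hJpos] at this
  have ho1 := opt_eq hd hset.le hset.nodupJ hset.neF (k := k) (by omega)
  have ho2 := opt_eq hd hset.le hset.nodupJ hset.neF (k := k - 1) (by omega)
  have hcS0 : (cst d l J S0 : ℝ) = @cost ℕ m J.toFinset S0.toFinset :=
    cst_real hd hset.nodupJ hf0.1 (fun j _ s _ => hset.le j s)
  have key := @hS K3 Kb hKb ℕ m _ d l J F hI k S0 hk hdvd' (by rw [ho1]; exact_mod_cast hpos)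
    (by rw [ho1, ho2]; exact hst) hn0 (fun x hx => hf0.2.1 x hx) hf0.1 hf0.2.2
    (by rw [← hcS0, ho1]; exact hc0)
  obtain ⟨v1, v2, v3, v4⟩ := detTrial_valid d l J F hset.nodupF hset.neF k (by omega)
    (satB K3 Kb (Nat.size J.length)) (satT K3 Kb (Nat.size J.length))
    (tauQ K3 Kb (Nat.size J.length)) (tauZ K3 Kb (Nat.size J.length)) S0
    (fun x hx => hf0.2.1 x hx)
  have hgood : Feas F k (stableDet d l J F k K3 Kb S0) ∧
      (cst d l J (stableDet d l J F k K3 Kb S0) : ℝ) ≤ 1995 / 1000 * optN d l J F k := by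
    have v3' : stableDet d l J F k K3 Kb S0 ≠ [] := v3
    refine ⟨⟨v3, fun x hx => v2 hx, v4⟩, ?_⟩
    rw [cst_real hd hset.nodupJ v3' (fun j _ s _ => hset.le j s), ← ho1]
    exact key
  haveI : Nonempty {ρ : Fin 0 → Bool //
      Feas F k (trialD K3 Kb d l J F k S0 (List.ofFn ρ)) ∧
        (cst d l J (trialD K3 Kb d l J F k S0 (List.ofFn ρ)) : ℝ) ≤
          1995 / 1000 * optN d l J F k} := ⟨⟨fun i => i.elim0, hgood⟩⟩
  have h1 : 0 < Nat.card {ρ : Fin 0 → Bool //
      Feas F k (trialD K3 Kb d l J F k S0 (List.ofFn ρ)) ∧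
        (cst d l J (trialD K3 Kb d l J F k S0 (List.ofFn ρ)) : ℝ) ≤
          1995 / 1000 * optN d l J F k} := Nat.card_pos
  rw [pow_zero, pow_zero, one_mul]
  exact h1

/-- The deterministic algorithm. -/
def algDet (P : Data) (I : Final.Inst) : List ℕ :=
  P.kmed (Dint I.M) (lint I.M) I.M.length I.J I.F (min I.k I.F.length) []

theorem PT_algDet {P : Data} (h1 : PTPseudo P.pseudo) (h2 : PTTrial P.trial) (h3 : PTU P.Us)
    (h4 : PTL P.Lr) : PT ∅ (fun x : Final.Inst => algDet P x) := by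
  have hi := PT.inst
  have hM : PT ∅ (fun x : Final.Inst => x.M) := hi.snd.snd.snd
  have hJ : PT ∅ (fun x : Final.Inst => x.J) := hi.fst
  have hF : PT ∅ (fun x : Final.Inst => x.F) := hi.snd.fst
  have hk : PT ∅ (fun x : Final.Inst => x.k) := hi.snd.snd.fst
  have hD : PT ∅ (fun p : Final.Inst × ℕ × ℕ => One.Dint p.1.M p.2.1 p.2.2) :=
    PT.Dint (hM.comp PT.fst') PT.snd'.fst PT.snd'.snd
  have hl : PT ∅ (fun x : Final.Inst => One.lint x.M) := PT.lint hM
  have hN : PT ∅ (fun x : Final.Inst => x.M.length) := hM.length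
  have hk' : PT ∅ (fun x : Final.Inst => min x.k x.F.length) := PT.min hk hF.length
  exact PT.kmed (P := P) h1 h2 h3 h4 (D := fun x : Final.Inst => One.Dint x.M)
    (l := fun x => One.lint x.M) (N := fun x => x.M.length) (J := fun x => x.J)
    (F := fun x => x.F) (k := fun x => min x.k x.F.length)
    (r := fun x => []) hD hl hN hJ hF hk' (fun x => min_le_right _ _) (PT.const [])

theorem exists_machineDet {P : Data} (h1 : PTPseudo P.pseudo) (h2 : PTTrial P.trial)
    (h3 : PTU P.Us) (h4 : PTL P.Lr) :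
    ∃ M : Turing.TM2ComputableInPolyTime Final.Inst.code (Final.codeList Nat.bits) (algDet P),
      ∀ k, Finite (M.tm.Γ k) := by
  have e : (Final.codeList Nat.bits) = (enc : List ℕ → List Bool) :=
    funext fun l => codeList_eq (fun a => rfl) l
  rw [e]
  exact PT.exists_tm2 (PT_algDet h1 h2 h3 h4)

/-- The final theorem from the two parts. -/
theorem main_det_of {c3 : ℝ} {K3 : ℕ} {Us3 : ℕ → ℕ → ℕ}
    {pseudo : (ℕ → ℕ → ℕ) → ℕ → List ℕ → List ℕ → ℕ → List ℕ} (h3 : PseudoSpec c3 K3 Us3 pseudo)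
    (hp3 : PTPseudo pseudo) (hu3 : PTU Us3) {c2 : ℝ} (hc2 : c2 < 2)
    (h2 : ∀ Kb : ℕ, 1 ≤ Kb → ∃ (Us2 : ℕ → ℕ → ℕ)
      (trial : (ℕ → ℕ → ℕ) → ℕ → List ℕ → List ℕ → ℕ → List ℕ → List Bool → List ℕ),
      TrialSpec c2 K3 Kb 0 Us2 (fun _ _ _ => 0) trial ∧ PTTrial trial ∧ PTU Us2)
    {q : ℚ} (hq2 : c2 < q) (hq3 : c3 < q) :
    ∃ B : Final.Inst → List ℕ,
      (∃ M : Turing.TM2ComputableInPolyTime Final.Inst.code (Final.codeList Nat.bits) B,
        ∀ k, Finite (M.tm.Γ k)) ∧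
      ∀ I : Final.Inst, I.Valid → I.Feasible (B I).toFinset ∧
        ∀ S, I.Feasible S → I.cost (B I).toFinset ≤ q * I.cost S := by
  have hcc : max c2 c3 < 2 := max_lt hc2 h3.lt_two
  obtain ⟨E, hE, hq⟩ := exists_E (le_trans zero_le_one (le_max_of_le_right h3.one_le)) hcc
    (max_lt hq2 hq3)
  obtain ⟨Us2, trial, hT, hpt, hpu⟩ := h2 (2 * E * K3)
    (Nat.mul_pos (by (clear * - hE; omega)) h3.pos)
  let P : Data := ⟨pseudo, trial, K3, 0, E, fun n f => Us3 n f * Us2 n f, fun _ _ _ => 0⟩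
  have hPU : PTU P.Us := by
    intro α _ n f h4 h5 h6 h7
    obtain ⟨h8, h9⟩ := hu3 α n f h4 h5 h6 h7
    obtain ⟨h10, h11⟩ := hpu α n f h4 h5 h6 h7
    exact ⟨h8.mul h10, h9.mul h11⟩
  have hPL : PTL P.Lr := fun α _ n f l _ _ _ _ _ _ => ⟨PT.const 0, PBd.const 0⟩
  refine ⟨algDet P, exists_machineDet hp3 hpt hPU hPL, ?_⟩
  intro I hI
  obtain ⟨h4, h5⟩ := kmed_spec (P := P) (t := 0) hE h3 hT
    (fun n f => Nat.dvd_mul_right _ _) (fun n f => Nat.dvd_mul_left _ _)
    (fun n f => Nat.mul_pos (h3.us_pos n f) (hT.us_pos n f)) (metOn_of_valid hI) hI.nodup_J hI.lt_J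
    hI.nodup_F hI.lt_F hI.one_le hI.k_le (le_of_eq (Nat.mul_zero _))
  have hmin : min I.k I.F.length = I.k := min_eq_left hI.k_le
  have halg : algDet P I = P.kmed (Dint I.M) (lint I.M) I.M.length I.J I.F I.k [] := by
    unfold algDet
    rw [hmin]
  have hfe : Feas I.F I.k (algDet P I) := by
    rw [halg]
    exact h4 []
  refine ⟨?_, ?_⟩
  · obtain ⟨h6, h7, h8⟩ := hfe
    refine ⟨?_, ?_, ?_⟩
    · rw [List.toFinset_nonempty_iff]
      exact h6
    · intro x hx
      rw [List.mem_toFinset] at hx ⊢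
      exact h7 x hx
    · exact (List.toFinset_card_le _).trans h8
  · intro S hS
    obtain ⟨h6, h7, h8⟩ := hS
    have hden : (0 : ℝ) < den I.M := by exact_mod_cast den_pos I.M
    have hfS : Feas I.F I.k S.toList := by
      refine ⟨?_, ?_, ?_⟩
      · rw [Ne, Finset.toList_eq_nil]
        exact h6.ne_empty
      · intro x hx
        rw [Finset.mem_toList] at hx
        exact List.mem_toFinset.1 (h7 hx)
      · rw [Finset.length_toList]
        exact h8
    have h9 : (optN (Dint I.M) (lint I.M) I.J I.F I.k : ℝ) ≤ den I.M * (I.cost S : ℝ) := by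
      have h10 := cost_eq hI.nodup_J hfS.1
      rw [Finset.toList_toFinset] at h10
      have h11 : (cst (Dint I.M) (lint I.M) I.J S.toList : ℝ) = den I.M * (I.cost S : ℝ) := by
        exact_mod_cast h10
      rw [← h11]
      exact_mod_cast optN_le hfS
    have h10 : (cst (Dint I.M) (lint I.M) I.J (algDet P I) : ℝ) =
        den I.M * (I.cost (algDet P I).toFinset : ℝ) := by
      have := cost_eq hI.nodup_J hfe.1
      exact_mod_cast this
    rw [Fintype.sum_unique] at h5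
    have h5' : (cst (Dint I.M) (lint I.M) I.J (algDet P I) : ℝ) ≤
        (max c2 c3 * (1 + 1 / (E : ℝ)) * (1 + 1 / E) + 2 / E) *
          optN (Dint I.M) (lint I.M) I.J I.F I.k := by
      rw [halg]
      refine le_trans (le_of_eq ?_) (h5.trans (le_of_eq ?_))
      · congr 1
      · rw [pow_zero, mul_one]
    rw [h10] at h5'
    have h11 : (den I.M : ℝ) * (I.cost (algDet P I).toFinset : ℝ) ≤
        den I.M * (q * I.cost S) := by
      refine h5'.trans ?_
      calc (max c2 c3 * (1 + 1 / (E : ℝ)) * (1 + 1 / E) + 2 / E) *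
            optN (Dint I.M) (lint I.M) I.J I.F I.k
          ≤ q * (den I.M * (I.cost S : ℝ)) := by
            refine mul_le_mul hq h9 (Nat.cast_nonneg _) ?_
            refine le_trans ?_ hq
            have : 0 ≤ max c2 c3 := le_trans zero_le_one (le_max_of_le_right h3.one_le)
            (clear * - this hE; positivity)
        _ = _ := by ring
    have h12 := le_of_mul_le_mul_left h11 hden
    exact_mod_cast h12

/-- The final theorem. -/
theorem final_det_of (hS : StableDetSpec) (hPT : ∀ K3 Kb : ℕ, PTTrial (trialD K3 Kb)) :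
    ∃ B : Final.Inst → List ℕ,
      (∃ M : Turing.TM2ComputableInPolyTime Final.Inst.code (Final.codeList Nat.bits) B,
        ∀ k, Finite (M.tm.Γ k)) ∧
      ∀ I : Final.Inst, I.Valid → I.Feasible (B I).toFinset ∧
        ∀ S, I.Feasible S → I.cost (B I).toFinset ≤ (2 - 1 / 10 ^ 28) * I.cost S := by
  obtain ⟨c3, K3, Us3, pseudo, h3, h4, h5, h6⟩ :=
    pseudo_exists lmSingleSpec lmRadSpec cand1Spec cands2Spec
  refine main_det_of h3 h4 h5 (c2 := 1995 / 1000) (by norm_num)
    (fun Kb hKb => ⟨_, _, trialDSpec_of hS K3 Kb hKb, hPT K3 Kb, ?_⟩) (q := 2 - 1 / 10 ^ 28)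
    (by norm_num) (by push_cast; exact h6)
  intro α _ n f hn hnb _ _
  refine ⟨PT.mul (PT.const 4000) (PT.max hn (PT.const 1)), ?_⟩
  refine ((PBd.const 4000).mul (hnb.add (PBd.const 1))).mono fun a => ?_
  refine Nat.mul_le_mul_left _ ?_
  omega

end Vale.Agent.P334.Alg.One.H100
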