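import Vale.Agent.P334.H100.Trial

set_option linter.all false

/-!
The deterministic procedure finds a good solution of every stable instance.
-/

namespace Vale.Agent.P334.Alg

open Vale.Agent.P334.Det

/-- The deterministic procedure: specification. -/
def StableDetSpec : Prop :=
  ∀ K3 Kb : ℕ, 1 ≤ Kb →
    ∀ {X : Type} [MetricSpace X] [DecidableEq X] (d : X → X → ℕ) (D : ℕ) (J F : List X),
      Inst d D J F → ∀ (k : ℕ) (S0 : List X), 2 ≤ k → (∀ x y, 4000 * J.length ∣ d x y) →
      0 < opt J.toFinset F.toFinset k →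
      (1 + 1 / ((Kb : ℝ) * Nat.size J.length)) * opt J.toFinset F.toFinset k ≤
        opt J.toFinset F.toFinset (k - 1) →
      S0.Nodup → S0 ⊆ F → S0 ≠ [] → S0.length ≤ k + K3 * Nat.size J.length →
      cost J.toFinset S0.toFinset ≤ 2 * opt J.toFinset F.toFinset k →
      cost J.toFinset (stableDet d D J F k K3 Kb S0).toFinset ≤
        1995 / 1000 * opt J.toFinset F.toFinset k

theorem stableDet_of (hB : LevelBSpec) (hR : RadSpec) (hC : ColorDetSpec) (hAn : AnchorDetSpec) :
    StableDetSpec := by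
  intro K3 Kb hKb X _ _ d D J F I k S0 hk hdiv hopt hstab hS0n hS0F hS0 hS0l hS0c
  set κq := K3 + 600000 * Kb with hκq
  set sz := Nat.size J.length with hsz
  have hJpos : 0 < J.length := List.length_pos_of_ne_nil I.hJ0
  have hsz1 : 1 ≤ sz := Nat.size_pos.2 hJpos
  have hszr : (1 : ℝ) ≤ sz := by exact_mod_cast hsz1
  have hKbr : (1 : ℝ) ≤ Kb := by exact_mod_cast hKb
  obtain ⟨x0, F', hF⟩ := List.exists_cons_of_ne_nil I.hF0
  set tq := tauQ K3 Kb sz with htq
  set tz := tauZ K3 Kb sz with htz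
  set b := satB K3 Kb sz with hb
  set t := satT K3 Kb sz with ht
  have htqv : tq = κq * sz := rfl
  have hbv : b = 2000000000 * tq := rfl
  have htv : t = 3 * (b + 1) := rfl
  have htzv : tz = (2 * K3 + 600000 * Kb) * sz + t := rfl
  have htq1 : 1 ≤ tq := by
    rw [htqv]
    exact Nat.mul_pos (by (clear * - hKb; omega)) hsz1
  have hβ : (0 : ℝ) < 1 / ((Kb : ℝ) * sz) := by (clear * - hKb hsz1; positivity)
  obtain ⟨g1, g2, g3, g4, g5, ⟨T0, g6, g7, g8, g9, g10, g11⟩, g12⟩ :=
    prep_spec (b := b) (t := t) (m := K3 * sz) (B := 2) (η := 1 / 100000) I.hd I.hD I.hJ hS0n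
      hS0F hS0 hk hβ (by norm_num) (by norm_num) hopt hstab hS0c hS0l
  set S := prep d D b t J F S0 with hSdef
  have hval : 2 * ((1 + 2 : ℝ) / (1 / 100000 * (1 / ((Kb : ℝ) * sz)))) =
      600000 * Kb * sz := by
    field_simp
    ring
  rw [hval] at g10 g11
  have h1 : (T0 \ S.toFinset).card ≤ tq := by
    have e1 : ((T0 \ S.toFinset).card : ℝ) ≤ ((tq : ℕ) : ℝ) := by
      refine g10.trans (le_of_eq ?_)
      rw [htqv, hκq]
      push_cast
      ring
    exact_mod_cast e1
  have h2 : (S.toFinset \ T0).card ≤ tz := by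
    have e1 : ((S.toFinset \ T0).card : ℝ) ≤ ((tz : ℕ) : ℝ) := by
      refine g11.trans (le_of_eq ?_)
      rw [htzv]
      push_cast
      ring
    exact_mod_cast e1
  have hoptT : opt J.toFinset F.toFinset k ≤ cost J.toFinset T0 := opt_le_cost _ g6 g7 g8
  have hT0c : cost J.toFinset T0 ≤ (1 + 24 / 100000) * opt J.toFinset F.toFinset k := by
    refine g9.trans (le_of_eq ?_)
    ring
  -- the good candidate
  have hev : ∃ T, T ∈ detCands d D x0 J F S tq tz ∧
        T ≠ [] ∧ T.length ≤ T0.card ∧ (cst d D J T : ℝ) ≤ 199 / 100 * cost J.toFinset T0 := by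
    have h2p : 0 < 2 ^ (2000 * tz) := by positivity
    have hMp : 0 < 2541000 ^ tq := by positivity
    by_cases hA : cost J.toFinset T0 < 5 * cost J.toFinset S.toFinset
    · have hsat : ∀ q ∈ F.toFinset, cost J.toFinset S.toFinset ≤
          cost J.toFinset (insert q S.toFinset) +
          cost J.toFinset S.toFinset / (2 * 10 ^ 9 * (tq : ℝ)) := by
        rcases g12 with g12 | g12
        · intro q hq
          have e1 := g12 q (List.mem_toFinset.1 hq)
          have e2 : (b : ℝ) = 2 * 10 ^ 9 * (tq : ℝ) := by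
            rw [hbv]; push_cast; norm_num
          rw [← e2]
          have e3 : (0 : ℝ) < b := by
            have : 0 < b := by rw [hbv]; omega
            exact_mod_cast this
          have e4 : 0 ≤ cost J.toFinset (insert q S.toFinset) := cost_nonneg _ _
          have e5 : cost J.toFinset (insert q S.toFinset) ≤ cost J.toFinset S.toFinset := by
            refine Finset.sum_le_sum fun j _ => ?_
            obtain ⟨x, hx⟩ := List.exists_mem_of_ne_nil _ g3
            exact Metric.infDist_le_infDist_of_subset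
              (by exact_mod_cast Finset.subset_insert q S.toFinset)
              ⟨x, by exact_mod_cast List.mem_toFinset.2 hx⟩
          have e6 : cost J.toFinset S.toFinset - cost J.toFinset (insert q S.toFinset) ≤
              cost J.toFinset S.toFinset / b := by
            rw [le_div_iff₀ e3]
            nlinarith only [e1, e5]
          linarith only [e6]
        · exfalso
          have e1 : Real.exp (-((t : ℝ) / ((b : ℝ) + 1))) ≤ 1 / 10 :=
            exp_neg_div_le (by rw [htv])
          have e2 : cost J.toFinset S.toFinset ≤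
              1 / 10 * (2 * opt J.toFinset F.toFinset k) :=
            g12.trans (mul_le_mul_of_nonneg_right e1 (by linarith only [hopt]))
          linarith only [hoptT, hA, e2]
      obtain ⟨z, Z, Cr, V, Q, B2, loss, G, rad, w1, w2, w3, w4, w5, w6, w7, w8, w9, w10, w11, w12,
        w13, w14, w15⟩ := case2_ev hB hR I hdiv x0 g1 g2 g3 g6 g7 htq1 h1 h2 hsat hA
      obtain ⟨χ, hχ, e1⟩ := exists_color hC g1 w1 w2 w3 w4 w5 w6 w7 w8
      obtain ⟨u, hu, e2⟩ := exists_bits (S := S) (B := bigS d D x0 J S tz)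
        (fun s hs => (List.mem_filter.1 hs).1) B2 x0 w14
      obtain ⟨pl, hpl, v, hv, e3⟩ := exists_anchors hAn x0 htq1 w9 w10 w11 w12 w13
      refine ⟨_, ?_, w15 (fun i => χ.getD i 0)
        (fun i => u / 2 ^ ((bigS d D x0 J S tz).idxOf (S.getD i x0)) % 2)
        (fun i => pl.getD i 0) (fun i => v / 2541000 ^ (min i tq) % 2541000) e1 e2 e3 _ rfl⟩
      unfold detCands
      refine List.mem_flatMap.2 ⟨χ, hχ, List.mem_flatMap.2 ⟨u, List.mem_range.2 hu,
        List.mem_flatMap.2 ⟨pl, List.mem_cons_of_mem _ hpl,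
          List.mem_flatMap.2 ⟨v, List.mem_range.2 hv, ?_⟩⟩⟩⟩
      exact (mem_cands d D x0 J F S tq tz _ _ _ _ _).2 ⟨z, w1, Q.card, w9, Or.inr rfl⟩
    · obtain ⟨z, Z, Cr, w1, w2, w3, w4, w5, w6, w7⟩ :=
        case1_ev I x0 g1 g2 g3 g6 g7 h2 (not_lt.1 hA)
      obtain ⟨χ, hχ, e1⟩ := exists_color hC g1 (V := S.toFinset) (loss := fun _ => 0) w1 w2
        (Finset.Subset.refl _) w3 w4 w5 w6 (fun _ => le_rfl)
      refine ⟨_, ?_, w7 _ e1 _ rfl⟩
      unfold detCands
      refine List.mem_flatMap.2 ⟨χ, hχ, List.mem_flatMap.2 ⟨0, List.mem_range.2 h2p,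
        List.mem_flatMap.2 ⟨[], List.mem_cons_self,
          List.mem_flatMap.2 ⟨0, List.mem_range.2 hMp, ?_⟩⟩⟩⟩
      exact (mem_cands d D x0 J F S tq tz _ _ _ _ _).2 ⟨z, w1, _, h1, Or.inl rfl⟩
  obtain ⟨T, hT1, hT2, hT3, hT4⟩ := hev
  obtain ⟨w1, w2⟩ := detTrial_le d D J F k b t tq tz S0 (by (clear * - hk; omega)) x0 F' hF T hT1
    hT2 (hT3.trans g8)
  have e0 : stableDet d D J F k K3 Kb S0 = detTrial d D J F k b t tq tz S0 := rfl
  rw [e0, ← I.cst_real w1]
  have e1 : (cst d D J (detTrial d D J F k b t tq tz S0) : ℝ) ≤ cst d D J T := by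
    exact_mod_cast w2
  linarith only [g9, hT4, e1]

end Vale.Agent.P334.Alg
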