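import Vale.Agent.P334.H100.Case
import Vale.Agent.P334.H100.Digits

set_option linter.all false

/-!
The deterministic procedure for stable instances.
-/

namespace Vale.Agent.P334.Alg

open Vale.Agent.P334.Det

section

variable {X : Type} [DecidableEq X]

/-- The family of colorings of the positions of a list of length `N`. -/
def colorFam (N tz : ℕ) : List (List ℕ) :=
  (List.range (tz + 1)).flatMap fun z => famC N z (tz + Nat.size N + 1)

/-- The candidates for all choices of the families. -/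
def detCands (d : X → X → ℕ) (D : ℕ) (x0 : X) (J F S : List X) (tq tz : ℕ) : List (List X) :=
  (colorFam S.length tz).flatMap fun χ =>
    (List.range (2 ^ (2000 * tz))).flatMap fun u =>
      ([] :: famA (bag d D J S).length tq).flatMap fun pl =>
        (List.range (2541000 ^ tq)).flatMap fun v =>
          cands d D x0 J F S tq tz (fun i => χ.getD i 0)
            (fun i => u / 2 ^ ((bigS d D x0 J S tz).idxOf (S.getD i x0)) % 2)
            (fun i => pl.getD i 0) (fun i => v / 2541000 ^ (min i tq) % 2541000)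

/-- The best candidate. -/
def detTrial (d : X → X → ℕ) (D : ℕ) (J F : List X) (k : ℕ) (b t tq tz : ℕ) (S0 : List X) :
    List X :=
  bestOf d D J F k ((F.take 1).flatMap fun x0 =>
    detCands d D x0 J F (prep d D b t J F S0) tq tz)

/-- The procedure for stable instances. -/
def stableDet (d : X → X → ℕ) (D : ℕ) (J F : List X) (k K3 Kb : ℕ) (S0 : List X) : List X :=
  detTrial d D J F k (satB K3 Kb (Nat.size J.length)) (satT K3 Kb (Nat.size J.length))
    (tauQ K3 Kb (Nat.size J.length)) (tauZ K3 Kb (Nat.size J.length)) S0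

theorem detTrial_valid (d : X → X → ℕ) (D : ℕ) (J F : List X) (hF : F.Nodup) (hF0 : F ≠ [])
    (k : ℕ) (hk : 1 ≤ k) (b t tq tz : ℕ) (S0 : List X) (hS0 : S0 ⊆ F) :
    (detTrial d D J F k b t tq tz S0).Nodup ∧ detTrial d D J F k b t tq tz S0 ⊆ F ∧
      detTrial d D J F k b t tq tz S0 ≠ [] ∧ (detTrial d D J F k b t tq tz S0).length ≤ k := by
  have hFt : F.take 1 ⊆ F := List.take_subset 1 F
  unfold detTrial
  obtain ⟨h1, h2, h3, _, _⟩ := bestOf_spec d D J F k ((F.take 1).flatMap (fun x0 =>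
    detCands d D x0 J F (prep d D b t J F S0) tq tz)) hk hF0
  rcases h3 with h3 | h3
  · obtain ⟨x0, hx0, hT⟩ := List.mem_flatMap.mp h3
    unfold detCands at hT
    obtain ⟨χ, -, hT⟩ := List.mem_flatMap.mp hT
    obtain ⟨u, -, hT⟩ := List.mem_flatMap.mp hT
    obtain ⟨pl, -, hT⟩ := List.mem_flatMap.mp hT
    obtain ⟨v, -, hT⟩ := List.mem_flatMap.mp hT
    obtain ⟨h4, h5⟩ := cands_spec d D x0 J F _ (prep_subset d D _ _ J F S0 hS0) (hFt hx0)
      _ _ _ _ _ _ _ hT
    exact ⟨h4, h5, h1, h2⟩
  · refine ⟨?_, ?_, h1, h2⟩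
    · rw [h3]; exact hF.sublist (List.take_sublist 1 F)
    · rw [h3]; exact hFt

/-- The result is at least as good as every feasible candidate. -/
theorem detTrial_le (d : X → X → ℕ) (D : ℕ) (J F : List X) (k b t tq tz : ℕ) (S0 : List X)
    (hk : 1 ≤ k) (x0 : X) (F' : List X) (hF : F = x0 :: F') (T : List X)
    (hT : T ∈ detCands d D x0 J F (prep d D b t J F S0) tq tz) (hT0 : T ≠ [])
    (hTk : T.length ≤ k) :
    detTrial d D J F k b t tq tz S0 ≠ [] ∧
    cst d D J (detTrial d D J F k b t tq tz S0) ≤ cst d D J T := by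
  have hF0 : F ≠ [] := by rw [hF]; exact List.cons_ne_nil _ _
  obtain ⟨h1, -, -, -, h2⟩ := bestOf_spec d D J F k ((F.take 1).flatMap (fun x0 =>
    detCands d D x0 J F (prep d D b t J F S0) tq tz)) hk hF0
  refine ⟨h1, h2 T ?_ hT0 hTk⟩
  have : F.take 1 = [x0] := by rw [hF]; rfl
  rw [this]
  simpa using hT

/-! ### Good choices -/

/-- A good coloring. -/
theorem exists_color (hC : ColorDetSpec) {S : List X} (hS : S.Nodup) {tz z : ℕ}
    {Z Cr V : Finset X} {loss : X → ℝ} (hz : z ≤ tz) (hZ : Z.card = z) (hV : V ⊆ S.toFinset)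
    (hZV : Z ⊆ V) (hCV : Cr ⊆ V) (hdis : Disjoint Z Cr) (hCr : Cr.card ≤ tz)
    (hloss : ∀ s, 0 ≤ loss s) :
    ∃ χ ∈ colorFam S.length tz, Ev1 S z Z Cr V loss (fun i => χ.getD i 0) := by
  classical
  have hmem : ∀ s ∈ V, s ∈ S := fun s hs => List.mem_toFinset.1 (hV hs)
  have hinj : Set.InjOn S.idxOf (V : Set X) := by
    intro x hx y hy hxy
    exact (List.idxOf_inj (hmem x hx)).1 hxy
  have hlt : ∀ s ∈ V, S.idxOf s < S.length := fun s hs => List.idxOf_lt_length_iff.2 (hmem s hs)
  have hsubR : ∀ A : Finset X, A ⊆ V → A.image S.idxOf ⊆ Finset.range S.length := by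
    intro A hA i hi
    obtain ⟨s, hs, rfl⟩ := Finset.mem_image.1 hi
    exact Finset.mem_range.2 (hlt s (hA hs))
  have hdisI : ∀ A B : Finset X, A ⊆ V → B ⊆ V → Disjoint A B →
      Disjoint (A.image S.idxOf) (B.image S.idxOf) := by
    intro A B hA hB hAB
    rw [Finset.disjoint_left]
    intro i hi hi'
    obtain ⟨s, hs, rfl⟩ := Finset.mem_image.1 hi
    obtain ⟨s', hs', h⟩ := Finset.mem_image.1 hi'
    have : s' = s := hinj (hB hs') (hA hs) h
    subst this
    exact Finset.disjoint_left.1 hAB hs hs'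
  set O : Finset X := (V \ Z) \ Cr with hO
  have hOV : O ⊆ V := (Finset.sdiff_subset).trans Finset.sdiff_subset
  set loss' : ℕ → ℝ := fun i => if h : i < S.length then loss S[i] else 0 with hloss'
  have hl' : ∀ s ∈ V, loss' (S.idxOf s) = loss s := by
    intro s hs
    rw [hloss']
    simp only
    rw [dif_pos (hlt s hs), List.getElem_idxOf]
  obtain ⟨χ, hχ, h1, h2, h3, h4⟩ := hC S.length z (tz + Nat.size S.length + 1)
    (Z.image S.idxOf) (Cr.image S.idxOf) (O.image S.idxOf) loss' (hsubR _ hZV) (hsubR _ hCV)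
    (hsubR _ hOV) (hdisI _ _ hZV hCV hdis)
    (hdisI _ _ hZV hOV (by
      rw [Finset.disjoint_left]
      intro x hx hx'
      rw [hO, Finset.mem_sdiff, Finset.mem_sdiff] at hx'
      exact hx'.1.2 hx))
    (hdisI _ _ hCV hOV (by
      rw [Finset.disjoint_left]
      intro x hx hx'
      rw [hO, Finset.mem_sdiff, Finset.mem_sdiff] at hx'
      exact hx'.2 hx))
    (by rw [Finset.card_image_of_injOn (hinj.mono (by exact_mod_cast hZV)), hZ])
    (by omega)
    (by
      rw [Finset.card_image_of_injOn (hinj.mono (by exact_mod_cast hCV))]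
      omega)
    (by omega) (by omega)
    (by
      intro i
      rw [hloss']
      simp only
      split_ifs
      · exact hloss _
      · exact le_rfl)
  have hcol : ∀ s ∈ V, col (fun i => χ.getD i 0) z S s = χ.getD (S.idxOf s) 0 := by
    intro s hs
    unfold col
    refine Nat.mod_eq_of_lt ?_
    have e1 := h2 (S.idxOf s) (Finset.mem_range.2 (hlt s hs))
    have e2 := lt_ncol z
    show χ.getD (S.idxOf s) 0 < ncol z
    omega
  refine ⟨χ, ?_, ?_, ?_, ?_⟩
  · unfold colorFam
    exact List.mem_flatMap.2 ⟨z, List.mem_range.2 (by omega), hχ⟩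
  · have h5 : Set.BijOn S.idxOf (Z : Set X) ((Z.image S.idxOf : Finset ℕ) : Set ℕ) := by
      rw [Finset.coe_image]
      exact (hinj.mono (by exact_mod_cast hZV)).bijOn_image
    exact (h1.comp h5).congr fun s hs => (hcol s (hZV hs)).symm
  · intro s hs
    rw [hcol s (hCV hs), h3 _ (Finset.mem_image_of_mem _ hs)]
  · rw [Finset.sum_image (fun x hx y hy h => hinj (hOV hx) (hOV hy) h),
      Finset.sum_image (fun x hx y hy h => hinj (hOV hx) (hOV hy) h)] at h4
    rw [← hO]
    have e1 : ∑ s ∈ O, (if col (fun i => χ.getD i 0) z S s < z then loss s else 0) =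
        ∑ s ∈ O, (if χ.getD (S.idxOf s) 0 < z then loss' (S.idxOf s) else 0) :=
      Finset.sum_congr rfl fun s hs => by rw [hcol s (hOV hs), hl' s (hOV hs)]
    have e2 : ∑ s ∈ O, loss' (S.idxOf s) = ∑ s ∈ O, loss s :=
      Finset.sum_congr rfl fun s hs => hl' s (hOV hs)
    rw [e1]
    rw [e2] at h4
    have e3 : 0 ≤ ∑ s ∈ O, loss s := Finset.sum_nonneg fun s _ => hloss s
    linarith only [h4, e3]

/-- Good bits. -/
theorem exists_bits {S B : List X} (hBS : ∀ s ∈ B, s ∈ S) (B2 : Finset X) (x0 : X) {m : ℕ}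
    (hB : B.length ≤ m) :
    ∃ u < 2 ^ m, Ev2 S B.toFinset B2 (fun i => u / 2 ^ (B.idxOf (S.getD i x0)) % 2) := by
  classical
  obtain ⟨u, hu, hu'⟩ := digitSpec 2 m (fun i => if B.getD i x0 ∈ B2 then 1 else 0) (by norm_num)
    (fun i _ => by split_ifs <;> norm_num)
  refine ⟨u, hu, ?_⟩
  intro s hs
  rw [List.mem_toFinset] at hs
  have h1 : S.getD (S.idxOf s) x0 = s := by
    have h2 : S.idxOf s < S.length := List.idxOf_lt_length_iff.2 (hBS s hs)
    rw [List.getD_eq_getElem _ _ h2, List.getElem_idxOf]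
  have h3 : B.idxOf s < B.length := List.idxOf_lt_length_iff.2 hs
  have h4 : B.getD (B.idxOf s) x0 = s := by
    rw [List.getD_eq_getElem _ _ h3, List.getElem_idxOf]
  simp only
  rw [h1, hu' _ (lt_of_lt_of_le h3 hB), h4]
  by_cases h5 : s ∈ B2
  · rw [if_pos h5]; simp [h5]
  · rw [if_neg h5]; simp [h5]

/-- The number of indices is the number of elements. -/
theorem countP_eq_card (L : List X) (x0 : X) (G : Finset X) :
    L.countP (fun x => decide (x ∈ G)) =
      ((Finset.range L.length).filter (fun i => L.getD i x0 ∈ G)).card := by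
  induction L with
  | nil => simp
  | cons a L ih =>
    rw [List.countP_cons, ih, List.length_cons, Finset.range_add_one', Finset.filter_insert,
      Finset.filter_map, ← Finset.card_map ⟨fun i => i + 1, fun i j h => by simpa using h⟩]
    by_cases h : a ∈ G
    · rw [if_pos (by simpa using h), if_pos (by simpa using h), Finset.card_insert_of_notMem]
      · congr 2
      · simp
    · rw [if_neg (by simpa using h), if_neg (by simpa using h), add_zero]
      congr 2

/-- Good anchors. -/
theorem exists_anchors (hA : AnchorDetSpec) {L : List X} (x0 : X) {tq : ℕ} {Q : Finset X}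
    {G : X → Finset X} {rad : X → X → ℕ} (htq : 1 ≤ tq) (hQ : Q.card ≤ tq) (hL : 0 < L.length)
    (hdis : ∀ o ∈ Q, ∀ o' ∈ Q, o ≠ o' → Disjoint (G o) (G o'))
    (hw : ∀ o ∈ Q, (1 / 572000000 : ℝ) * L.length / tq ≤
      ((L.countP (fun x => decide (x ∈ G o)) : ℕ) : ℝ))
    (hrad : ∀ o ∈ Q, ∀ p ∈ G o, rad o p < 2541000) :
    ∃ pl ∈ famA L.length tq, ∃ v < 2541000 ^ tq,
      ∃ o : Fin Q.card ≃ {x // x ∈ Q}, ∀ i : Fin Q.card,
        L.getD (pl.getD i 0 % L.length) x0 ∈ G (o i) ∧
        (v / 2541000 ^ (min (i : ℕ) tq) % 2541000) % 2541000 =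
          rad (o i) (L.getD (pl.getD i 0 % L.length) x0) := by
  classical
  obtain ⟨pl, hpl, os, h1, h2, h3⟩ := hA L.length tq Q
    (fun o => (Finset.range L.length).filter (fun i => L.getD i x0 ∈ G o)) hL htq hQ
    (fun o _ => Finset.filter_subset _ _)
    (by
      intro o ho o' ho' hne
      rw [Finset.disjoint_left]
      intro i hi hi'
      rw [Finset.mem_filter] at hi hi'
      exact Finset.disjoint_left.1 (hdis o ho o' ho' hne) hi.2 hi'.2)
    (by
      intro o ho
      rw [← countP_eq_card L x0 (G o)]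
      exact hw o ho)
  have hlen : os.length = Q.card := by rw [← h2, List.toFinset_card_of_nodup h1]
  have hmem : ∀ x ∈ os, x ∈ Q := fun x hx => by rw [← h2]; exact List.mem_toFinset.2 hx
  let f : Fin Q.card → {x // x ∈ Q} := fun i =>
    ⟨os[(i : ℕ)]'(by rw [hlen]; exact i.2), hmem _ (List.getElem_mem _)⟩
  have hf : Function.Injective f := by
    intro i j hij
    have h4 : os[(i : ℕ)]'(by rw [hlen]; exact i.2) = os[(j : ℕ)]'(by rw [hlen]; exact j.2) :=
      congrArg Subtype.val hij
    exact Fin.ext ((List.Nodup.getElem_inj_iff h1).1 h4)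
  have hfb : Function.Bijective f := by
    rw [Fintype.bijective_iff_injective_and_card]
    exact ⟨hf, by simp⟩
  have hll : pl.length = os.length := h3.length_eq
  have hhit : ∀ i : Fin Q.card, L.getD (pl.getD i 0 % L.length) x0 ∈ G (f i) := by
    intro i
    have h5 : (i : ℕ) < pl.length := by rw [hll, hlen]; exact i.2
    have h6 := List.Forall₂.get h3 h5 (by rw [hlen]; exact i.2)
    simp only [List.get_eq_getElem] at h6
    rw [Finset.mem_filter] at h6
    rw [List.getD_eq_getElem _ _ h5]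
    exact h6.2
  obtain ⟨v, hv, hv'⟩ := digitSpec 2541000 tq
    (fun i => if h : i < Q.card then rad (f ⟨i, h⟩) (L.getD (pl.getD i 0 % L.length) x0) else 0)
    (by norm_num) (by
      intro i _
      split_ifs with h
      · exact hrad _ (f ⟨i, h⟩).2 _ (hhit ⟨i, h⟩)
      · norm_num)
  refine ⟨pl, hpl, v, hv, Equiv.ofBijective f hfb, fun i => ⟨hhit i, ?_⟩⟩
  have hi : (i : ℕ) < tq := lt_of_lt_of_le i.2 hQ
  rw [min_eq_left hi.le, hv' i hi, dif_pos i.2]
  exact Nat.mod_eq_of_lt (hrad _ (f i).2 _ (hhit i))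

end

end Vale.Agent.P334.Alg
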